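import Vale.Agent.Q258D.Rows

/-!
# Row A: stable orbits of the braid group on rows of coloured bands
-/

set_option linter.all false

namespace Vale.Agent.Q258D

open Vale.Agent.P258.Braid

namespace RA

variable {H : Type} [Group H]

/-! ### Rows related by crossings -/

/-- `l'` is reached from `l` by crossings -/
def Br (l l' : List (St 8 H)) : Prop := ∃ w, run w l = l'

theorem Br.refl (l : List (St 8 H)) : Br l l := ⟨[], rfl⟩

theorem Br.symm {l l' : List (St 8 H)} (h : Br l l') : Br l' l := by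
  obtain ⟨w, rfl⟩ := h
  exact ⟨inverse w, run_inverse w l⟩

theorem Br.trans {l l' l'' : List (St 8 H)} (h : Br l l') (h' : Br l' l'') : Br l l'' := by
  obtain ⟨w, rfl⟩ := h
  obtain ⟨w', rfl⟩ := h'
  exact ⟨w ++ w', run_append w w' l⟩

theorem cross_app (e : Bool) (r : List (St 8 H)) : ∀ (i : ℕ) (l : List (St 8 H)),
    Br (l ++ r) (cross i e l ++ r)
  | 0, [] => Br.refl _
  | 0, [_] => Br.refl _
  | 0, s :: t :: l => ⟨[(0, e)], rfl⟩
  | _ + 1, [] => Br.refl _
  | i + 1, s :: l => by
    obtain ⟨w, hw⟩ := cross_app e r i l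
    refine ⟨w.map fun x => (x.1 + 1, x.2), ?_⟩
    have key : ∀ (w : Word) (a : List (St 8 H)),
        run (w.map fun x => (x.1 + 1, x.2)) (s :: a) = s :: run w a := by
      intro w
      induction w with
      | nil => intro a; rfl
      | cons x w ih => intro a; exact ih (cross x.1 x.2 a)
    change run _ (s :: (l ++ r)) = s :: (cross i e l ++ r)
    rw [key, hw]

theorem Br.app_right {l l' : List (St 8 H)} (h : Br l l') (r : List (St 8 H)) :
    Br (l ++ r) (l' ++ r) := by
  obtain ⟨w, rfl⟩ := h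
  induction w generalizing l with
  | nil => exact Br.refl _
  | cons x w ih => exact (cross_app x.2 r x.1 l).trans (ih (l := cross x.1 x.2 l))

theorem Br.cons {l l' : List (St 8 H)} (h : Br l l') (s : St 8 H) : Br (s :: l) (s :: l') := by
  obtain ⟨w, rfl⟩ := h
  refine ⟨w.map fun x => (x.1 + 1, x.2), ?_⟩
  induction w generalizing l with
  | nil => rfl
  | cons x w ih => exact ih (l := cross x.1 x.2 l)

theorem Br.app_left {l l' : List (St 8 H)} (h : Br l l') (r : List (St 8 H)) :
    Br (r ++ l) (r ++ l') := by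
  induction r with
  | nil => exact h
  | cons s r ih => exact ih.cons s

/-! ### The monoid of orbits -/

/-- colour and frame -/
abbrev X (H : Type) : Type := Fin 8 × H

/-- the inverse of the label -/
def px (b : Fin 8 → H) (x : X H) : H := (x.2⁻¹ * b x.1 * x.2)⁻¹

/-- the action on frames -/
def lx (g : H) (x : X H) : X H := (x.1, x.2 * g⁻¹)

theorem px_lx (b : Fin 8 → H) (g : H) (x : X H) : px b (lx g x) = g * px b x * g⁻¹ := by
  simp only [px, lx]; group

theorem lx_mul (g g' : H) (x : X H) : lx (g * g') x = lx g (lx g' x) := by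
  simp only [lx, mul_inv_rev, mul_assoc]

theorem lx_one (x : X H) : lx 1 x = x := by simp [lx]

/-- one crossing -/
def rel (b : Fin 8 → H) (u v : FreeMonoid (X H)) : Prop :=
  ∃ s t, u = FreeMonoid.of s * FreeMonoid.of t ∧
    v = FreeMonoid.of (lx (px b s) t) * FreeMonoid.of s

/-- the monoid of orbits -/
abbrev M (b : Fin 8 → H) : Type := (conGen (rel b)).Quotient

/-- the class of a word -/
def mkM (b : Fin 8 → H) : FreeMonoid (X H) →* M b := Con.mk' _

/-- the class of a band -/
def gn (b : Fin 8 → H) (x : X H) : M b := mkM b (FreeMonoid.of x)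

variable {b : Fin 8 → H}

theorem mkM_surj (a : M b) : ∃ u, mkM b u = a := Con.mk'_surjective a

theorem gn_rel (s t : X H) : gn b s * gn b t = gn b (lx (px b s) t) * gn b s := by
  simp only [gn, ← map_mul]
  exact (Con.eq _).2 (ConGen.Rel.of _ _ ⟨s, t, rfl, rfl⟩)

theorem M_ind {P : M b → Prop} (h1 : P 1) (h : ∀ s a, P a → P (gn b s * a)) (a : M b) : P a := by
  obtain ⟨u, rfl⟩ := mkM_surj a
  induction u using FreeMonoid.inductionOn' with
  | one => rw [map_one]; exact h1
  | of_mul s u ih => rw [map_mul]; exact h s _ ih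

/-- homomorphisms out of the monoid of orbits -/
def liftM {G : Type} [Monoid G] (f : X H → G)
    (hf : ∀ s t, f s * f t = f (lx (px b s) t) * f s) : M b →* G :=
  Con.lift _ (FreeMonoid.lift f) (Con.conGen_le.2 (by
    rintro u v ⟨s, t, rfl, rfl⟩
    rw [Con.ker_rel]
    simp only [map_mul, FreeMonoid.lift_eval_of]
    exact hf s t))

theorem liftM_gn {G : Type} [Monoid G] (f : X H → G)
    (hf : ∀ s t, f s * f t = f (lx (px b s) t) * f s) (x : X H) : liftM f hf (gn b x) = f x := by
  unfold liftM gn mkM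
  rw [Con.lift_mk', FreeMonoid.lift_eval_of]

variable (b) in
/-- the product of the inverses of the labels -/
def pm : M b →* H := liftM (px b) fun s t => by rw [px_lx]; group

theorem pm_gn (x : X H) : pm b (gn b x) = px b x := liftM_gn _ _ _

variable (b) in
/-- the action of the group on the monoid -/
def lm (g : H) : M b →* M b := liftM (fun x => gn b (lx g x)) fun s t => by
  rw [gn_rel, px_lx, ← lx_mul, ← lx_mul]
  congr 3
  group

theorem lm_gn (g : H) (x : X H) : lm b g (gn b x) = gn b (lx g x) := liftM_gn _ _ _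

theorem lm_mul (g g' : H) (a : M b) : lm b (g * g') a = lm b g (lm b g' a) := by
  induction a using M_ind with
  | h1 => simp only [map_one]
  | h s a ih => simp only [map_mul, lm_gn, lx_mul, ih]

theorem lm_one (a : M b) : lm b 1 a = a := by
  induction a using M_ind with
  | h1 => simp only [map_one]
  | h s a ih => simp only [map_mul, lm_gn, lx_one, ih]

theorem pm_lm (g : H) (a : M b) : pm b (lm b g a) = g * pm b a * g⁻¹ := by
  induction a using M_ind with
  | h1 => simp
  | h s a ih => simp only [map_mul, lm_gn, pm_gn, px_lx, ih]; group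

theorem gn_mul (s : X H) (x : M b) : gn b s * x = lm b (px b s) x * gn b s := by
  induction x using M_ind with
  | h1 => simp
  | h t x ih => rw [← mul_assoc, gn_rel, mul_assoc, ih, map_mul, lm_gn, mul_assoc]

/-- the basic rule -/
theorem mul_eq (a x : M b) : a * x = lm b (pm b a) x * a := by
  induction a using M_ind generalizing x with
  | h1 => simp [lm_one]
  | h s a ih => rw [mul_assoc, ih, ← mul_assoc, gn_mul, map_mul, pm_gn, lm_mul, mul_assoc]

theorem central {a : M b} (ha : pm b a = 1) (x : M b) : a * x = x * a := by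
  rw [mul_eq, ha, lm_one]

variable (b) in
/-- the colours -/
def cm' : M b →* Multiplicative (Multiset (Fin 8)) :=
  liftM (fun x => Multiplicative.ofAdd {x.1}) fun s t => mul_comm _ _

/-- the number of bands of a colour -/
def cnt (a : M b) (c : Fin 8) : ℕ := (Multiplicative.toAdd (cm' b a)).count c

theorem cnt_one (c : Fin 8) : cnt (1 : M b) c = 0 := by simp [cnt]

theorem cnt_mul (a a' : M b) (c : Fin 8) : cnt (a * a') c = cnt a c + cnt a' c := by
  simp [cnt]

theorem cnt_gn (x : X H) (c : Fin 8) : cnt (gn b x) c = if c = x.1 then 1 else 0 := by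
  have h : cm' b (gn b x) = Multiplicative.ofAdd {x.1} := liftM_gn _ _ _
  unfold cnt
  rw [h]
  simp [Multiset.count_singleton]

theorem cnt_pow (a : M b) (c : Fin 8) (n : ℕ) : cnt (a ^ n) c = n * cnt a c := by
  induction n with
  | zero => simp [cnt_one]
  | succ n ih => rw [pow_succ, cnt_mul, ih]; ring

theorem cnt_mk (l : List (X H)) (c : Fin 8) :
    cnt (mkM b (FreeMonoid.ofList l)) c = (l.map Prod.fst).count c := by
  induction l with
  | nil => simp [cnt_one]
  | cons s l ih =>
    rw [FreeMonoid.ofList_cons, map_mul, cnt_mul, ih]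
    change cnt (gn b s) c + _ = _
    rw [cnt_gn, List.map_cons, List.count_cons]
    by_cases h : c = s.1
    · simp [h, add_comm]
    · simp [h, Ne.symm h]

open Classical in
/-- the indicator of the rows with labels in a subgroup -/
noncomputable def ind (K : Subgroup H) : M b →* ℕ :=
  liftM (fun x => if px b x ∈ K then 1 else 0) fun s t => by
    rw [px_lx]
    by_cases h : px b s ∈ K
    · have : px b s * px b t * (px b s)⁻¹ ∈ K ↔ px b t ∈ K := by
        rw [K.mul_mem_cancel_right (K.inv_mem h), K.mul_mem_cancel_left h]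
      simp only [this, mul_comm]
    · simp [h]

/-- the labels lie in a subgroup -/
def In (K : Subgroup H) (a : M b) : Prop := ind K a = 1

theorem in_one (K : Subgroup H) : In K (1 : M b) := map_one _

theorem in_mul {K : Subgroup H} {a a' : M b} : In K (a * a') ↔ In K a ∧ In K a' := by
  unfold In
  rw [map_mul, mul_eq_one]

theorem in_gn {K : Subgroup H} {x : X H} : In K (gn b x) ↔ px b x ∈ K := by
  classical
  have h : ind K (gn b x) = if px b x ∈ K then 1 else 0 := by
    unfold ind
    rw [liftM_gn]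
  unfold In
  rw [h]
  by_cases h : px b x ∈ K <;> simp [h]

theorem in_pow {K : Subgroup H} {a : M b} (h : In K a) (n : ℕ) : In K (a ^ n) := by
  induction n with
  | zero => rw [pow_zero]; exact in_one K
  | succ n ih => rw [pow_succ]; exact in_mul.2 ⟨ih, h⟩

/-- the labels generate the group -/
def GenM (a : M b) : Prop := ∀ K : Subgroup H, In K a → K = ⊤

theorem GenM.mul {a : M b} (h : GenM a) (a' : M b) : GenM (a * a') :=
  fun K hK => h K (in_mul.1 hK).1

/-- the elements that can be absorbed by `R` -/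
def absorb (R : M b) : Subgroup H where
  carrier := {g | ∀ B : M b, pm b B = 1 → R * lm b g B = R * B}
  one_mem' := fun B _ => by rw [lm_one]
  mul_mem' := fun {g g'} hg hg' B hB => by
    rw [lm_mul, hg _ (by rw [pm_lm, hB]; group), hg' B hB]
  inv_mem' := fun {g} hg B hB => by
    rw [← hg (lm b g⁻¹ B) (by rw [pm_lm, hB]; group), ← lm_mul, mul_inv_cancel, lm_one]

theorem in_absorb (R A : M b) : In (absorb (A * R)) R := by
  induction R using M_ind generalizing A with
  | h1 => exact in_one _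
  | h s R ih =>
    refine in_mul.2 ⟨in_gn.2 fun B hB => ?_, by rw [← mul_assoc]; exact ih _⟩
    have h1 : pm b (lm b (px b s) B) = 1 := by rw [pm_lm, hB]; group
    calc A * (gn b s * R) * lm b (px b s) B = A * (lm b (px b s) B * gn b s * R) := by
          rw [mul_assoc, ← central h1, mul_assoc]
      _ = A * (gn b s * R) * B := by
          rw [← gn_mul, mul_assoc, central hB, mul_assoc, mul_assoc]

/-- a block with trivial product can be moved round the generating rest -/
theorem GenM.move {R : M b} (hR : GenM R) (g : H) {B : M b} (hB : pm b B = 1) :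
    R * lm b g B = R * B := by
  have h := hR _ (in_absorb R 1)
  rw [one_mul] at h
  have hg : g ∈ absorb R := by rw [h]; trivial
  exact hg B hB

/-! ### Caps -/

/-- the even colours -/
def ev : Fin 4 → Fin 8 := ![0, 2, 4, 6]

/-- the odd colours -/
def od : Fin 4 → Fin 8 := ![1, 3, 5, 7]

theorem bar_ev : ∀ j, bar (ev j) = od j := by decide

theorem ev_ne_od : ∀ j j', ev j ≠ od j' := by decide

theorem ev_inj : ∀ j j', ev j = ev j' ↔ j = j' := by decide

theorem od_inj : ∀ j j', od j = od j' ↔ j = j' := by decide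

theorem ev_or_od : ∀ c, ∃ j, c = ev j ∨ c = od j := by decide

variable (b) in
/-- a cap -/
def cap (j : Fin 4) (h : H) : M b := gn b (ev j, h) * gn b (od j, h)

theorem px_od (hb : OddB b) (j : Fin 4) (h : H) : px b (od j, h) = (px b (ev j, h))⁻¹ := by
  simp only [px]
  rw [← bar_ev, hb]
  group

theorem pm_cap (hb : OddB b) (j : Fin 4) (h : H) : pm b (cap b j h) = 1 := by
  rw [cap, map_mul, pm_gn, pm_gn, px_od hb, mul_inv_cancel]

theorem lm_cap (g : H) (j : Fin 4) (h : H) : lm b g (cap b j h) = cap b j (h * g⁻¹) := by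
  rw [cap, map_mul, lm_gn, lm_gn]
  rfl

theorem GenM.cap (hb : OddB b) {R : M b} (hR : GenM R) (j : Fin 4) (h : H) :
    R * cap b j h = R * cap b j 1 := by
  rw [← hR.move h (pm_cap hb j h), lm_cap, mul_inv_cancel]

theorem cnt_cap (j : Fin 4) (h : H) (c : Fin 8) :
    cnt (cap b j h) c = (if c = ev j then 1 else 0) + if c = od j then 1 else 0 := by
  rw [cap, cnt_mul, cnt_gn, cnt_gn]

/-- equal bands are pulled to the end -/
theorem pull (l : List (X H)) (s : X H) [DecidableEq H] :
    ∃ a, mkM b (FreeMonoid.ofList l) = a * gn b s ^ l.count s := by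
  induction l with
  | nil => exact ⟨1, by simp⟩
  | cons t l ih =>
    obtain ⟨a, ha⟩ := ih
    rw [FreeMonoid.ofList_cons, map_mul, ha]
    change ∃ a', gn b t * _ = _
    by_cases h : t = s
    · subst h
      refine ⟨lm b (px b t) a, ?_⟩
      rw [List.count_cons_self, ← mul_assoc, gn_mul, pow_succ', mul_assoc]
    · refine ⟨gn b t * a, ?_⟩
      rw [List.count_cons_of_ne h, mul_assoc]

theorem count_fst [Fintype H] [DecidableEq H] (l : List (X H)) (c : Fin 8) :
    (l.map Prod.fst).count c = ∑ h : H, l.count (c, h) := by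
  induction l with
  | nil => simp
  | cons t l ih =>
    obtain ⟨c', h'⟩ := t
    simp only [List.map_cons, List.count_cons, ih, Finset.sum_add_distrib, beq_iff_eq,
      Prod.mk.injEq]
    congr 1
    by_cases h : c' = c <;> simp [h]

theorem pull' [Finite H] (a : M b) (c : Fin 8) (e : ℕ) (h : e * Nat.card H < cnt a c) :
    ∃ h a', a = a' * gn b (c, h) ^ (e + 1) := by
  classical
  haveI := Fintype.ofFinite H
  obtain ⟨u, rfl⟩ := mkM_surj a
  rw [← FreeMonoid.ofList_toList u] at h ⊢
  generalize FreeMonoid.toList u = l at h ⊢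
  rw [cnt_mk, count_fst] at h
  have : ∃ x : H, e < l.count (c, x) := by
    by_contra hc
    push Not at hc
    have := Finset.sum_le_card_nsmul Finset.univ (fun x => l.count (c, x)) e fun x _ => hc x
    rw [Finset.card_univ, ← Nat.card_eq_fintype_card, smul_eq_mul, mul_comm] at this
    omega
  obtain ⟨x, hx⟩ := this
  obtain ⟨a, ha⟩ := pull (b := b) l (c, x)
  obtain ⟨d, hd⟩ := Nat.exists_eq_add_of_lt hx
  refine ⟨x, a * gn b (c, x) ^ d, ?_⟩
  rw [ha, hd, mul_assoc, ← pow_add]
  congr 2
  omega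

/-- a cap splits off -/
theorem split_cap [Finite H] (hb : OddB b) {a : M b} (ha : GenM a) (j : Fin 4)
    (h1 : 2 * Nat.card H * Nat.card H < cnt a (od j)) (h2 : 0 < cnt a (ev j)) :
    ∃ a', GenM a' ∧ a = a' * cap b j 1 := by
  obtain ⟨h', a1, rfl⟩ := pull' a (od j) _ h1
  rw [cnt_mul, cnt_pow, cnt_gn, if_neg (ev_ne_od j j), mul_zero, add_zero] at h2
  obtain ⟨h, a2, rfl⟩ := pull' a1 (ev j) 0 (by simpa using h2)
  have hp : ∀ x : H, pm b (gn b (od j, x) ^ (2 * Nat.card H)) = 1 := fun x => by
    rw [map_pow, mul_comm, pow_mul, pow_card_eq_one', one_pow]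
  obtain ⟨m, hm⟩ : ∃ m, 2 * Nat.card H = m + 2 := ⟨2 * Nat.card H - 2, by
    have := Nat.card_pos (α := H)
    omega⟩
  set s := gn b (od j, h') with hs
  set s' := gn b (od j, h) with hs'
  set t := gn b (ev j, h) with ht
  have hR : GenM (a2 * t * s) := fun K hK => by
    obtain ⟨k1, k3⟩ := in_mul.1 hK
    refine ha K (in_mul.2 ⟨?_, in_pow k3 _⟩)
    rwa [zero_add, pow_one]
  have hR' : GenM (a2 * s' ^ (m + 1) * s) := fun K hK => by
    obtain ⟨k1, k3⟩ := in_mul.1 hK
    obtain ⟨k1, k2⟩ := in_mul.1 k1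
    rw [pow_succ] at k2
    have k4 := in_gn.1 (in_mul.1 k2).2
    rw [px_od hb, K.inv_mem_iff] at k4
    exact hR K (in_mul.2 ⟨in_mul.2 ⟨k1, in_gn.2 k4⟩, k3⟩)
  refine ⟨_, hR', ?_⟩
  rw [← hR'.cap hb j h]
  have e1 : lm b (h⁻¹ * h') (s ^ (2 * Nat.card H)) = s' ^ (2 * Nat.card H) := by
    rw [map_pow, hs, lm_gn]
    simp [lx, hs']
  have e2 := hR.move (h⁻¹ * h') (hp h')
  rw [← hs, e1] at e2
  have e3 := central (hp h)
  rw [← hs'] at e3
  have e4 := central (pm_cap hb j h)
  calc a2 * t ^ (0 + 1) * s ^ (2 * Nat.card H + 1) = a2 * t * s * s ^ (2 * Nat.card H) := by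
        rw [zero_add, pow_one, pow_succ', mul_assoc (a2 * t)]
    _ = a2 * t * (s * s' ^ (2 * Nat.card H)) := by rw [← e2, mul_assoc (a2 * t)]
    _ = a2 * (cap b j h * (s' ^ (m + 1) * s)) := by
        rw [← e3, hm, pow_succ' s' (m + 1), cap, ← hs', ← ht]
        simp only [mul_assoc]
    _ = _ := by rw [e4]; simp only [mul_assoc]

/-! ### Standard caps -/

variable (b) in
/-- products of standard caps -/
def P (n : Fin 4 → ℕ) : M b :=
  cap b 0 1 ^ n 0 * (cap b 1 1 ^ n 1 * (cap b 2 1 ^ n 2 * cap b 3 1 ^ n 3))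

theorem pm_P (hb : OddB b) (n : Fin 4 → ℕ) : pm b (P b n) = 1 := by
  simp [P, pm_cap hb]

theorem P_zero : P b 0 = 1 := by simp [P]

theorem P_add (hb : OddB b) (n n' : Fin 4 → ℕ) : P b (n + n') = P b n * P b n' := by
  have h : ∀ (j : Fin 4) (k : ℕ) (x y : M b), x * (cap b j 1 ^ k * y) = cap b j 1 ^ k * (x * y) :=
    fun j k x y => by
      rw [← mul_assoc, ← central (a := cap b j 1 ^ k) (by rw [map_pow, pm_cap hb, one_pow]),
        mul_assoc]
  simp only [P, Pi.add_apply, pow_add, mul_assoc]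
  congr 1
  rw [h 0 (n' 0) (cap b 3 1 ^ n 3), h 0 (n' 0) (cap b 2 1 ^ n 2), h 0 (n' 0) (cap b 1 1 ^ n 1),
    h 1 (n' 1) (cap b 3 1 ^ n 3), h 1 (n' 1) (cap b 2 1 ^ n 2), h 2 (n' 2) (cap b 3 1 ^ n 3)]

theorem P_single (j : Fin 4) : P b (Pi.single j 1) = cap b j 1 := by
  fin_cases j <;> simp [P]

theorem cnt_P_ev (n : Fin 4 → ℕ) (j : Fin 4) : cnt (P b n) (ev j) = n j := by
  simp only [P, cnt_mul, cnt_pow, cnt_cap, ev_inj, if_neg (ev_ne_od _ _)]
  fin_cases j <;> simp

theorem cnt_P_od (n : Fin 4 → ℕ) (j : Fin 4) : cnt (P b n) (od j) = n j := by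
  simp only [P, cnt_mul, cnt_pow, cnt_cap, od_inj, if_neg (ev_ne_od _ _).symm]
  fin_cases j <;> simp

variable (b) in
/-- products of caps -/
def Caps' : Submonoid (M b) := Submonoid.closure {a | ∃ j h, a = cap b j h}

theorem pm_caps (hb : OddB b) {K : M b} (hK : K ∈ Caps' b) : pm b K = 1 := by
  induction hK using Submonoid.closure_induction with
  | mem x hx => obtain ⟨j, h, rfl⟩ := hx; exact pm_cap hb j h
  | one => exact map_one _
  | mul x y _ _ hx hy => rw [map_mul, hx, hy, one_mul]

theorem GenM.caps (hb : OddB b) {R : M b} (hR : GenM R) {K : M b} (hK : K ∈ Caps' b) :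
    ∃ n, R * K = R * P b n := by
  induction hK using Submonoid.closure_induction with
  | mem x hx =>
    obtain ⟨j, h, rfl⟩ := hx
    exact ⟨Pi.single j 1, by rw [P_single, hR.cap hb]⟩
  | one => exact ⟨0, by rw [P_zero]⟩
  | mul x y _ hy' hx hy =>
    obtain ⟨n, hn⟩ := hx
    obtain ⟨n', hn'⟩ := hy
    refine ⟨n' + n, ?_⟩
    rw [← mul_assoc, hn, mul_assoc, central (pm_P hb n), ← mul_assoc, hn', P_add hb, mul_assoc]

/-! ### The group of stable classes -/

/-- equality up to caps -/
def stab (hb : OddB b) : Con (M b) where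
  r a a' := ∃ K ∈ Caps' b, ∃ K' ∈ Caps' b, a * K = a' * K'
  iseqv :=
    { refl := fun a => ⟨1, one_mem _, 1, one_mem _, rfl⟩
      symm := fun ⟨K, hK, K', hK', h⟩ => ⟨K', hK', K, hK, h.symm⟩
      trans := fun ⟨K, hK, K', hK', h⟩ ⟨L, hL, L', hL', h'⟩ =>
        ⟨K * L, mul_mem hK hL, L' * K', mul_mem hL' hK', by
          rw [← mul_assoc, h, mul_assoc, central (pm_caps hb hK'), ← mul_assoc, h', mul_assoc]⟩ }
  mul' := fun {w x y z} ⟨K, hK, K', hK', h⟩ ⟨L, hL, L', hL', h'⟩ =>
    ⟨K * L, mul_mem hK hL, K' * L', mul_mem hK' hL', by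
      calc w * y * (K * L) = w * K * (y * L) := by
            rw [mul_assoc, mul_assoc, ← mul_assoc y, ← central (pm_caps hb hK), mul_assoc]
        _ = _ := by
            rw [h, h', mul_assoc, mul_assoc, ← mul_assoc z, ← central (pm_caps hb hK'), mul_assoc]⟩

theorem stab_cap (hb : OddB b) (j : Fin 4) (h : H) : (stab hb).mk' (cap b j h) = 1 :=
  (Con.eq _).2 ⟨1, one_mem _, cap b j h, Submonoid.subset_closure ⟨j, h, rfl⟩, by
    rw [mul_one, one_mul]⟩

theorem stab_unit (hb : OddB b) (a : M b) : IsUnit ((stab hb).mk' a) := by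
  induction a using M_ind with
  | h1 => rw [map_one]; exact isUnit_one
  | h s a ih =>
    rw [map_mul]
    refine IsUnit.mul ?_ ih
    obtain ⟨c, h⟩ := s
    obtain ⟨j, hj⟩ := ev_or_od c
    have h1 := stab_cap hb j h
    have h2 := h1
    rw [cap, map_mul] at h1
    rw [cap, gn_rel, map_mul] at h2
    have h3 := left_inv_eq_right_inv h2 h1
    rw [h3] at h2
    rcases hj with rfl | rfl
    · exact ⟨⟨_, _, h1, h2⟩, rfl⟩
    · exact ⟨⟨_, _, h2, h1⟩, rfl⟩

open scoped commutatorElement in
theorem inj_comm (hH : SP H) {G : Type} [Group G] (f : G →* H) (hs : Function.Surjective f)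
    (hk : f.ker ≤ Subgroup.center G) {u : G} (hu : u ∈ commutator G) (h1 : f u = 1) : u = 1 := by
  have hmap : (commutator G).map f = ⊤ := by
    rw [commutator_def, Subgroup.map_commutator, Subgroup.map_top_of_surjective _ hs,
      ← commutator_def, hH.perf]
  have hdec : ∀ x : G, ∃ y ∈ commutator G, ∃ z ∈ Subgroup.center G, x = y * z := fun x => by
    have : f x ∈ (commutator G).map f := by rw [hmap]; trivial
    obtain ⟨y, hy, hxy⟩ := this
    refine ⟨y, hy, y⁻¹ * x, hk ?_, by group⟩
    rw [MonoidHom.mem_ker, map_mul, map_inv, hxy, inv_mul_cancel]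
  have hper : commutator (commutator G) = ⊤ := by
    apply Subgroup.map_injective (commutator G).subtype_injective
    rw [Subgroup.map_subtype_commutator, ← MonoidHom.range_eq_map, Subgroup.range_subtype]
    refine le_antisymm (Subgroup.commutator_le_left _ _) ?_
    conv_lhs => rw [commutator_def]
    refine Subgroup.commutator_le.2 fun x _ x' _ => ?_
    obtain ⟨y, hy, z, hz, rfl⟩ := hdec x
    obtain ⟨y', hy', z', hz', rfl⟩ := hdec x'
    have e : ⁅y * z, y' * z'⁆ = ⁅y, y'⁆ := by
      have k1 := Subgroup.mem_center_iff.1 hz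
      have k2 := Subgroup.mem_center_iff.1 hz'
      simp only [commutatorElement_def, mul_inv_rev]
      calc y * z * (y' * z') * (z⁻¹ * y⁻¹) * (z'⁻¹ * y'⁻¹)
          = y * (z * (y' * z')) * z⁻¹ * (y⁻¹ * z'⁻¹) * y'⁻¹ := by group
        _ = y * (y' * z' * z) * z⁻¹ * (y⁻¹ * z'⁻¹) * y'⁻¹ := by rw [← k1]
        _ = y * y' * (z' * y⁻¹) * z'⁻¹ * y'⁻¹ := by group
        _ = y * y' * (y⁻¹ * z') * z'⁻¹ * y'⁻¹ := by rw [← k2]
        _ = _ := by group
    rw [e]
    exact Subgroup.commutator_mem_commutator hy hy'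
  have hinj := hH.sup (commutator G) (f.comp (commutator G).subtype) (fun x => by
      have : x ∈ (commutator G).map f := by rw [hmap]; trivial
      obtain ⟨y, hy, hxy⟩ := this
      exact ⟨⟨y, hy⟩, hxy⟩)
    (fun x hx => Subgroup.mem_center_iff.2 fun y =>
      Subtype.ext (Subgroup.mem_center_iff.1 (hk hx) y.1)) hper
  have : (⟨u, hu⟩ : commutator G) = 1 := hinj (by rw [map_one]; exact h1)
  exact congrArg Subtype.val this

theorem in_range (a : M b) (K : Subgroup H) (h : ∀ x, px b x ∈ K) : In K a := by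
  induction a using M_ind with
  | h1 => exact in_one _
  | h s a ih => exact in_mul.2 ⟨in_gn.2 (h s), ih⟩

/-- rows with the same colours and the same product are equal up to caps -/
theorem stable (hH : SP H) (hb : OddB b) {a a' : M b} (ha : GenM a) (hc : cm' b a = cm' b a')
    (hp : pm b a = pm b a') : stab hb a a' := by
  let q : M b →* (stab hb).Quotientˣ := IsUnit.liftRight _ (stab_unit hb)
  have hq : ∀ x, (q x : (stab hb).Quotient) = (stab hb).mk' x := fun x =>
    IsUnit.coe_liftRight _ _ x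
  have hqs : ∀ u, ∃ x, q x = u := fun u => by
    obtain ⟨x, hx⟩ := Con.mk'_surjective (c := stab hb) u.1
    exact ⟨x, Units.ext (by rw [hq, hx])⟩
  let f0 : (stab hb).Quotient →* H := Con.lift _ (pm b) (by
    rintro x y ⟨K, hK, K', hK', h⟩
    rw [Con.ker_rel]
    have := congrArg (pm b) h
    rwa [map_mul, map_mul, pm_caps hb hK, pm_caps hb hK', mul_one, mul_one] at this)
  let f : (stab hb).Quotientˣ →* H := f0.comp (Units.coeHom _)
  have hf : ∀ x, f (q x) = pm b x := fun x => by
    change f0 (q x : (stab hb).Quotient) = _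
    rw [hq]
    exact Con.lift_mk' _ _
  have hs : Function.Surjective f := by
    rw [← MonoidHom.range_eq_top]
    exact ha _ (in_range a _ fun x => ⟨q (gn b x), by rw [hf, pm_gn]⟩)
  have hk : f.ker ≤ Subgroup.center _ := fun u hu => by
    obtain ⟨x, rfl⟩ := hqs u
    rw [MonoidHom.mem_ker, hf] at hu
    refine Subgroup.mem_center_iff.2 fun v => ?_
    obtain ⟨y, rfl⟩ := hqs v
    rw [← map_mul, ← map_mul, central hu]
  let α : Fin 8 → Abelianization (stab hb).Quotientˣ := fun c => Abelianization.of (q (gn b (c, 1)))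
  have hα : ∀ x : X H, Abelianization.of (q (gn b x)) = α x.1 := fun x => by
    obtain ⟨u, hu⟩ := hs x.2
    obtain ⟨y, rfl⟩ := hqs u
    rw [hf] at hu
    have h1 := mul_eq y (gn b x)
    rw [lm_gn, hu] at h1
    have h2 := congrArg (fun z => Abelianization.of (q z)) h1
    simp only [map_mul] at h2
    rw [mul_comm] at h2
    rw [mul_right_cancel h2]
    simp [α, lx]
  have hab : ∀ x : M b, Abelianization.of (q x) =
      ((Multiplicative.toAdd (cm' b x)).map α).prod := fun x => by
    induction x using M_ind with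
    | h1 => simp
    | h s x ih =>
      have h : cm' b (gn b s) = Multiplicative.ofAdd {s.1} := liftM_gn _ _ _
      rw [map_mul, map_mul, ih, hα, map_mul, h]
      simp
  have h1 : (q a)⁻¹ * q a' ∈ commutator (stab hb).Quotientˣ := by
    rw [← Abelianization.ker_of, MonoidHom.mem_ker, map_mul, map_inv, hab, hab, hc, inv_mul_cancel]
  have h2 := inj_comm hH f hs hk h1 (by rw [map_mul, map_inv, hf, hf, hp, inv_mul_cancel])
  rw [inv_mul_eq_one] at h2
  have h3 := congrArg Units.val h2
  rw [hq, hq] at h3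
  exact (Con.eq _).1 h3

/-! ### Cancellation of standard caps -/

variable (b) in
/-- classes of generating rows with `n` bands of every colour -/
def Y (n : ℕ) : Type := {a : M b // GenM a ∧ ∀ c, cnt a c = n}

theorem length_of_count {l : List (Fin 8)} {n : ℕ} (h : ∀ c, l.count c = n) : l.length = 8 * n := by
  have h1 := Multiset.sum_count_eq_card (s := Finset.univ) (m := (l : Multiset (Fin 8)))
    fun _ _ => Finset.mem_univ _
  simp only [Multiset.coe_count, h, Multiset.coe_card] at h1
  rw [← h1]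
  simp

theorem finite_Y [Finite H] (n : ℕ) : Finite (Y b n) := by
  have h1 : Finite {l : List (X H) // l.length = 8 * n} := by
    haveI := Fintype.ofFinite (X H)
    exact (inferInstance : Finite (List.Vector (X H) (8 * n)))
  have h2 : ∀ a : Y b n, ∃ l : {l : List (X H) // l.length = 8 * n},
      mkM b (FreeMonoid.ofList l.1) = a.1 := by
    rintro ⟨a, h, hc⟩
    obtain ⟨u, rfl⟩ := mkM_surj a
    refine ⟨⟨FreeMonoid.toList u, ?_⟩, rfl⟩
    rw [← List.length_map Prod.fst]
    refine length_of_count fun c => ?_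
    rw [← cnt_mk (b := b)]
    exact hc c
  choose g hg using h2
  exact Finite.of_injective g fun a a' h => Subtype.ext (by rw [← hg, h, hg])

theorem cnt_P_one (c : Fin 8) : cnt (P b 1) c = 1 := by
  obtain ⟨j, rfl | rfl⟩ := ev_or_od c
  · exact cnt_P_ev _ _
  · exact cnt_P_od _ _

variable (b) in
/-- adding the four standard caps -/
def up (n : ℕ) (a : Y b n) : Y b (n + 1) :=
  ⟨a.1 * P b 1, a.2.1.mul _, fun c => by rw [cnt_mul, a.2.2, cnt_P_one]⟩

theorem up_surj [Finite H] (hb : OddB b) {n : ℕ} (hn : 2 * Nat.card H * Nat.card H ≤ n) :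
    Function.Surjective (up b n) := by
  rintro ⟨a, ha, hc⟩
  obtain ⟨a3, g3, rfl⟩ := split_cap hb ha 3 (by rw [hc]; omega) (by rw [hc]; omega)
  have c3 : ∀ c, cnt a3 c + _ = n + 1 := fun c => by rw [← hc c, cnt_mul, cnt_cap]
  obtain ⟨a2, g2, rfl⟩ := split_cap hb g3 2
    (by have := c3 (od 2); simp [ev, od] at this ⊢; omega)
    (by have := c3 (ev 2); simp [ev, od] at this ⊢; omega)
  have c2 : ∀ c, cnt a2 c + _ + _ = n + 1 := fun c => by rw [← c3 c, cnt_mul, cnt_cap]
  obtain ⟨a1, g1, rfl⟩ := split_cap hb g2 1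
    (by have := c2 (od 1); simp [ev, od] at this ⊢; omega)
    (by have := c2 (ev 1); simp [ev, od] at this ⊢; omega)
  have c1 : ∀ c, cnt a1 c + _ + _ + _ = n + 1 := fun c => by rw [← c2 c, cnt_mul, cnt_cap]
  obtain ⟨a0, g0, rfl⟩ := split_cap hb g1 0
    (by have := c1 (od 0); simp [ev, od] at this ⊢; omega)
    (by have := c1 (ev 0); simp [ev, od] at this ⊢; omega)
  have e : a0 * cap b 0 1 * cap b 1 1 * cap b 2 1 * cap b 3 1 = a0 * P b 1 := by
    simp [P, mul_assoc]
  refine ⟨⟨a0, g0, fun c => ?_⟩, Subtype.ext e.symm⟩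
  have := hc c
  rw [e, cnt_mul, cnt_P_one] at this
  omega

theorem up_inj [Finite H] (hb : OddB b) : ∃ k0, ∀ n ≥ k0, Function.Injective (up b n) := by
  have hf := fun n => finite_Y (b := b) n
  set n0 := 2 * Nat.card H * Nat.card H
  have hanti : ∀ n ≥ n0, ∀ d, Nat.card (Y b (n + d)) ≤ Nat.card (Y b n) := by
    intro n hn d
    induction d with
    | zero => exact le_rfl
    | succ d ih =>
      exact (Nat.card_le_card_of_surjective _ (up_surj hb (n := n + d) (by omega))).trans ih
  classical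
  have hex : ∃ v, ∃ n ≥ n0, Nat.card (Y b n) = v := ⟨_, n0, le_rfl, rfl⟩
  obtain ⟨k0, hk0, hv⟩ := Nat.find_spec hex
  refine ⟨k0, fun n hn => ?_⟩
  have h1 : Nat.find hex ≤ Nat.card (Y b (n + 1)) := Nat.find_min' hex ⟨n + 1, by omega, rfl⟩
  obtain ⟨d, rfl⟩ := Nat.exists_eq_add_of_le hn
  have h2 := hanti k0 hk0 d
  exact ((up_surj hb (n := k0 + d) (by omega)).bijective_of_nat_card_le (by omega)).1

theorem main (hH : SP H) (hb : OddB b) : ∃ k0, ∀ k ≥ k0, ∀ a a' : M b, GenM a → GenM a' →
    (∀ c, cnt a c = k) → (∀ c, cnt a' c = k) → pm b a = pm b a' → a = a' := by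
  haveI := hH.fin
  obtain ⟨k0, hk0⟩ := up_inj hb
  refine ⟨k0, fun k hk a a' ha ha' hc hc' hp => ?_⟩
  have h0 : cm' b a = cm' b a' := by
    apply Multiplicative.toAdd.injective
    exact Multiset.ext.2 fun c => (hc c).trans (hc' c).symm
  obtain ⟨K, hK, K', hK', h⟩ := stable hH hb ha h0 hp
  obtain ⟨n, hn⟩ := ha.caps hb hK
  obtain ⟨n', hn'⟩ := ha'.caps hb hK'
  rw [hn, hn'] at h
  obtain rfl : n = n' := funext fun j => by
    have := congrArg (fun x => cnt x (ev j)) h
    simp only [cnt_mul, cnt_P_ev, hc, hc'] at this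
    omega
  have h1 : ∃ N : ℕ, a * P b 1 ^ N = a' * P b 1 ^ N := by
    have hP : ∀ N : ℕ, P b 1 ^ N = P b fun _ => N := fun N => by
      induction N with
      | zero => exact P_zero.symm
      | succ N ih => rw [pow_succ, ih, ← P_add hb]; rfl
    refine ⟨n 0 + n 1 + n 2 + n 3, ?_⟩
    have e : (fun _ => n 0 + n 1 + n 2 + n 3 : Fin 4 → ℕ) =
        n + fun j => n 0 + n 1 + n 2 + n 3 - n j := funext fun j => by
      fin_cases j <;> simp <;> omega
    rw [hP, e, P_add hb, ← mul_assoc, h, mul_assoc]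
  obtain ⟨N, hN⟩ := h1
  clear h hn hn'
  induction N with
  | zero => simpa using hN
  | succ N ih =>
    apply ih
    have hcn : ∀ x : M b, (∀ c, cnt x c = k) → ∀ c, cnt (x * P b 1 ^ N) c = k + N := fun x hx c => by
      rw [cnt_mul, hx, cnt_pow, cnt_P_one, mul_one]
    have := hk0 (k + N) (by omega) (a₁ := ⟨_, ha.mul _, hcn a hc⟩) (a₂ := ⟨_, ha'.mul _, hcn a' hc'⟩)
      (Subtype.ext (by
        change a * P b 1 ^ N * P b 1 = a' * P b 1 ^ N * P b 1
        rw [mul_assoc, mul_assoc, ← pow_succ, hN]))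
    exact congrArg Subtype.val this

/-! ### Back to rows -/

variable (b) in
/-- the row of a list of colours and frames -/
def toSt (l : List (X H)) : List (St 8 H) := l.map fun x => mk b x.1 x.2

theorem br_of_eq {u v : FreeMonoid (X H)} (h : mkM b u = mkM b v) :
    Br (toSt b (FreeMonoid.toList u)) (toSt b (FreeMonoid.toList v)) := by
  have h1 : ConGen.Rel (rel b) u v := (Con.eq _).1 h
  clear h
  induction h1 with
  | of x y hxy =>
    obtain ⟨s, t, rfl, rfl⟩ := hxy
    refine ⟨[(0, true)], ?_⟩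
    change [_, _] = [_, _]
    congr 1
    refine St.ext rfl ?_ ?_
    · simp only [half, mk, lx, px]; group
    · simp only [half, mk, lx, px]; group
  | refl x => exact Br.refl _
  | symm _ ih => exact ih.symm
  | trans _ _ ih ih' => exact ih.trans ih'
  | mul _ _ ih ih' =>
    simp only [toSt, FreeMonoid.toList_mul, List.map_append] at ih ih' ⊢
    exact (ih.app_right _).trans (ih'.app_left _)

theorem based_eq {l : List (St 8 H)} (h : Based b l) :
    toSt b (l.map fun s => (s.lab, s.tr)) = l := by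
  unfold toSt
  rw [List.map_map]
  conv_rhs => rw [← List.map_id l]
  exact List.map_congr_left fun s hs => (h s hs).symm

theorem pm_mk (l : List (X H)) : pm b (mkM b (FreeMonoid.ofList l)) = pr (toSt b l) := by
  induction l with
  | nil => simp [toSt, pr]
  | cons s l ih =>
    rw [FreeMonoid.ofList_cons, map_mul, map_mul, ih]
    change pm b (gn b s) * _ = pr (_ :: toSt b l)
    rw [pm_gn, pr_cons]
    rfl

theorem gen_mk {l : List (X H)} (h : Gen (toSt b l)) : GenM (mkM b (FreeMonoid.ofList l)) := by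
  intro K hK
  rw [eq_top_iff, ← h, span_le]
  clear h
  induction l with
  | nil => intro s hs; simp [toSt] at hs
  | cons s l ih =>
    rw [FreeMonoid.ofList_cons, map_mul] at hK
    obtain ⟨h1, h2⟩ := in_mul.1 hK
    intro t ht
    rcases List.mem_cons.1 ht with rfl | ht
    · exact K.inv_mem_iff.1 (in_gn.1 h1)
    · exact ih h2 t ht

end RA

open RA in
theorem rowA : RowA := by
  intro H _ hH
  haveI := hH.fin
  have h : ∀ b : Fin 8 → H, ∃ k0, OddB b → ∀ k ≥ k0, ∀ a a' : M b, GenM a → GenM a' →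
      (∀ c, cnt a c = k) → (∀ c, cnt a' c = k) → RA.pm b a = RA.pm b a' → a = a' := fun b => by
    by_cases hb : OddB b
    · obtain ⟨k0, h⟩ := main hH hb
      exact ⟨k0, fun _ => h⟩
    · exact ⟨0, fun h => absurd h hb⟩
  choose k0 hk0 using h
  obtain ⟨K, hK⟩ := (Set.finite_range k0).bddAbove
  refine ⟨K, fun k hk b hb l l' hl hl' hc hc' hg hg' hp => ?_⟩
  have hlen := length_of_count hc
  rw [labs_length] at hlen
  have key : ∀ l : List (St 8 H), ((l.map fun s => (s.lab, s.tr)).map Prod.fst) = labs l :=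
    fun l => by simp [labs]
  have h1 := hk0 b hb k ((hK ⟨b, rfl⟩).trans hk)
    (mkM b (FreeMonoid.ofList (l.map fun s => (s.lab, s.tr))))
    (mkM b (FreeMonoid.ofList (l'.map fun s => (s.lab, s.tr))))
    (gen_mk (by rwa [based_eq hl])) (gen_mk (by rwa [based_eq hl']))
    (fun c => by rw [cnt_mk, key, hc]) (fun c => by rw [cnt_mk, key, hc'])
    (by rw [pm_mk, pm_mk, based_eq hl, based_eq hl', hp])
  obtain ⟨w, hw⟩ := br_of_eq h1
  rw [FreeMonoid.toList_ofList, FreeMonoid.toList_ofList, based_eq hl, based_eq hl',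
    run_eq_bact, hlen] at hw
  exact ⟨_, hw⟩

end Vale.Agent.Q258D
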