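import Vale.Agent.Q258D.Rows
import Mathlib.Data.Set.Finite.List

/-!
# The size of the big orbit
-/

set_option linter.all false

namespace Vale.Agent.Q258D

open Vale.Agent.P258.Braid

namespace B1

open Classical in
/-- the indicator of a proposition -/
noncomputable def ind (p : Prop) : ℝ := if p then 1 else 0

theorem ind_pos {p : Prop} (h : p) : ind p = 1 := if_pos h

theorem ind_neg {p : Prop} (h : ¬ p) : ind p = 0 := if_neg h

theorem ind_nonneg (p : Prop) : 0 ≤ ind p := by
  by_cases h : p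
  · rw [ind_pos h]; exact zero_le_one
  · rw [ind_neg h]

theorem ind_le_one (p : Prop) : ind p ≤ 1 := by
  by_cases h : p
  · rw [ind_pos h]
  · rw [ind_neg h]; exact zero_le_one

theorem ind_mono {p q : Prop} (h : p → q) : ind p ≤ ind q := by
  by_cases hp : p
  · rw [ind_pos hp, ind_pos (h hp)]
  · rw [ind_neg hp]; exact ind_nonneg q

theorem ind_and (p q : Prop) : ind (p ∧ q) = ind p * ind q := by
  by_cases hp : p
  · by_cases hq : q
    · rw [ind_pos hp, ind_pos hq, ind_pos ⟨hp, hq⟩, one_mul]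
    · rw [ind_neg hq, ind_neg fun h => hq h.2, mul_zero]
  · rw [ind_neg hp, ind_neg fun h => hp h.1, zero_mul]

theorem sum_ind {α : Type} [Fintype α] (P : α → Prop) :
    ∑ a, ind (P a) = Nat.card {a // P a} := by
  classical
  rw [Nat.card_eq_fintype_card, Fintype.card_subtype, Finset.card_filter]
  push_cast
  refine Finset.sum_congr rfl fun a _ => ?_
  by_cases h : P a
  · rw [ind_pos h, if_pos h]
  · rw [ind_neg h, if_neg h]

theorem sum_ind_eq {α : Type} [Fintype α] (a0 : α) : ∑ a, ind (a = a0) = 1 := by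
  rw [Finset.sum_eq_single a0 (fun a _ h => ind_neg h) (by simp), ind_pos rfl]

variable {H : Type} [Group H] (b : Fin 8 → H)

theorem inX_nil {l : List (St 8 H)} : InX b [] l ↔ l = [] := by
  refine ⟨fun h => List.map_eq_nil_iff.1 h.2, ?_⟩
  rintro rfl
  exact ⟨fun s hs => by simp at hs, rfl⟩

theorem inX_cons {c : Fin 8} {cl : List (Fin 8)} {l : List (St 8 H)} :
    InX b (c :: cl) l ↔ ∃ h l', InX b cl l' ∧ l = mk b c h :: l' := by
  constructor
  · rintro ⟨h1, h2⟩
    obtain _ | ⟨s, l⟩ := l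
    · simp [labs] at h2
    · simp only [labs, List.map_cons, List.cons.injEq] at h2
      refine ⟨s.tr, l, ⟨fun t ht => h1 t (List.mem_cons_of_mem _ ht), h2.2⟩, ?_⟩
      rw [← h2.1, ← h1 s List.mem_cons_self]
  · rintro ⟨h, l', ⟨h1, h2⟩, rfl⟩
    refine ⟨fun s hs => ?_, ?_⟩
    · rcases List.mem_cons.1 hs with rfl | hs
      · rfl
      · exact h1 s hs
    · rw [← h2]; rfl

theorem inX_append {cl cl' : List (Fin 8)} {l l' : List (St 8 H)} (h : InX b cl l)
    (h' : InX b cl' l') : InX b (cl ++ cl') (l ++ l') :=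
  ⟨fun s hs => (List.mem_append.1 hs).elim (h.1 s) (h'.1 s), by
    rw [← h.2, ← h'.2]; exact List.map_append⟩

theorem inX_length {cl : List (Fin 8)} {l : List (St 8 H)} (h : InX b cl l) :
    l.length = cl.length := by rw [← h.2, labs_length]

theorem finite_inX [Finite H] (cl : List (Fin 8)) (Q : List (St 8 H) → Prop) :
    Finite {l // InX b cl l ∧ Q l} :=
  (List.finite_length_eq (St 8 H) cl.length).subset (t := {l | InX b cl l ∧ Q l})
    fun l hl => inX_length b hl.1

/-! ### Products that can be reached -/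

/-- the element `x` is the product of a row with the colours `cl` -/
def Rch (cl : List (Fin 8)) (x : H) : Prop := ∃ l, InX b cl l ∧ pr l = x

theorem rch_nil : Rch b [] 1 := ⟨[], (inX_nil b).2 rfl, rfl⟩

theorem Rch.append {b : Fin 8 → H} {cl cl' : List (Fin 8)} {x y : H} (h : Rch b cl x)
    (h' : Rch b cl' y) : Rch b (cl ++ cl') (x * y) := by
  obtain ⟨l, h1, rfl⟩ := h
  obtain ⟨l', h2, rfl⟩ := h'
  exact ⟨l ++ l', inX_append b h1 h2, pr_append _ _⟩

theorem rch_pair (ho : OddB b) (c : Fin 8) (x y : H) :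
    Rch b [c, bar c] ((x⁻¹ * b c * x)⁻¹ * (y⁻¹ * b c * y)) := by
  refine ⟨[mk b c x, mk b (bar c) y],
    (inX_cons b).2 ⟨x, _, (inX_cons b).2 ⟨y, [], (inX_nil b).2 rfl, rfl⟩, rfl⟩, ?_⟩
  simp only [pr, mk, List.map_cons, List.map_nil, List.prod_cons, List.prod_nil, ho c]
  group

theorem rch_all (hp : commutator H = ⊤) (ho : OddB b) (hn : NGen b) (x : H) :
    ∃ cl, Rch b cl 1 ∧ Rch b cl x := by
  let N : Subgroup H := Subgroup.normalClosure {u | ∃ c y, u = (b c)⁻¹ * (y⁻¹ * b c * y)}
  have hN : N = ⊤ := by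
    have hZ : (Subgroup.center (H ⧸ N)).comap (QuotientGroup.mk' N) = ⊤ := by
      rw [eq_top_iff, ← hn]
      refine Subgroup.normalClosure_le_normal ?_
      rintro _ ⟨c, rfl⟩
      refine Subgroup.mem_comap.2 (Subgroup.mem_center_iff.2 fun q => ?_)
      obtain ⟨y, rfl⟩ := QuotientGroup.mk'_surjective N q
      have h1 : QuotientGroup.mk' N ((b c)⁻¹ * (y⁻¹ * b c * y)) = 1 :=
        (QuotientGroup.eq_one_iff _).2 (Subgroup.subset_normalClosure ⟨c, y, rfl⟩)
      simp only [map_mul, map_inv] at h1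
      rw [inv_mul_eq_one, mul_assoc, eq_inv_mul_iff_mul_eq] at h1
      exact h1
    rw [eq_top_iff, ← hp, commutator_def, Subgroup.commutator_le]
    intro g _ g' _
    have h1 : g ∈ (Subgroup.center (H ⧸ N)).comap (QuotientGroup.mk' N) := by rw [hZ]; trivial
    have h2 := Subgroup.mem_center_iff.1 (Subgroup.mem_comap.1 h1) (QuotientGroup.mk' N g')
    refine (QuotientGroup.eq_one_iff _).1 ?_
    change QuotientGroup.mk' N (g * g' * g⁻¹ * g'⁻¹) = 1
    simp only [map_mul, map_inv, ← h2]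
    group
  have h0 : ∀ c, Rch b [c, bar c] 1 := fun c => by
    have := rch_pair b ho c 1 1
    rwa [inv_mul_cancel] at this
  have hx : x ∈ N := by rw [hN]; trivial
  refine Subgroup.closure_induction'' (p := fun x _ => ∃ cl, Rch b cl 1 ∧ Rch b cl x) ?_ ?_
    ⟨[], rch_nil b, rch_nil b⟩ ?_ hx
  · intro u hu
    obtain ⟨_, ⟨c, y, rfl⟩, hu⟩ := Group.mem_conjugatesOfSet_iff.1 hu
    obtain ⟨z, rfl⟩ := isConj_iff.1 hu
    refine ⟨_, h0 c, ?_⟩
    convert rch_pair b ho c z⁻¹ (y * z⁻¹) using 1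
    group
  · intro u hu
    obtain ⟨_, ⟨c, y, rfl⟩, hu⟩ := Group.mem_conjugatesOfSet_iff.1 hu
    obtain ⟨z, rfl⟩ := isConj_iff.1 hu
    refine ⟨_, h0 c, ?_⟩
    convert rch_pair b ho c (y * z⁻¹) z⁻¹ using 1
    group
  · rintro x y _ _ ⟨cl, h1, h2⟩ ⟨cl', h3, h4⟩
    exact ⟨cl ++ cl', by simpa using h1.append h3, h2.append h4⟩

theorem rch_univ [Finite H] (hp : commutator H = ⊤) (ho : OddB b) (hn : NGen b) :
    ∃ cl, ∀ x, Rch b cl x := by
  have key : ∀ xs : List H, ∃ cl, Rch b cl 1 ∧ ∀ x ∈ xs, Rch b cl x := by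
    intro xs
    induction xs with
    | nil => exact ⟨[], rch_nil b, by simp⟩
    | cons y xs ih =>
      obtain ⟨cl, h1, h2⟩ := ih
      obtain ⟨cl', h3, h4⟩ := rch_all b hp ho hn y
      refine ⟨cl ++ cl', by simpa using h1.append h3, fun x hx => ?_⟩
      rcases List.mem_cons.1 hx with rfl | hx
      · simpa using h1.append h4
      · simpa using (h2 x hx).append h3
  have := Fintype.ofFinite H
  obtain ⟨cl, -, h⟩ := key (Finset.univ : Finset H).toList
  exact ⟨cl, fun x => h x (by simp)⟩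

/-! ### Sums over rows -/

variable [Fintype H]

/-- the sum over all rows with given colours -/
noncomputable def Sm : List (Fin 8) → (List (St 8 H) → ℝ) → ℝ
  | [], F => F []
  | c :: cl, F => ∑ h : H, Sm cl fun l => F (mk b c h :: l)

theorem card_eq (cl : List (Fin 8)) (Q : List (St 8 H) → Prop) :
    (Nat.card {l // InX b cl l ∧ Q l} : ℝ) = Sm b cl fun l => ind (Q l) := by
  induction cl generalizing Q with
  | nil =>
    simp only [Sm, inX_nil]
    by_cases h : Q []
    · rw [ind_pos h, Nat.cast_eq_one, Nat.card_eq_one_iff_exists]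
      exact ⟨⟨[], rfl, h⟩, fun y => Subtype.ext y.2.1⟩
    · have : IsEmpty {l : List (St 8 H) // l = [] ∧ Q l} := ⟨fun y => h (y.2.1 ▸ y.2.2)⟩
      rw [ind_neg h, Nat.card_of_isEmpty, Nat.cast_zero]
  | cons c cl ih =>
    simp only [Sm, ← ih]
    have := fun h : H => finite_inX b cl fun l => Q (mk b c h :: l)
    rw [← Nat.cast_sum, ← Nat.card_sigma, Nat.cast_inj]
    refine (Nat.card_congr (Equiv.ofBijective (fun x => ⟨mk b c x.1 :: x.2.1,
      (inX_cons b).2 ⟨x.1, x.2.1, x.2.2.1, rfl⟩, x.2.2.2⟩) ⟨?_, ?_⟩)).symm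
    · rintro ⟨h, l, hl⟩ ⟨h', l', hl'⟩ e
      simp only [Subtype.mk.injEq, List.cons.injEq] at e
      obtain rfl : h = h' := congrArg St.tr e.1
      obtain rfl := e.2
      rfl
    · rintro ⟨l, h1, h2⟩
      obtain ⟨h, l', h3, rfl⟩ := (inX_cons b).1 h1
      exact ⟨⟨h, l', h3, h2⟩, rfl⟩

theorem Sm_mono {cl : List (Fin 8)} {F G : List (St 8 H) → ℝ} (h : ∀ l, InX b cl l → F l ≤ G l) :
    Sm b cl F ≤ Sm b cl G := by
  induction cl generalizing F G with
  | nil => exact h [] ((inX_nil b).2 rfl)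
  | cons c cl ih =>
    exact Finset.sum_le_sum fun x _ => ih fun l hl => h _ ((inX_cons b).2 ⟨x, l, hl, rfl⟩)

theorem Sm_add (cl : List (Fin 8)) (F G : List (St 8 H) → ℝ) :
    Sm b cl (fun l => F l + G l) = Sm b cl F + Sm b cl G := by
  induction cl generalizing F G with
  | nil => rfl
  | cons c cl ih => simp only [Sm, ih, Finset.sum_add_distrib]

theorem Sm_mul (cl : List (Fin 8)) (a : ℝ) (F : List (St 8 H) → ℝ) :
    Sm b cl (fun l => a * F l) = a * Sm b cl F := by
  induction cl generalizing F with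
  | nil => rfl
  | cons c cl ih => simp only [Sm, ih, Finset.mul_sum]

theorem Sm_const (cl : List (Fin 8)) (a : ℝ) :
    Sm b cl (fun _ => a) = (Fintype.card H : ℝ) ^ cl.length * a := by
  induction cl with
  | nil => simp [Sm]
  | cons c cl ih =>
    simp only [Sm, ih, Finset.sum_const, Finset.card_univ, nsmul_eq_mul, List.length_cons]
    ring

theorem Sm_sum {ι : Type} (s : Finset ι) (cl : List (Fin 8)) (F : ι → List (St 8 H) → ℝ) :
    Sm b cl (fun l => ∑ i ∈ s, F i l) = ∑ i ∈ s, Sm b cl (F i) := by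
  induction cl generalizing F with
  | nil => rfl
  | cons c cl ih =>
    simp only [Sm, ih]
    exact Finset.sum_comm

theorem Sm_append (cl cl' : List (Fin 8)) (F : List (St 8 H) → ℝ) :
    Sm b (cl ++ cl') F = Sm b cl fun l => Sm b cl' fun l' => F (l ++ l') := by
  induction cl generalizing F with
  | nil => rfl
  | cons c cl ih => simp only [List.cons_append, Sm, ih]

theorem Sm_nonneg {cl : List (Fin 8)} {F : List (St 8 H) → ℝ} (h : ∀ l, 0 ≤ F l) :
    0 ≤ Sm b cl F := by
  have := Sm_mono b (cl := cl) (F := fun _ => 0) fun l _ => h l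
  rwa [Sm_const, mul_zero] at this

theorem Sm_single {cl : List (Fin 8)} {F : List (St 8 H) → ℝ} (h : ∀ l, 0 ≤ F l)
    {l : List (St 8 H)} (hl : InX b cl l) : F l ≤ Sm b cl F := by
  induction cl generalizing F l with
  | nil => obtain rfl := (inX_nil b).1 hl; exact le_rfl
  | cons c cl ih =>
    obtain ⟨x, l', h1, rfl⟩ := (inX_cons b).1 hl
    exact (ih (F := fun l => F (mk b c x :: l)) (fun l => h _) h1).trans
      (Finset.single_le_sum (f := fun x => Sm b cl fun l => F (mk b c x :: l))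
        (fun y _ => Sm_nonneg b fun l => h _) (Finset.mem_univ x))

/-! ### Convolution -/

/-- convolution with the distribution of the product -/
noncomputable def V (cl : List (Fin 8)) (f : H → ℝ) (g : H) : ℝ := Sm b cl fun l => f (g * pr l)

theorem V_nil (f : H → ℝ) : V b [] f = f := by
  funext g; simp [V, Sm, pr]

theorem V_cons (c : Fin 8) (cl : List (Fin 8)) (f : H → ℝ) (g : H) :
    V b (c :: cl) f g = ∑ h : H, V b cl f (g * (h⁻¹ * b c * h)⁻¹) := by
  simp only [V, Sm, pr_cons, mk, mul_assoc]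

theorem V_append (cl cl' : List (Fin 8)) (f : H → ℝ) :
    V b (cl ++ cl') f = V b cl (V b cl' f) := by
  funext g
  simp only [V, Sm_append, pr_append, mul_assoc]

theorem shift1 (F : H → ℝ) (y g x : H) :
    ∑ h : H, F (g * (h⁻¹ * y * h)⁻¹ * x) = ∑ h : H, F (g * x * (h⁻¹ * y * h)⁻¹) :=
  Fintype.sum_equiv (Equiv.mulRight x) _ _ fun h => by
    simp only [Equiv.coe_mulRight]
    congr 1
    group

theorem V_shift (cl : List (Fin 8)) (f : H → ℝ) (x g : H) :
    V b cl (fun g => f (g * x)) g = V b cl f (g * x) := by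
  induction cl generalizing g with
  | nil => simp only [V_nil]
  | cons c cl ih => simp only [V_cons, ih, shift1]

theorem V_perm {cl cl' : List (Fin 8)} (h : cl.Perm cl') (f : H → ℝ) : V b cl f = V b cl' f := by
  induction h with
  | nil => rfl
  | cons c _ ih => funext g; simp only [V_cons, ih]
  | swap c d l =>
    funext g
    simp only [V_cons]
    rw [Finset.sum_comm]
    exact Finset.sum_congr rfl fun h _ => shift1 (V b l f) _ _ _
  | trans _ _ ih ih' => exact ih.trans ih'

theorem V_mean (cl : List (Fin 8)) (f : H → ℝ) :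
    ∑ g, V b cl f g = (Fintype.card H : ℝ) ^ cl.length * ∑ g, f g := by
  induction cl with
  | nil => simp [V_nil]
  | cons c cl ih =>
    simp only [V_cons]
    rw [Finset.sum_comm]
    have : ∀ x : H, ∑ g, V b cl f (g * x) = ∑ g, V b cl f g := fun x =>
      Fintype.sum_equiv (Equiv.mulRight x) _ _ fun _ => rfl
    simp only [this, ih, Finset.sum_const, Finset.card_univ, nsmul_eq_mul, List.length_cons]
    ring

/-- the values of `f` lie in an interval of length `D` -/
def Osc (f : H → ℝ) (D : ℝ) : Prop := ∃ lo, ∀ g, lo ≤ f g ∧ f g ≤ lo + D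

theorem V_osc (cl : List (Fin 8)) {f : H → ℝ} {D : ℝ} (h : Osc f D) :
    Osc (V b cl f) ((Fintype.card H : ℝ) ^ cl.length * D) := by
  obtain ⟨lo, h⟩ := h
  refine ⟨(Fintype.card H : ℝ) ^ cl.length * lo, fun g => ⟨?_, ?_⟩⟩
  · rw [← Sm_const b]
    exact Sm_mono b fun l _ => (h _).1
  · rw [← mul_add, ← Sm_const b]
    exact Sm_mono b fun l _ => (h _).2

theorem V_contract {cl : List (Fin 8)} (hc : ∀ x, Rch b cl x) {f : H → ℝ} {D : ℝ} (h : Osc f D) :
    Osc (V b cl f) (((Fintype.card H : ℝ) ^ cl.length - 1) * D) := by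
  obtain ⟨lo, h⟩ := h
  obtain ⟨g0, h0⟩ := Finite.exists_min f
  refine ⟨(Fintype.card H : ℝ) ^ cl.length * f g0, fun g => ⟨?_, ?_⟩⟩
  · rw [← Sm_const b]
    exact Sm_mono b fun l _ => h0 _
  · obtain ⟨l, h1, h2⟩ := hc (g⁻¹ * g0)
    have h3 := Sm_single b (F := fun l => f g0 + D - f (g * pr l))
      (fun l => by linarith [(h (g * pr l)).2, (h g0).1]) h1
    have h4 := Sm_add b cl (fun l => f g0 + D - f (g * pr l)) fun l => f (g * pr l)
    simp only [sub_add_cancel, Sm_const] at h4
    simp only [h2, mul_inv_cancel_left] at h3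
    unfold V
    linarith

theorem one_le_card : (1 : ℝ) ≤ Fintype.card H := by
  exact_mod_cast Fintype.card_pos

theorem V_small (hp : commutator H = ⊤) (ho : OddB b) (hn : NGen b) {ε : ℝ} (hε : 0 < ε) :
    ∃ cl : List (Fin 8), ∀ (f : H → ℝ) (D : ℝ), 0 ≤ D → Osc f D →
      Osc (V b cl f) (ε * ((Fintype.card H : ℝ) ^ cl.length * D)) := by
  obtain ⟨c0, h0⟩ := rch_univ b hp ho hn
  have hN : (1 : ℝ) ≤ (Fintype.card H : ℝ) ^ c0.length := one_le_pow₀ one_le_card
  set N : ℝ := (Fintype.card H : ℝ) ^ c0.length with hNd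
  have key : ∀ j : ℕ, ∃ cl : List (Fin 8), ∀ (f : H → ℝ) (D : ℝ), Osc f D →
      Osc (V b cl f) (((N - 1) / N) ^ j * ((Fintype.card H : ℝ) ^ cl.length * D)) := by
    intro j
    induction j with
    | zero => exact ⟨[], fun f D h => by simpa [V_nil] using h⟩
    | succ j ih =>
      obtain ⟨cl, ih⟩ := ih
      refine ⟨c0 ++ cl, fun f D h => ?_⟩
      rw [V_append]
      convert V_contract b h0 (ih f D h) using 1
      rw [List.length_append, pow_add (Fintype.card H : ℝ), pow_succ, ← hNd]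
      field_simp
  obtain ⟨j, hj⟩ := exists_pow_lt_of_lt_one hε (y := (N - 1) / N)
    (by rw [div_lt_one (by linarith)]; linarith)
  obtain ⟨cl, h⟩ := key j
  refine ⟨cl, fun f D hD hf => ?_⟩
  obtain ⟨lo, h⟩ := h f D hf
  refine ⟨lo, fun g => ⟨(h g).1, (h g).2.trans ?_⟩⟩
  have : 0 ≤ (Fintype.card H : ℝ) ^ cl.length * D := by positivity
  gcongr

/-- equidistribution of the product -/
theorem equi (hp : commutator H = ⊤) (ho : OddB b) (hn : NGen b) {η : ℝ} (hη : 0 < η) :
    ∃ m, ∀ cl : List (Fin 8), (∀ c, m ≤ cl.count c) → ∀ g,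
      (1 - η) * (Fintype.card H : ℝ) ^ cl.length ≤
        Fintype.card H * V b cl (fun x => ind (x = 1)) g ∧
      Fintype.card H * V b cl (fun x => ind (x = 1)) g ≤
        (1 + η) * (Fintype.card H : ℝ) ^ cl.length := by
  have hc : (0 : ℝ) < Fintype.card H := lt_of_lt_of_le one_pos one_le_card
  obtain ⟨c1, h1⟩ := V_small b hp ho hn (div_pos hη hc)
  refine ⟨c1.length, fun cl hcl g => ?_⟩
  have hperm := List.subperm_append_diff_self_of_count_le (l₁ := c1) (l₂ := cl)
    fun c _ => List.count_le_length.trans (hcl c)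
  have h2 : Osc (fun x : H => ind (x = 1)) 1 :=
    ⟨0, fun x => ⟨ind_nonneg _, by rw [zero_add]; exact ind_le_one _⟩⟩
  have h3 := h1 _ _ (by positivity) (V_osc b (cl.diff c1) h2)
  rw [← V_append, V_perm b hperm, mul_one, ← pow_add, ← List.length_append,
    hperm.length_eq] at h3
  obtain ⟨lo, h3⟩ := h3
  have h4 := V_mean b cl fun x => ind (x = 1)
  rw [sum_ind_eq, mul_one] at h4
  have h5 := Finset.sum_le_sum (s := Finset.univ) fun x _ => (h3 x).1
  have h6 := Finset.sum_le_sum (s := Finset.univ) fun x _ => (h3 x).2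
  rw [h4] at h5 h6
  simp only [Finset.sum_const, Finset.card_univ, nsmul_eq_mul] at h5 h6
  have h7 := mul_le_mul_of_nonneg_left (h3 g).1 hc.le
  have h8 := mul_le_mul_of_nonneg_left (h3 g).2 hc.le
  have h9 : Fintype.card H * (lo + η / Fintype.card H * (Fintype.card H : ℝ) ^ cl.length) =
      Fintype.card H * lo + η * (Fintype.card H : ℝ) ^ cl.length := by field_simp
  rw [h9] at h6 h8
  constructor <;> linarith

/-! ### Rows that do not generate -/

theorem rare (hn : NGen b) {K : Subgroup H} (hK : K ≠ ⊤) : ∃ c, ∀ cl : List (Fin 8),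
    Sm b cl (fun l => ind (∀ s ∈ l, s.col ∈ K)) ≤
      (1 - 1 / (Fintype.card H : ℝ)) ^ cl.count c * (Fintype.card H : ℝ) ^ cl.length := by
  have hc : (0 : ℝ) < Fintype.card H := lt_of_lt_of_le one_pos one_le_card
  have hr : (0 : ℝ) ≤ 1 - 1 / (Fintype.card H : ℝ) := by
    rw [sub_nonneg, div_le_one hc]; exact one_le_card
  obtain ⟨c, h0, h1⟩ : ∃ c h0, h0⁻¹ * b c * h0 ∉ K := by
    by_contra h
    push Not at h
    refine hK (eq_top_iff.2 ?_)
    rw [← hn]
    refine (Subgroup.closure_le K).2 fun u hu => ?_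
    obtain ⟨_, ⟨c, rfl⟩, hu⟩ := Group.mem_conjugatesOfSet_iff.1 hu
    obtain ⟨z, rfl⟩ := isConj_iff.1 hu
    simpa using h c z⁻¹
  refine ⟨c, fun cl => ?_⟩
  induction cl with
  | nil => simpa [Sm] using ind_le_one _
  | cons d cl ih =>
    simp only [Sm, List.forall_mem_cons, ind_and, Sm_mul, ← Finset.sum_mul]
    have h2 : ∑ h : H, ind ((mk b d h).col ∈ K) ≤
        (1 - 1 / (Fintype.card H : ℝ)) ^ (if d == c then 1 else 0) * Fintype.card H := by
      by_cases hd : d = c
      · subst hd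
        have h3 : ∑ h : H, ind ((mk b d h).col ∈ K) ≤ ∑ h : H, (1 - ind (h = h0)) :=
          Finset.sum_le_sum fun h _ => by
            by_cases e : h = h0
            · subst e
              rw [ind_pos rfl, sub_self]
              exact (ind_neg h1).le
            · rw [ind_neg e, sub_zero]; exact ind_le_one _
        rw [Finset.sum_sub_distrib, sum_ind_eq] at h3
        refine h3.trans (le_of_eq ?_)
        simp only [Finset.sum_const, Finset.card_univ, nsmul_eq_mul, BEq.rfl, if_true]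
        field_simp
      · rw [if_neg (by simpa using hd), pow_zero, one_mul]
        simpa using Finset.sum_le_sum (s := Finset.univ) fun h _ => ind_le_one ((mk b d h).col ∈ K)
    refine (mul_le_mul h2 ih (Sm_nonneg b fun l => ind_nonneg _) (by positivity)).trans
      (le_of_eq ?_)
    rw [List.count_cons, List.length_cons]
    ring

theorem nongen (hn : NGen b) {η : ℝ} (hη : 0 < η) :
    ∃ m, ∀ cl : List (Fin 8), (∀ c, m ≤ cl.count c) →
      Sm b cl (fun l => ind (¬ Gen l)) ≤ η * (Fintype.card H : ℝ) ^ cl.length := by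
  classical
  have hc : (0 : ℝ) < Fintype.card H := lt_of_lt_of_le one_pos one_le_card
  have hr : (0 : ℝ) ≤ 1 - 1 / (Fintype.card H : ℝ) := by
    rw [sub_nonneg, div_le_one hc]; exact one_le_card
  have hr1 : 1 - 1 / (Fintype.card H : ℝ) < 1 := sub_lt_self _ (by positivity)
  have := Fintype.ofFinite (Subgroup H)
  let S : Finset (Subgroup H) := Finset.univ.filter fun K => K ≠ ⊤
  obtain ⟨m, hm⟩ := exists_pow_lt_of_lt_one (x := η / (S.card + 1)) (by positivity) hr1
  refine ⟨m, fun cl hcl => ?_⟩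
  have h1 : Sm b cl (fun l => ind (¬ Gen l)) ≤
      Sm b cl fun l => ∑ K ∈ S, ind (∀ s ∈ l, s.col ∈ K) := Sm_mono b fun l _ => by
    by_cases hl : Gen l
    · rw [ind_neg (not_not.2 hl)]
      exact Finset.sum_nonneg fun K _ => ind_nonneg _
    · rw [ind_pos hl, ← ind_pos (p := ∀ s ∈ l, s.col ∈ span l) fun s => mem_span]
      exact Finset.single_le_sum (f := fun K : Subgroup H => ind (∀ s ∈ l, s.col ∈ K))
        (fun K _ => ind_nonneg _) (Finset.mem_filter.2 ⟨Finset.mem_univ _, hl⟩)
  rw [Sm_sum] at h1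
  have h2 : ∑ K ∈ S, Sm b cl (fun l => ind (∀ s ∈ l, s.col ∈ K)) ≤
      ∑ K ∈ S, η / (S.card + 1) * (Fintype.card H : ℝ) ^ cl.length :=
    Finset.sum_le_sum fun K hK => by
      obtain ⟨c, h⟩ := rare b hn (Finset.mem_filter.1 hK).2
      refine (h cl).trans (mul_le_mul_of_nonneg_right ?_ (by positivity))
      exact (pow_le_pow_of_le_one hr hr1.le (hcl c)).trans hm.le
  refine h1.trans (h2.trans ?_)
  rw [Finset.sum_const, nsmul_eq_mul, ← mul_assoc]
  refine mul_le_mul_of_nonneg_right ?_ (by positivity)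
  rw [← mul_div_assoc, div_le_iff₀ (by positivity)]
  nlinarith

/-! ### The layout -/

theorem count_cs (k : ℕ) (c : Fin 8) : k ≤ (cs k).count c := by
  rw [cs, List.count_eq_countP, List.countP_map, List.countP_eq_length_filter,
    ← List.toFinset_card_of_nodup (List.nodup_range.filter _)]
  conv_lhs => rw [← Finset.card_range k]
  refine Finset.card_le_card_of_injOn (fun i => 2 * k * (c.val / 2) + (2 * i + c.val % 2)) ?_ ?_
  · intro i hi
    have hi' : i < k := by simpa using hi
    have hc := c.2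
    have h1 : (2 * k * (c.val / 2) + (2 * i + c.val % 2)) / (2 * k) = c.val / 2 := by
      rw [Nat.mul_add_div (by omega), Nat.div_eq_of_lt (a := 2 * i + c.val % 2) (by omega),
        add_zero]
    have h2 : (2 * k * (c.val / 2) + (2 * i + c.val % 2)) % 2 = c.val % 2 := by
      rw [mul_assoc]; omega
    have h3 : 2 * k * (c.val / 2) ≤ 2 * k * 3 := Nat.mul_le_mul_left _ (by omega)
    simp only [List.coe_toFinset, List.mem_filter, List.mem_range, Function.comp, Set.mem_setOf_eq,
      beq_iff_eq]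
    refine ⟨by omega, Fin.ext ?_⟩
    simp only [colr, h1, h2]
    omega
  · intro i _ j _ h
    simp only at h
    omega

end B1

open B1 in
theorem rowB1 : RowB1 := by
  intro H _ _ hp η hη
  have := Fintype.ofFinite H
  have hc : (0 : ℝ) < Fintype.card H := lt_of_lt_of_le one_pos one_le_card
  rw [← Filter.eventually_atTop, Filter.eventually_all]
  intro b
  by_cases hb : OddB b ∧ NGen b
  swap
  · exact Filter.Eventually.of_forall fun k ho hn => (hb ⟨ho, hn⟩).elim
  obtain ⟨m1, h1⟩ := equi b hp hb.1 hb.2 (half_pos hη)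
  obtain ⟨m2, h2⟩ := nongen b hb.2 (div_pos (half_pos hη) hc)
  refine Filter.eventually_atTop.2 ⟨m1 + m2 + 2, fun k hk _ _ => ?_⟩
  have hlen : (cs k).length = 8 * k := by simp [cs]
  have h3 := h1 (cs k) (fun c => le_trans (by omega) (count_cs k c)) 1
  have h4 := h2 (cs k) fun c => le_trans (by omega) (count_cs k c)
  rw [hlen] at h3 h4
  have hO : (Nat.card {l // InO b (cs k) l} : ℝ) = Sm b (cs k) fun l => ind (Gen l ∧ pr l = 1) :=
    card_eq b (cs k) fun l => Gen l ∧ pr l = 1
  have hpos : (0 : ℝ) < (Fintype.card H : ℝ) ^ (8 * k) := by positivity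
  rw [Nat.card_eq_fintype_card (α := H), hO]
  refine ⟨?_, ?_⟩
  · have h5 : V b (cs k) (fun x => ind (x = 1)) 1 ≤
        Sm b (cs k) (fun l => ind (Gen l ∧ pr l = 1)) + Sm b (cs k) fun l => ind (¬ Gen l) := by
      rw [← Sm_add]
      refine Sm_mono b fun l _ => ?_
      by_cases hl : Gen l
      · rw [ind_neg (not_not.2 hl), add_zero]
        exact ind_mono fun h => ⟨hl, by simpa using h⟩
      · rw [ind_neg (p := Gen l ∧ pr l = 1) fun h => hl h.1, ind_pos hl, zero_add]
        exact ind_le_one _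
    have h6 := mul_le_mul_of_nonneg_left h5 hc.le
    have h7 := mul_le_mul_of_nonneg_left h4 hc.le
    have h8 : Fintype.card H * (η / 2 / Fintype.card H * (Fintype.card H : ℝ) ^ (8 * k)) =
        η / 2 * (Fintype.card H : ℝ) ^ (8 * k) := by field_simp
    rw [h8] at h7
    linarith [h3.1]
  · have h5 : Sm b (cs k) (fun l => ind (Gen l ∧ pr l = 1)) ≤
        V b (cs k) (fun x => ind (x = 1)) 1 :=
      Sm_mono b fun l _ => ind_mono fun h => by simpa using h.2
    have h6 := mul_le_mul_of_nonneg_left h5 hc.le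
    nlinarith [h3.2]

end Vale.Agent.Q258D
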