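import Vale.Agent.Q258D.Rows

/-!
# Row B2: most pairs of rows generate the square
-/

set_option linter.all false

namespace Vale.Agent.Q258D

open Vale.Agent.P258.Braid

namespace B2

variable {H : Type} [Group H]

/-- proper subdirect products -/
def Bad (K : Subgroup (H × H)) : Prop :=
  K ≠ ⊤ ∧ (∀ a, ∃ y, (a, y) ∈ K) ∧ ∀ y, ∃ a, (a, y) ∈ K

theorem exists_noncentral (hp : commutator H = ⊤) {b : Fin 8 → H} (hb : NGen b)
    {K : Subgroup (H × H)} (hK : Bad K) :
    ∃ c x, (x⁻¹ * b c * x * (b c)⁻¹, (1 : H)) ∉ K := by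
  obtain ⟨h0, h1, h2⟩ := hK
  by_contra hcon
  simp only [not_exists, not_not] at hcon
  let N : Subgroup H := K.comap (MonoidHom.inl H H)
  have hmem : ∀ a, a ∈ N ↔ (a, (1 : H)) ∈ K := fun a => Iff.rfl
  have hN : N.Normal := ⟨fun a ha g => by
    obtain ⟨y, hy⟩ := h1 g
    have := K.mul_mem (K.mul_mem hy ((hmem a).1 ha)) (K.inv_mem hy)
    rw [hmem]
    simpa using this⟩
  let Z : Subgroup H := (Subgroup.center (H ⧸ N)).comap (QuotientGroup.mk' N)
  have hZ : Z = ⊤ := by
    rw [eq_top_iff, ← hb]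
    refine Subgroup.normalClosure_le_normal ?_
    rintro _ ⟨c, rfl⟩
    change QuotientGroup.mk' N (b c) ∈ Subgroup.center (H ⧸ N)
    rw [Subgroup.mem_center_iff]
    intro g
    obtain ⟨x, rfl⟩ := QuotientGroup.mk'_surjective N g
    rw [← map_mul, ← map_mul, QuotientGroup.mk'_apply, QuotientGroup.mk'_apply, eq_comm,
      QuotientGroup.eq_iff_div_mem]
    have := hN.conj_mem _ ((hmem _).2 (hcon c x)) x
    convert this using 1
    rw [div_eq_mul_inv]
    group
  have hNtop : N = ⊤ := by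
    rw [eq_top_iff, ← hp, commutator, Subgroup.commutator_le]
    intro a _ y _
    have ha : QuotientGroup.mk' N a ∈ Subgroup.center (H ⧸ N) := by
      have : a ∈ Z := hZ ▸ Subgroup.mem_top a
      exact this
    rw [← QuotientGroup.eq_one_iff, ← QuotientGroup.mk'_apply, map_commutatorElement,
      commutatorElement_eq_one_iff_mul_comm]
    exact (Subgroup.mem_center_iff.1 ha _).symm
  apply h0
  rw [eq_top_iff]
  rintro ⟨a, y⟩ -
  obtain ⟨a', ha'⟩ := h2 y
  have h3 : (a * a'⁻¹, (1 : H)) ∈ K := (hmem _).1 (hNtop ▸ Subgroup.mem_top _)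
  simpa using K.mul_mem h3 ha'

theorem half_le [Finite H] {K : Subgroup (H × H)} (h1 : ∀ a, ∃ y, (a, y) ∈ K) {g x : H}
    (hx : (x⁻¹ * g * x * g⁻¹, (1 : H)) ∉ K) (a : H) :
    2 * Nat.card {h : H // (h⁻¹ * g * h, a) ∈ K} ≤ Nat.card H := by
  have key : ∀ h : H, (h⁻¹ * g * h, a) ∈ K → ((x * h)⁻¹ * g * (x * h), a) ∉ K := by
    intro h hh hh'
    obtain ⟨y, hy⟩ := h1 h
    apply hx
    have := K.mul_mem (K.mul_mem hy (K.mul_mem hh' (K.inv_mem hh))) (K.inv_mem hy)
    convert this using 1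
    simp only [Prod.inv_mk, Prod.mk_mul_mk, Prod.mk.injEq]
    constructor <;> group
  rw [two_mul, ← Nat.card_sum]
  refine Nat.card_le_card_of_injective
    (Sum.elim (fun h : {h : H // (h⁻¹ * g * h, a) ∈ K} => h.1) fun h => x * h.1) ?_
  rintro (h | h) (h' | h') e
  · exact congrArg _ (Subtype.ext e)
  · simp only [Sum.elim_inl, Sum.elim_inr] at e
    exact absurd (e ▸ h.2) (key _ h'.2)
  · simp only [Sum.elim_inl, Sum.elim_inr] at e
    exact absurd (e ▸ h'.2) (key _ h.2)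
  · simp only [Sum.elim_inr] at e
    exact congrArg _ (Subtype.ext (mul_left_cancel e))

theorem colr_count (k : ℕ) (c : Fin 8) :
    k ≤ (Finset.univ.filter fun s : Fin (8 * k) => colr k s = c).card := by
  have hlt : ∀ i : Fin k, 2 * k * (c.1 / 2) + (2 * i.1 + c.1 % 2) < 8 * k := fun i => by
    have h1 := i.2
    have h2 : c.1 / 2 ≤ 3 := by have := c.2; omega
    have h3 : 2 * k * (c.1 / 2) ≤ 2 * k * 3 := Nat.mul_le_mul_left _ h2
    omega
  have := Finset.card_le_card_of_injOn (s := (Finset.univ : Finset (Fin k)))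
    (t := Finset.univ.filter fun s : Fin (8 * k) => colr k s = c)
    (fun i => ⟨2 * k * (c.1 / 2) + (2 * i.1 + c.1 % 2), hlt i⟩) ?_ ?_
  · simpa using this
  · intro i _
    simp only [Finset.coe_filter, Finset.mem_univ, true_and, Set.mem_ofPred_eq]
    apply Fin.ext
    have h1 := i.2
    have h2 : (2 * k * (c.1 / 2) + (2 * i.1 + c.1 % 2)) / (2 * k) = c.1 / 2 := by
      rw [Nat.add_comm, Nat.add_mul_div_left _ _ (by omega), Nat.div_eq_of_lt (by omega),
        Nat.zero_add]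
    have h3 : (2 * k * (c.1 / 2) + (2 * i.1 + c.1 % 2)) % 2 = c.1 % 2 := by
      rw [mul_assoc]
      omega
    simp only [colr, h2, h3]
    have := c.2
    omega
  · intro i _ j _ e
    simp only [Fin.mk.injEq] at e
    apply Fin.ext
    omega

theorem card_pi_le [Finite H] (k : ℕ) (c : Fin 8) (P : Fin (8 * k) → H → Prop)
    (hP : ∀ s : Fin (8 * k), colr k s = c → 2 * Nat.card {h // P s h} ≤ Nat.card H) :
    2 ^ k * Nat.card {F : Fin (8 * k) → H // ∀ s, P s (F s)} ≤ Nat.card H ^ (8 * k) := by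
  rw [Nat.card_congr (Equiv.subtypePiEquivPi (β := fun _ => H) (p := P)), Nat.card_pi]
  have h1 : 2 ^ k ≤ ∏ s : Fin (8 * k), (if colr k s = c then 2 else 1) := by
    rw [Finset.prod_ite, Finset.prod_const, Finset.prod_const_one, mul_one]
    exact Nat.pow_le_pow_right (by norm_num) (colr_count k c)
  refine (Nat.mul_le_mul_right _ h1).trans ?_
  rw [← Finset.prod_mul_distrib]
  refine (Finset.prod_le_pow_card _ _ (Nat.card H) fun s _ => ?_).trans (by simp)
  split_ifs with h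
  · exact hP s h
  · rw [one_mul]
    exact Nat.card_le_card_of_injective _ Subtype.val_injective

theorem span_map {H' : Type} [Group H'] (f : H →* H') (l : List (St 8 H)) :
    span (l.map (St.map f)) ≤ (span l).map f := by
  rw [span_le]
  intro s hs
  obtain ⟨t, ht, rfl⟩ := List.mem_map.1 hs
  exact ⟨t.col, mem_span ht, rfl⟩

theorem ngen_of {b : Fin 8 → H} {l : List (St 8 H)} (h : Based b l) (hg : Gen l) : NGen b := by
  unfold NGen
  rw [eq_top_iff, ← hg, span_le]
  intro s hs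
  have h1 : s.col = s.tr⁻¹ * b s.lab * s.tr := congrArg St.col (h s hs)
  rw [h1]
  have := (Subgroup.normalClosure_normal (s := Set.range b)).conj_mem (b s.lab)
    (Subgroup.subset_normalClosure ⟨s.lab, rfl⟩) s.tr⁻¹
  simpa using this

theorem bad_span {cl : List (Fin 8)} {b : Fin 8 → H} {l l' : List (St 8 H)} (h : InO b cl l)
    (h' : InO b cl l') (hn : ¬ Gen (zip2 l l')) : Bad (span (zip2 l l')) := by
  have e : labs l = labs l' := h.1.2.trans h'.1.2.symm
  have hl : l.length = l'.length := by rw [← labs_length, e, labs_length]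
  refine ⟨hn, fun a => ?_, fun y => ?_⟩
  · have h1 := span_map (MonoidHom.fst H H) (zip2 l l')
    rw [zip2_fst hl, h.2.1] at h1
    obtain ⟨⟨a', y⟩, h2, rfl⟩ := h1 (Subgroup.mem_top a)
    exact ⟨y, h2⟩
  · have h1 := span_map (MonoidHom.snd H H) (zip2 l l')
    rw [zip2_snd e, h'.2.1] at h1
    obtain ⟨⟨a, y'⟩, h2, rfl⟩ := h1 (Subgroup.mem_top y)
    exact ⟨a, h2⟩

theorem mem_span_zip {k : ℕ} {b : Fin 8 → H} {l l' : List (St 8 H)} (h : InX b (cs k) l)
    (h' : InX b (cs k) l') (s : Fin (8 * k)) :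
    ((frm l s)⁻¹ * b (colr k s) * frm l s, (frm l' s)⁻¹ * b (colr k s) * frm l' s) ∈
      span (zip2 l l') := by
  have e : zip2 l l' = row k (fun c => (b c, b c)) fun s => (frm l s, frm l' s) := by
    conv_lhs => rw [h.eq_row, h'.eq_row]
    exact zip2_row k b b _ _
  rw [e]
  exact mem_span (s := mk (fun c => (b c, b c)) (colr k s) (frm l s, frm l' s))
    (List.mem_map.2 ⟨s, List.mem_range.2 s.2, rfl⟩)

theorem count_le [Finite H] (hp : commutator H = ⊤) (k : ℕ) (b : Fin 8 → H)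
    (l' : List (St 8 H)) (h' : InO b (cs k) l') :
    2 ^ k * Nat.card {l // InO b (cs k) l ∧ ¬ Gen (zip2 l l')} ≤
      Nat.card (Subgroup (H × H)) * Nat.card H ^ (8 * k) := by
  have hb : NGen b := ngen_of h'.1.1 h'.2.1
  let S : {K : Subgroup (H × H) // Bad K} → Type := fun K =>
    {F : Fin (8 * k) → H // ∀ s : Fin (8 * k),
      ((F s)⁻¹ * b (colr k s) * F s, (frm l' s)⁻¹ * b (colr k s) * frm l' s) ∈ K.1}
  have hS : ∀ K, 2 ^ k * Nat.card (S K) ≤ Nat.card H ^ (8 * k) := fun K => by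
    obtain ⟨c, x, hx⟩ := exists_noncentral hp hb K.2
    refine card_pi_le k c (fun s h =>
      (h⁻¹ * b (colr k s) * h, (frm l' s)⁻¹ * b (colr k s) * frm l' s) ∈ K.1) fun s hs => ?_
    rw [hs]
    exact half_le K.2.2.1 hx _
  haveI := Fintype.ofFinite {K : Subgroup (H × H) // Bad K}
  have h1 : Nat.card {l // InO b (cs k) l ∧ ¬ Gen (zip2 l l')} ≤ Nat.card (Σ K, S K) := by
    refine Nat.card_le_card_of_injective (fun l => ⟨⟨span (zip2 l.1 l'), bad_span l.2.1 h' l.2.2⟩,
      ⟨fun s => frm l.1 s, mem_span_zip l.2.1.1 h'.1⟩⟩) fun l₁ l₂ e => ?_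
    have e2 : (fun s : Fin (8 * k) => frm l₁.1 s) = fun s : Fin (8 * k) => frm l₂.1 s :=
      congrArg (fun z : Σ K, S K => z.2.1) e
    apply Subtype.ext
    rw [l₁.2.1.1.eq_row, l₂.2.1.1.eq_row]
    exact row_congr b fun s hs => congrFun e2 ⟨s, hs⟩
  refine (Nat.mul_le_mul_left _ h1).trans ?_
  rw [Nat.card_sigma, Finset.mul_sum]
  refine (Finset.sum_le_card_nsmul _ _ _ fun K _ => hS K).trans ?_
  rw [smul_eq_mul, Finset.card_univ, ← Nat.card_eq_fintype_card]
  exact Nat.mul_le_mul_right _ (Nat.card_le_card_of_injective _ Subtype.val_injective)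

end B2

theorem rowB2 : RowB2 := by
  intro H _ _ hp η hη
  obtain ⟨k0, hk0⟩ := pow_unbounded_of_one_lt ((Nat.card (Subgroup (H × H)) : ℝ) / η)
    (one_lt_two (α := ℝ))
  refine ⟨k0, fun k hk b l' h' => ?_⟩
  have h1 : (2 : ℝ) ^ k * Nat.card {l // InO b (cs k) l ∧ ¬ Gen (zip2 l l')} ≤
      Nat.card (Subgroup (H × H)) * (Nat.card H : ℝ) ^ (8 * k) := by
    exact_mod_cast B2.count_le hp k b l' h'
  have h2 : (Nat.card (Subgroup (H × H)) : ℝ) ≤ 2 ^ k * η := by
    rw [div_lt_iff₀ hη] at hk0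
    exact hk0.le.trans (mul_le_mul_of_nonneg_right (pow_le_pow_right₀ one_le_two hk) hη.le)
  have h3 : (0 : ℝ) < 2 ^ k := by positivity
  refine le_of_mul_le_mul_left (h1.trans ?_) h3
  rw [← mul_assoc]
  exact mul_le_mul_of_nonneg_right h2 (by positivity)

end Vale.Agent.Q258D
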