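import Vale.Agent.Q258D.Rows
import Mathlib.Analysis.SpecificLimits.Basic

/-!
# Row B3: counting the rows that fit the caps
-/

set_option linter.all false

namespace Vale.Agent.Q258D

open Vale.Agent.P258.Braid

namespace B3

variable {H : Type} [Group H]

theorem finite_inX [Finite H] (k : ℕ) (b : Fin 8 → H) : Finite {l // InX b (cs k) l} := by
  refine Finite.of_injective (fun l : {l // InX b (cs k) l} => fun s : Fin (8 * k) => frm l.1 s) ?_
  intro l l' h
  apply Subtype.ext
  rw [l.2.eq_row, l'.2.eq_row]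
  exact row_congr b fun s hs => congrFun h ⟨s, hs⟩

/-- a family of rows parametrised by the frames at the positions `2 i`, `i ∈ I` -/
structure Par (k : ℕ) (b : Fin 8 → H) (I : Finset ℕ) (P : List (St 8 H) → Prop)
    (Φ : (ℕ → H) → ℕ → H) : Prop where
  sub : ∀ i ∈ I, i < 4 * k
  ex : ∀ l, P l → ∃ f : ℕ → H, (∀ i ∉ I, f i = 1) ∧ l = row k b (Φ f)
  mem : ∀ f : ℕ → H, (∀ i ∉ I, f i = 1) → P (row k b (Φ f))
  val : ∀ f : ℕ → H, ∀ i ∈ I, Φ f (2 * i) = f i

/-- the frames at the free caps -/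
def psi {P : List (St 8 H) → Prop} (I : Finset ℕ) (l : {l // P l}) : I → H :=
  fun i => frm l.1 (2 * i.1)

theorem Par.bij {k : ℕ} {b : Fin 8 → H} {I : Finset ℕ} {P : List (St 8 H) → Prop}
    {Φ : (ℕ → H) → ℕ → H} (h : Par k b I P Φ) : Function.Bijective (psi (P := P) I) := by
  classical
  constructor
  · rintro ⟨l, hl⟩ ⟨l', hl'⟩ e
    obtain ⟨f, f1, rfl⟩ := h.ex l hl
    obtain ⟨f', f1', rfl⟩ := h.ex l' hl'
    have : f = f' := by
      funext i
      by_cases hi : i ∈ I
      · have h2 := congrFun e ⟨i, hi⟩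
        have h3 := h.sub i hi
        simp only [psi] at h2
        rwa [frm_row _ _ (by omega), frm_row _ _ (by omega), h.val _ _ hi, h.val _ _ hi] at h2
      · rw [f1 i hi, f1' i hi]
    subst this
    rfl
  · intro g
    let f : ℕ → H := fun i => if hi : i ∈ I then g ⟨i, hi⟩ else 1
    refine ⟨⟨row k b (Φ f), h.mem f fun i hi => dif_neg hi⟩, ?_⟩
    funext ⟨i, hi⟩
    have h3 := h.sub i hi
    simp only [psi]
    rw [frm_row _ _ (by omega), h.val _ _ hi]
    exact dif_pos hi

theorem Par.card [Finite H] {k : ℕ} {b : Fin 8 → H} {I : Finset ℕ} {P : List (St 8 H) → Prop}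
    {Φ : (ℕ → H) → ℕ → H} (h : Par k b I P Φ) : Nat.card {l // P l} = Nat.card H ^ I.card := by
  rw [Nat.card_eq_of_bijective _ h.bij, Nat.card_fun, Nat.card_eq_fintype_card (α := I),
    Fintype.card_coe]

/-- functions that avoid one value on a set of indices -/
theorem card_avoid [Finite H] {ι : Type} [Fintype ι] (A : ι → Prop) [DecidablePred A] (x : H)
    (m : ℕ) (hm : m ≤ (Finset.univ.filter A).card) :
    (Nat.card {f : ι → H // ∀ i, A i → f i ≠ x} : ℝ) ≤
      (1 - 1 / (Nat.card H : ℝ)) ^ m * (Nat.card H : ℝ) ^ Fintype.card ι := by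
  classical
  have hn : (0 : ℝ) < Nat.card H := by exact_mod_cast Nat.card_pos
  have hn1 : (1 : ℝ) ≤ Nat.card H := by exact_mod_cast Nat.card_pos
  have hr0 : (0 : ℝ) ≤ 1 - 1 / (Nat.card H : ℝ) := by
    rw [sub_nonneg, div_le_one hn]; exact hn1
  have hr1 : 1 - 1 / (Nat.card H : ℝ) ≤ 1 := by
    have : (0 : ℝ) ≤ 1 / (Nat.card H : ℝ) := by positivity
    linarith
  have h1 : ∀ i, (Nat.card {y : H // A i → y ≠ x} : ℝ) =
      (if A i then 1 - 1 / (Nat.card H : ℝ) else 1) * Nat.card H := by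
    intro i
    haveI := Fintype.ofFinite H
    split_ifs with hi
    · have e : {y : H // A i → y ≠ x} ≃ {y : H // ¬ y = x} :=
        Equiv.subtypeEquivRight fun y => by simp [hi]
      rw [Nat.card_congr e, Nat.card_eq_fintype_card, Fintype.card_subtype_compl,
        Fintype.card_subtype_eq, Nat.cast_sub Fintype.card_pos, ← Nat.card_eq_fintype_card]
      field_simp
      simp
    · have e : {y : H // A i → y ≠ x} ≃ H := Equiv.subtypeUnivEquiv fun y => by simp [hi]
      rw [Nat.card_congr e, one_mul]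
  rw [Nat.card_congr (Equiv.subtypePiEquivPi (p := fun i y => A i → y ≠ x)), Nat.card_pi,
    Nat.cast_prod]
  simp only [h1]
  rw [Finset.prod_mul_distrib, Finset.prod_const, Finset.card_univ, Finset.prod_ite,
    Finset.prod_const, Finset.prod_const_one, mul_one]
  exact mul_le_mul_of_nonneg_right (pow_le_pow_of_le_one hr0 hr1 hm) (by positivity)

theorem card_ex_le {α β : Type} [Fintype α] [Finite β] (Q : α → β → Prop) :
    Nat.card {y // ∃ x, Q x y} ≤ ∑ x, Nat.card {y // Q x y} := by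
  rw [← Nat.card_sigma]
  refine Nat.card_le_card_of_surjective
    (fun z : Σ x, {y // Q x y} => (⟨z.2.1, z.1, z.2.2⟩ : {y // ∃ x, Q x y})) ?_
  rintro ⟨y, x, h⟩
  exact ⟨⟨x, y, h⟩, rfl⟩

/-- a proper subgroup misses a conjugate of a base element of even colour -/
theorem exists_miss {b : Fin 8 → H} (ho : OddB b) (hg : NGen b) {K : Subgroup H} (hK : K ≠ ⊤) :
    ∃ (j : Fin 4) (x : H), x⁻¹ * b ⟨2 * j.1, by omega⟩ * x ∉ K := by
  by_contra hc
  push Not at hc
  apply hK
  have h1 : ∀ (c : Fin 8) (x : H), x⁻¹ * b c * x ∈ K := by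
    intro c x
    have h2 : ∀ j : Fin 4, x⁻¹ * b (bar ⟨2 * j.1, by omega⟩) * x ∈ K := by
      intro j
      rw [ho]
      have := K.inv_mem (hc j x)
      convert this using 1
      group
    fin_cases c
    · exact hc 0 x
    · exact h2 0
    · exact hc 1 x
    · exact h2 1
    · exact hc 2 x
    · exact h2 2
    · exact hc 3 x
    · exact h2 3
  rw [eq_top_iff, ← hg]
  unfold Subgroup.normalClosure
  rw [Subgroup.closure_le]
  intro y hy
  obtain ⟨_, ⟨c, rfl⟩, hc'⟩ := Group.mem_conjugatesOfSet_iff.1 hy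
  obtain ⟨g, rfl⟩ := isConj_iff.1 hc'
  have := h1 c g⁻¹
  rwa [inv_inv] at this

theorem colr_even {k i : ℕ} (j : Fin 4) (h : i / k = j.1) :
    colr k (2 * i) = ⟨2 * j.1, by omega⟩ := by
  apply Fin.ext
  have := j.2
  simp only [colr]
  rw [Nat.mul_div_mul_left _ _ (by norm_num : 0 < 2), h]
  omega

theorem Par.bad [Finite H] {k : ℕ} {b : Fin 8 → H} {I : Finset ℕ} {P : List (St 8 H) → Prop}
    {Φ : (ℕ → H) → ℕ → H} (h : Par k b I P Φ) (ho : OddB b) (hg : NGen b)
    (hI : ∀ j < 4, ∀ a, a + 1 < k → k * j + (a + 1) ∈ I) :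
    (Nat.card {l // P l ∧ ¬ Gen l} : ℝ) ≤
      4 * Nat.card H * (1 - 1 / (Nat.card H : ℝ)) ^ (k - 1) * Nat.card {l // P l} := by
  classical
  haveI := Fintype.ofFinite H
  let Q : Fin 4 × H → (I → H) → Prop := fun x f => ∀ i : I, i.1 / k = x.1.1 → f i ≠ x.2
  have h1 : Nat.card {l // P l ∧ ¬ Gen l} ≤ Nat.card {f // ∃ x, Q x f} := by
    refine Nat.card_le_card_of_injective
      (fun l : {l // P l ∧ ¬ Gen l} => (⟨psi I ⟨l.1, l.2.1⟩, ?_⟩ : {f // ∃ x, Q x f})) ?_
    · obtain ⟨l, hl, hn⟩ := l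
      obtain ⟨j, x, hx⟩ := exists_miss ho hg hn
      refine ⟨(j, x), fun i hi e => hx ?_⟩
      obtain ⟨f, -, rfl⟩ := h.ex l hl
      have h3 := h.sub i.1 i.2
      simp only [psi] at e
      rw [frm_row _ _ (by omega)] at e
      have h4 : Q258D.mk b (colr k (2 * i.1)) (Φ f (2 * i.1)) ∈ row k b (Φ f) :=
        List.mem_map.2 ⟨2 * i.1, List.mem_range.2 (by omega), rfl⟩
      have h5 := mem_span h4
      rw [colr_even j hi, e] at h5
      exact h5
    · intro l l' e
      have := h.bij.1 (congrArg Subtype.val e)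
      exact Subtype.ext (congrArg (fun z : {l // P l} => z.1) this)
  have h2 : ∀ x, (Nat.card {f // Q x f} : ℝ) ≤
      (1 - 1 / (Nat.card H : ℝ)) ^ (k - 1) * (Nat.card H : ℝ) ^ I.card := by
    intro x
    rw [← Fintype.card_coe I]
    refine card_avoid (fun i : I => i.1 / k = x.1.1) x.2 (k - 1) ?_
    have h6 : (Finset.univ : Finset (Fin (k - 1))).card ≤
        (Finset.univ.filter fun i : I => i.1 / k = x.1.1).card := by
      refine Finset.card_le_card_of_injOn
        (fun a => ⟨k * x.1.1 + (a.1 + 1), hI _ x.1.2 a.1 (by have := a.2; omega)⟩) ?_ ?_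
      · intro a _
        have := a.2
        simp only [Finset.coe_filter, Finset.mem_univ, true_and, Set.mem_setOf_eq]
        rw [Nat.mul_add_div (by omega), Nat.div_eq_of_lt (by omega), add_zero]
      · intro a _ a' _ e
        have := congrArg (fun z : I => z.1) e
        simp only at this
        exact Fin.ext (by omega)
    rwa [Finset.card_univ, Fintype.card_fin] at h6
  have h3 := card_ex_le Q
  have h4 : (∑ x, (Nat.card {f // Q x f} : ℝ)) ≤ ∑ _x : Fin 4 × H,
      (1 - 1 / (Nat.card H : ℝ)) ^ (k - 1) * (Nat.card H : ℝ) ^ I.card :=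
    Finset.sum_le_sum fun x _ => h2 x
  rw [Finset.sum_const, Finset.card_univ, Fintype.card_prod, Fintype.card_fin, nsmul_eq_mul,
    ← Nat.card_eq_fintype_card] at h4
  rw [h.card]
  have h5 : (Nat.card {l // P l ∧ ¬ Gen l} : ℝ) ≤ ∑ x, (Nat.card {f // Q x f} : ℝ) := by
    exact_mod_cast h1.trans h3
  push_cast at h4 ⊢
  linarith

theorem parT (k : ℕ) (b : Fin 8 → H) :
    Par k b (Finset.range (4 * k)) (InT k b) fun f s => f (s / 2) where
  sub i hi := Finset.mem_range.1 hi
  ex l := by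
    rintro ⟨f, rfl⟩
    refine ⟨fun i => if i < 4 * k then f i else 1, fun i hi => if_neg (by simpa using hi), ?_⟩
    refine row_congr b fun s hs => ?_
    exact (if_pos (by omega)).symm
  mem f _ := ⟨f, rfl⟩
  val f i _ := by rw [Nat.mul_div_cancel_left _ (by norm_num : 0 < 2)]

theorem parB {k : ℕ} (hk : 0 < k) (b : Fin 8 → H) (e : ℕ → H) :
    Par k b ((Finset.range (4 * k)).filter fun i => i % k ≠ 0) (InB k b e)
      fun f s => if s % (2 * k) = 2 * k - 1 then e (s / (2 * k)) else f ((s + 1) / 2) where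
  sub i hi := Finset.mem_range.1 (Finset.mem_filter.1 hi).1
  ex l := by
    rintro ⟨f, hf, rfl⟩
    refine ⟨fun i => if i < 4 * k then f i else 1, fun i hi => ?_, ?_⟩
    · beta_reduce
      split_ifs with h
      · have h2 : i % k = 0 := by simpa [h] using hi
        obtain ⟨j, rfl⟩ := Nat.dvd_of_mod_eq_zero h2
        exact hf j
      · rfl
    · refine row_congr b fun s hs => ?_
      by_cases h : s % (2 * k) = 2 * k - 1
      · rw [if_pos h, if_pos h]
      · rw [if_neg h, if_neg h]
        refine (if_pos ?_).symm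
        by_contra h2
        have h3 : s = 2 * k * 3 + (2 * k - 1) := by omega
        apply h
        rw [h3, Nat.mul_add_mod, Nat.mod_eq_of_lt (by omega)]
  mem f hf := ⟨f, fun j => hf _ (by simp), rfl⟩
  val f i _ := by
    have h : ¬ (2 * i) % (2 * k) = 2 * k - 1 := by
      rw [Nat.mul_mod_mul_left]
      omega
    simp only [if_neg h]
    congr 1
    omega

theorem card_IB {k : ℕ} (hk : 0 < k) :
    4 + ((Finset.range (4 * k)).filter fun i => i % k ≠ 0).card = 4 * k := by
  have h1 : (Finset.range (4 * k)).filter (fun i => i % k = 0) =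
      (Finset.range 4).image fun j => k * j := by
    ext i
    simp only [Finset.mem_filter, Finset.mem_range, Finset.mem_image]
    constructor
    · rintro ⟨h1, h2⟩
      obtain ⟨j, rfl⟩ := Nat.dvd_of_mod_eq_zero h2
      refine ⟨j, ?_, rfl⟩
      rw [mul_comm 4 k] at h1
      exact lt_of_mul_lt_mul_left h1 (Nat.zero_le _)
    · rintro ⟨j, hj, rfl⟩
      refine ⟨?_, Nat.mul_mod_right _ _⟩
      rw [mul_comm 4 k]
      exact Nat.mul_lt_mul_of_pos_left hj hk
  have h2 := Finset.card_filter_add_card_filter_not (s := Finset.range (4 * k))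
    (fun i => i % k = 0)
  rw [h1, Finset.card_image_of_injective _ (mul_right_injective₀ hk.ne'), Finset.card_range,
    Finset.card_range] at h2
  exact h2

end B3

open B3 in
theorem rowB3 : RowB3 := by
  intro H _ _
  refine ⟨fun k hk b e => ⟨finite_inX k b, ?_, ?_⟩, fun η hη => ?_⟩
  · rw [(parB hk b e).card, ← pow_add, card_IB hk]
  · rw [(parT k b).card, Finset.card_range]
  · have hn : (0 : ℝ) < Nat.card H := by exact_mod_cast Nat.card_pos
    have hn1 : (1 : ℝ) ≤ Nat.card H := by exact_mod_cast Nat.card_pos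
    have hr0 : (0 : ℝ) ≤ 1 - 1 / (Nat.card H : ℝ) := by
      rw [sub_nonneg, div_le_one hn]; exact hn1
    have hr1 : 1 - 1 / (Nat.card H : ℝ) < 1 := by
      have : (0 : ℝ) < 1 / (Nat.card H : ℝ) := by positivity
      linarith
    obtain ⟨n, hn2⟩ := exists_pow_lt_of_lt_one (show 0 < η / (4 * Nat.card H) by positivity) hr1
    refine ⟨n + 1, fun k hk b ho hg e => ?_⟩
    have h1 : 4 * Nat.card H * (1 - 1 / (Nat.card H : ℝ)) ^ (k - 1) ≤ η := by
      have h2 : (1 - 1 / (Nat.card H : ℝ)) ^ (k - 1) ≤ (1 - 1 / (Nat.card H : ℝ)) ^ n :=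
        pow_le_pow_of_le_one hr0 hr1.le (by omega)
      have h3 := h2.trans hn2.le
      rw [le_div_iff₀ (by positivity)] at h3
      linarith
    have h4 : ∀ j < 4, ∀ a, a + 1 < k → k * j + (a + 1) < 4 * k := by
      intro j hj a ha
      have : k * j ≤ k * 3 := Nat.mul_le_mul_left _ (by omega)
      omega
    constructor
    · refine ((parB (by omega) b e).bad ho hg fun j hj a ha => ?_).trans
        (mul_le_mul_of_nonneg_right h1 (by positivity))
      refine Finset.mem_filter.2 ⟨Finset.mem_range.2 (h4 j hj a ha), ?_⟩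
      rw [Nat.mul_add_mod, Nat.mod_eq_of_lt ha]
      omega
    · exact ((parT k b).bad ho hg fun j hj a ha => Finset.mem_range.2 (h4 j hj a ha)).trans
        (mul_le_mul_of_nonneg_right h1 (by positivity))

end Vale.Agent.Q258D
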