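import Vale.Agent.Q258D.Rows

/-!
# Row C: transitivity of the derived subgroups on the big orbit
-/

set_option linter.all false

namespace Vale.Agent.Q258D

open Vale.Agent.P258.Braid
open scoped commutatorElement

namespace RC

variable {H H' : Type} [Group H] [Group H']

/-! ### Products of superperfect groups -/

theorem comm_central {U : Type} [Group U] {x y z w : U} (hz : z ∈ Subgroup.center U)
    (hw : w ∈ Subgroup.center U) : ⁅x * z, y * w⁆ = ⁅x, y⁆ := by
  have h1 := Subgroup.mem_center_iff.1 hz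
  have h2 := Subgroup.mem_center_iff.1 hw
  simp only [commutatorElement_def, mul_inv_rev]
  calc x * z * (y * w) * (z⁻¹ * x⁻¹) * (w⁻¹ * y⁻¹)
      = x * (z * (y * w)) * (z⁻¹ * x⁻¹) * (w⁻¹ * y⁻¹) := by group
    _ = x * ((y * w) * z) * (z⁻¹ * x⁻¹) * (w⁻¹ * y⁻¹) := by rw [← h1 (y * w)]
    _ = x * y * (w * x⁻¹) * (w⁻¹ * y⁻¹) := by group
    _ = x * y * (x⁻¹ * w) * (w⁻¹ * y⁻¹) := by rw [← h2 x⁻¹]
    _ = x * y * x⁻¹ * y⁻¹ := by group

theorem surj_comm (hH : commutator H = ⊤) {U : Type} [Group U] (g : U →* H) (A : Subgroup U)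
    (hs : ∀ h, ∃ a ∈ A, g a = h) : ∀ h, ∃ a ∈ ⁅A, A⁆, g a = h := by
  have h1 : A.map g = ⊤ := by
    rw [eq_top_iff]
    intro h _
    exact hs h
  have h2 : (⁅A, A⁆ : Subgroup U).map g = ⊤ := by
    rw [Subgroup.map_commutator, h1, ← commutator_def, hH]
  intro h
  have : h ∈ (⁅A, A⁆ : Subgroup U).map g := by rw [h2]; trivial
  exact this

theorem inj_comm (hH : SP H) {U : Type} [Group U] (g : U →* H) (A : Subgroup U)
    (hs : ∀ h, ∃ a ∈ A, g a = h) (hc : ∀ a ∈ A, g a = 1 → a ∈ Subgroup.center U) :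
    ∀ a ∈ ⁅A, A⁆, g a = 1 → a = 1 := by
  have hle : ⁅A, A⁆ ≤ A := Subgroup.commutator_le_self A
  have hs1 := surj_comm hH.perf g A hs
  have hdec : ∀ a ∈ A, ∃ x ∈ ⁅A, A⁆, ∃ z ∈ Subgroup.center U, a = x * z := by
    intro a ha
    obtain ⟨x, hx, hxa⟩ := hs1 (g a)
    refine ⟨x, hx, x⁻¹ * a, hc _ (A.mul_mem (A.inv_mem (hle hx)) ha) ?_, by group⟩
    rw [map_mul, map_inv, hxa, inv_mul_cancel]
  have hp : ⁅A, A⁆ ≤ ⁅(⁅A, A⁆ : Subgroup U), (⁅A, A⁆ : Subgroup U)⁆ := by
    rw [Subgroup.commutator_le]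
    intro a ha a' ha'
    obtain ⟨x, hx, z, hz, rfl⟩ := hdec a ha
    obtain ⟨y, hy, w, hw, rfl⟩ := hdec a' ha'
    rw [comm_central hz hw]
    exact Subgroup.commutator_mem_commutator hx hy
  have hperf : commutator (⁅A, A⁆ : Subgroup U) = ⊤ := by
    apply Subgroup.map_injective (⁅A, A⁆ : Subgroup U).subtype_injective
    rw [commutator_def, Subgroup.map_commutator, ← MonoidHom.range_eq_map,
      Subgroup.range_subtype]
    exact le_antisymm (Subgroup.commutator_le_self _) hp
  have hinj := hH.sup (⁅A, A⁆ : Subgroup U) (g.comp (⁅A, A⁆ : Subgroup U).subtype)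
    (fun h => by
      obtain ⟨a, ha, rfl⟩ := hs1 h
      exact ⟨⟨a, ha⟩, rfl⟩)
    (fun a ha => by
      rw [Subgroup.mem_center_iff]
      intro y
      exact Subtype.ext (Subgroup.mem_center_iff.1 (hc a.1 (hle a.2) ha) y.1)) hperf
  intro a ha h1
  have : (⟨a, ha⟩ : (⁅A, A⁆ : Subgroup U)) = 1 := hinj (by
    rw [map_one]
    exact h1)
  exact congrArg Subtype.val this

theorem perf_prod (h : commutator H = ⊤) (h' : commutator H' = ⊤) : commutator (H × H') = ⊤ := by
  rw [commutator_def] at h h' ⊢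
  rw [← Subgroup.top_prod_top, Subgroup.commutator_prod_prod, h, h']

theorem sp_prod (h : SP H) (h' : SP H') : SP (H × H') := by
  refine ⟨?_, perf_prod h.perf h'.perf, fun U _ f hf hk hU => ?_⟩
  · haveI := h.fin
    haveI := h'.fin
    infer_instance
  let g := (MonoidHom.fst H H').comp f
  let g' := (MonoidHom.snd H H').comp f
  have hs : ∀ x, ∃ a ∈ g'.ker, g a = x := fun x => by
    obtain ⟨a, ha⟩ := hf (x, 1)
    exact ⟨a, congrArg Prod.snd ha, congrArg Prod.fst ha⟩
  have hs' : ∀ x, ∃ a ∈ g.ker, g' a = x := fun x => by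
    obtain ⟨a, ha⟩ := hf (1, x)
    exact ⟨a, congrArg Prod.fst ha, congrArg Prod.snd ha⟩
  have hc : ∀ a ∈ g'.ker, g a = 1 → a ∈ Subgroup.center U := fun a ha h1 =>
    hk (Prod.ext h1 ha)
  have hc' : ∀ a ∈ g.ker, g' a = 1 → a ∈ Subgroup.center U := fun a ha h1 =>
    hk (Prod.ext ha h1)
  have hle : ⁅g'.ker, g'.ker⁆ ≤ g'.ker := Subgroup.commutator_le_self _
  have hle' : ⁅g.ker, g.ker⁆ ≤ g.ker := Subgroup.commutator_le_self _
  have hdec : ∀ u : U, ∃ x ∈ ⁅g'.ker, g'.ker⁆ ⊔ ⁅g.ker, g.ker⁆, ∃ z ∈ Subgroup.center U,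
      u = x * z := by
    intro u
    obtain ⟨a, ha, e⟩ := surj_comm h.perf g _ hs (g u)
    obtain ⟨a', ha', e'⟩ := surj_comm h'.perf g' _ hs' (g' u)
    refine ⟨a * a', Subgroup.mul_mem_sup ha ha', (a * a')⁻¹ * u, hk ?_, by group⟩
    have e1 : g a' = 1 := hle' ha'
    have e2 : g' a = 1 := hle ha
    refine Prod.ext (show g _ = 1 from ?_) (show g' _ = 1 from ?_)
    · rw [map_mul, map_inv, map_mul, e, e1, mul_one, inv_mul_cancel]
    · rw [map_mul, map_inv, map_mul, e', e2, one_mul, inv_mul_cancel]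
  have htop : commutator U ≤ ⁅g'.ker, g'.ker⁆ ⊔ ⁅g.ker, g.ker⁆ := by
    rw [commutator_def, Subgroup.commutator_le]
    intro u _ v _
    obtain ⟨x, hx, z, hz, rfl⟩ := hdec u
    obtain ⟨y, hy, w, hw, rfl⟩ := hdec v
    rw [comm_central hz hw]
    exact Subgroup.commutator_le_self _ (Subgroup.commutator_mem_commutator hx hy)
  rw [injective_iff_map_eq_one]
  intro u hu
  have hmem : u ∈ ⁅g'.ker, g'.ker⁆ ⊔ ⁅g.ker, g.ker⁆ := htop (by rw [hU]; trivial)
  obtain ⟨a, ha, a', ha', rfl⟩ := Subgroup.mem_sup_of_normal_left.1 hmem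
  have e1 : g a' = 1 := hle' ha'
  have e2 : g' a = 1 := hle ha
  have e3 : g (a * a') = 1 := congrArg Prod.fst hu
  have e4 : g' (a * a') = 1 := congrArg Prod.snd hu
  rw [map_mul, e1, mul_one] at e3
  rw [map_mul, e2, one_mul] at e4
  rw [inj_comm h g _ hs hc a ha e3, inj_comm h' g' _ hs' hc' a' ha' e4, mul_one]

/-! ### Twists in products -/

theorem mov_prod {M : ℕ} (h : Mov H M) (h' : Mov H' M) : Mov (H × H') M := by
  intro Y hY
  set N := Subgroup.normalClosure {g : H × H' | ∃ y ∈ Y, ∃ a a' : H × H', IsConj y a ∧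
    IsConj y a' ∧ g = a⁻¹ * ((a' * a) ^ M * a * ((a' * a) ^ M)⁻¹)} with hN
  have hfix : ∀ {G : Type} [Group G] (y : G),
      y⁻¹ * ((y * y) ^ M * y * ((y * y) ^ M)⁻¹) = 1 := by
    intro G _ y
    have : Commute ((y * y) ^ M) y := ((Commute.refl y).mul_left (Commute.refl y)).pow_left M
    rw [this.eq]
    group
  have h1 : ⊤ ≤ N.comap (MonoidHom.inl H H') := by
    rw [← h (MonoidHom.fst H H' '' Y) (by
      rw [← Subgroup.map_normalClosure _ _ Prod.fst_surjective, hY,
        Subgroup.map_top_of_surjective _ Prod.fst_surjective])]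
    refine Subgroup.normalClosure_le_normal ?_
    rintro _ ⟨_, ⟨y, hy, rfl⟩, a, a', ha, ha', rfl⟩
    refine Subgroup.subset_normalClosure ⟨y, hy, (a, y.2), (a', y.2), ?_, ?_, ?_⟩
    · obtain ⟨c, hc⟩ := isConj_iff.1 ha
      exact isConj_iff.2 ⟨(c, 1), Prod.ext hc (by simp)⟩
    · obtain ⟨c, hc⟩ := isConj_iff.1 ha'
      exact isConj_iff.2 ⟨(c, 1), Prod.ext hc (by simp)⟩
    · exact Prod.ext rfl (hfix y.2).symm
  have h2 : ⊤ ≤ N.comap (MonoidHom.inr H H') := by
    rw [← h' (MonoidHom.snd H H' '' Y) (by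
      rw [← Subgroup.map_normalClosure _ _ Prod.snd_surjective, hY,
        Subgroup.map_top_of_surjective _ Prod.snd_surjective])]
    refine Subgroup.normalClosure_le_normal ?_
    rintro _ ⟨_, ⟨y, hy, rfl⟩, a, a', ha, ha', rfl⟩
    refine Subgroup.subset_normalClosure ⟨y, hy, (y.1, a), (y.1, a'), ?_, ?_, ?_⟩
    · obtain ⟨c, hc⟩ := isConj_iff.1 ha
      exact isConj_iff.2 ⟨(1, c), Prod.ext (by simp) hc⟩
    · obtain ⟨c, hc⟩ := isConj_iff.1 ha'
      exact isConj_iff.2 ⟨(1, c), Prod.ext (by simp) hc⟩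
    · exact Prod.ext (hfix y.1).symm rfl
  rw [eq_top_iff]
  rintro ⟨x, x'⟩ -
  have := N.mul_mem (h1 (Subgroup.mem_top x)) (h2 (Subgroup.mem_top x'))
  simpa using this

/-! ### Pairs of rows -/

/-- the base for pairs of rows -/
def dbl (b : Fin 8 → H) : Fin 8 → H × H := fun c => (b c, b c)

theorem oddB_dbl {b : Fin 8 → H} (h : OddB b) : OddB (dbl b) := fun c => by
  simp only [dbl, h c, Prod.inv_mk]

theorem len_of_labs {l : List (St 8 H)} {l' : List (St 8 H')} (h : labs l = labs l') :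
    l.length = l'.length := by rw [← labs_length, h, labs_length]

theorem labs_map (f : H →* H') (l : List (St 8 H)) : labs (l.map (St.map f)) = labs l := by
  simp [labs, St.map, Function.comp_def]

theorem pr_map (f : H →* H') (l : List (St 8 H)) : pr (l.map (St.map f)) = f (pr l) := by
  induction l with
  | nil => simp [pr]
  | cons s l ih => rw [List.map_cons, pr_cons, pr_cons, ih, map_mul, map_inv]; rfl

theorem labs_zip2 {l : List (St 8 H)} {l' : List (St 8 H')} (h : labs l = labs l') :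
    labs (zip2 l l') = labs l := by
  rw [← labs_map (MonoidHom.fst H H'), zip2_fst (len_of_labs h)]

theorem pr_zip2 {l : List (St 8 H)} {l' : List (St 8 H')} (h : labs l = labs l') :
    pr (zip2 l l') = (pr l, pr l') := by
  refine Prod.ext ?_ ?_
  · have := pr_map (MonoidHom.fst H H') (zip2 l l')
    rw [zip2_fst (len_of_labs h)] at this
    exact this.symm
  · have := pr_map (MonoidHom.snd H H') (zip2 l l')
    rw [zip2_snd h] at this
    exact this.symm

theorem based_zip2 {b : Fin 8 → H} {l l' : List (St 8 H)} (h : labs l = labs l')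
    (h1 : Based b l) (h2 : Based b l') : Based (dbl b) (zip2 l l') := by
  intro s hs
  have e1 := h1 (s.map (MonoidHom.fst H H)) (by
    rw [← zip2_fst (l := l) (l' := l') (len_of_labs h)]
    exact List.mem_map_of_mem hs)
  have e2 := h2 (s.map (MonoidHom.snd H H)) (by
    rw [← zip2_snd (l := l) (l' := l') h]
    exact List.mem_map_of_mem hs)
  exact St.ext rfl (Prod.ext (congrArg St.col e1) (congrArg St.col e2)) rfl

theorem zip2_inj {x y x' y' : List (St 8 H)} (h : labs x = labs y) (h' : labs x' = labs y')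
    (e : zip2 x y = zip2 x' y') : x = x' ∧ y = y' :=
  ⟨by rw [← zip2_fst (l := x) (l' := y) (len_of_labs h), e, zip2_fst (len_of_labs h')],
    by rw [← zip2_snd (l := x) (l' := y) h, e, zip2_snd h']⟩

theorem inO_zip2 {b : Fin 8 → H} {cl : List (Fin 8)} {l l' : List (St 8 H)} (h : InO b cl l)
    (h' : InO b cl l') (hg : Gen (zip2 l l')) : InO (dbl b) cl (zip2 l l') := by
  have e : labs l = labs l' := h.1.2.trans h'.1.2.symm
  exact ⟨⟨based_zip2 e h.1.1 h'.1.1, (labs_zip2 e).trans h.1.2⟩, hg, by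
    rw [pr_zip2 e, h.2.2, h'.2.2]; rfl⟩

theorem ngen_of {b : Fin 8 → H} {l : List (St 8 H)} (h : Based b l) (hg : Gen l) : NGen b := by
  unfold NGen
  rw [eq_top_iff, ← (show span l = ⊤ from hg), span_le]
  intro s hs
  have e : s.col = s.tr⁻¹ * b s.lab * s.tr := congrArg St.col (h s hs)
  rw [e]
  exact Subgroup.normalClosure_normal.conj_mem' _
    (Subgroup.subset_normalClosure (Set.mem_range_self s.lab)) _

theorem count_blk (f : ℕ → Fin 8) (x y c : Fin 8) : ∀ k : ℕ,
    (∀ s < 2 * k, f s = if s % 2 = 0 then x else y) →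
      ((List.range (2 * k)).map f).count c = k * [x, y].count c
  | 0, _ => by simp
  | k + 1, h => by
    have e1 : f (2 * k) = x := by rw [h _ (by omega), if_pos (by omega)]
    have e2 : f (2 * k + 1) = y := by rw [h _ (by omega), if_neg (by omega)]
    rw [show 2 * (k + 1) = 2 * k + 1 + 1 by ring, List.range_succ, List.range_succ,
      List.map_append, List.map_append, List.append_assoc, List.count_append,
      count_blk f x y c k fun s hs => h s (by omega), add_mul, one_mul]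
    simp only [List.map_cons, List.map_nil, e1, e2, List.cons_append, List.nil_append]

theorem colr_blk {k s : ℕ} (j : ℕ) (hs : s < 2 * k) (x y : Fin 8) (hx : x.val = 2 * j)
    (hy : y.val = 2 * j + 1) : colr k (j * (2 * k) + s) = if s % 2 = 0 then x else y := by
  have e : (j * (2 * k) + s) / (2 * k) = j := by
    rw [add_comm, Nat.add_mul_div_right _ _ (by omega), Nat.div_eq_of_lt hs, zero_add]
  have e2 : (j * (2 * k) + s) % 2 = s % 2 := by
    rw [show j * (2 * k) = 2 * (j * k) by ring]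
    omega
  have := y.2
  apply Fin.ext
  simp only [colr, e, e2]
  split_ifs <;> omega

theorem count_cs (k : ℕ) (c : Fin 8) : (cs k).count c = k := by
  have h0 := count_blk (colr k) 0 1 c k fun s hs => by
    simpa using colr_blk 0 hs 0 1 rfl rfl
  have h1 := count_blk (fun s => colr k (2 * k + s)) 2 3 c k fun s hs => by
    simpa using colr_blk 1 hs 2 3 rfl rfl
  have h2 := count_blk (fun s => colr k (2 * k + 2 * k + s)) 4 5 c k fun s hs => by
    rw [← colr_blk 2 hs 4 5 rfl rfl, two_mul (2 * k)]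
  have h3 := count_blk (fun s => colr k (2 * k + 2 * k + 2 * k + s)) 6 7 c k fun s hs => by
    rw [← colr_blk 3 hs 6 7 rfl rfl, show 3 * (2 * k) = 2 * k + 2 * k + 2 * k by ring]
  have e : ∀ c : Fin 8, [0, 1].count c + [2, 3].count c + [4, 5].count c + [6, 7].count c = 1 := by
    decide
  rw [cs, show 8 * k = 2 * k + 2 * k + 2 * k + 2 * k by ring, List.range_add, List.range_add,
    List.range_add, List.map_append, List.map_append, List.map_append, List.count_append,
    List.count_append, List.count_append, List.map_map, List.map_map, List.map_map]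
  refine Eq.trans (b := k * [0, 1].count c + k * [2, 3].count c + k * [4, 5].count c +
    k * [6, 7].count c) (by rw [← h0, ← h1, ← h2, ← h3]; rfl) ?_
  rw [← mul_add, ← mul_add, ← mul_add, e, mul_one]

/-! ### Common partners -/

theorem partner (hB1 : RowB1) (hB2 : RowB2) (H : Type) [Group H] (hH : SP H) :
    ∃ k0, ∀ k ≥ k0, ∀ b : Fin 8 → H, OddB b → ∀ l l', InO b (cs k) l → InO b (cs k) l' →
      ∃ x, InO b (cs k) x ∧ Gen (zip2 x l) ∧ Gen (zip2 x l') := by
  haveI := hH.fin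
  have hpos : (0 : ℝ) < Nat.card H := by exact_mod_cast Nat.card_pos
  obtain ⟨k1, h1⟩ := hB1 H hH.perf (1 / 2) (by norm_num)
  obtain ⟨k2, h2⟩ := hB2 H hH.perf (1 / (8 * Nat.card H)) (by positivity)
  refine ⟨max k1 k2, fun k hk b hb l l' hl hl' => ?_⟩
  have a1 := (h1 k (le_of_max_le_left hk) b hb (ngen_of hl.1.1 hl.2.1)).1
  have a2 := h2 k (le_of_max_le_right hk) b l hl
  have a3 := h2 k (le_of_max_le_right hk) b l' hl'
  by_contra hcon
  have hX : (0 : ℝ) < (Nat.card H : ℝ) ^ (8 * k) := by positivity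
  have hO : 0 < Nat.card {l // InO b (cs k) l} := by
    by_contra h0
    have h0' : Nat.card {l // InO b (cs k) l} = 0 := by omega
    rw [h0'] at a1
    simp only [Nat.cast_zero, mul_zero] at a1
    linarith
  have hfin : {l | InO b (cs k) l}.Finite := Nat.finite_of_card_ne_zero hO.ne'
  have hsub : {x | InO b (cs k) x} ⊆ {x | InO b (cs k) x ∧ ¬ Gen (zip2 x l)} ∪
      {x | InO b (cs k) x ∧ ¬ Gen (zip2 x l')} := by
    intro x hx
    by_cases e : Gen (zip2 x l)
    · exact Or.inr ⟨hx, fun e' => hcon ⟨x, hx, e, e'⟩⟩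
    · exact Or.inl ⟨hx, e⟩
  have hle : Nat.card {l // InO b (cs k) l} ≤
      Nat.card {x // InO b (cs k) x ∧ ¬ Gen (zip2 x l)} +
      Nat.card {x // InO b (cs k) x ∧ ¬ Gen (zip2 x l')} :=
    (Set.ncard_le_ncard hsub ((hfin.subset fun x hx => hx.1).union
      (hfin.subset fun x hx => hx.1))).trans (Set.ncard_union_le _ _)
  have hle' : (Nat.card {l // InO b (cs k) l} : ℝ) ≤
      Nat.card {x // InO b (cs k) x ∧ ¬ Gen (zip2 x l)} +
      Nat.card {x // InO b (cs k) x ∧ ¬ Gen (zip2 x l')} := by exact_mod_cast hle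
  have a4 : (Nat.card H : ℝ) * Nat.card {l // InO b (cs k) l} ≤
      Nat.card H * (2 * (1 / (8 * Nat.card H) * (Nat.card H : ℝ) ^ (8 * k))) :=
    mul_le_mul_of_nonneg_left (by linarith) hpos.le
  have a5 : (Nat.card H : ℝ) * (2 * (1 / (8 * Nat.card H) * (Nat.card H : ℝ) ^ (8 * k))) =
      1 / 4 * (Nat.card H : ℝ) ^ (8 * k) := by field_simp; ring
  linarith

/-! ### Primitivity -/

theorem prim (hA : RowA) (hB1 : RowB1) (hB2 : RowB2) (H : Type) [Group H] (hH : SP H) :
    ∃ k0, ∀ k ≥ k0, ∀ b : Fin 8 → H, OddB b → ∀ Γ : Subgroup (BraidGroup (8 * k)), Γ.Normal →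
      Γ ≤ Tw (8 * k) 1 → ∀ n ∈ Γ, ∀ x : List (St 8 H), Based b x →
        (∀ c, (labs x).count c = k) → pr x = 1 → Gen (zip2 x (bact H (8 * k) n x)) → Tr k Γ b := by
  obtain ⟨k1, h1⟩ := hA (H × H) (sp_prod hH hH)
  obtain ⟨k2, h2⟩ := partner hB1 hB2 H hH
  refine ⟨max k1 k2, fun k hk b hb Γ hN hΓ n hn x hx hc hp hg => ?_⟩
  have e : labs x = labs (bact H (8 * k) n x) := (labs_pure (hΓ hn) x).symm
  have key : ∀ l l', InO b (cs k) l → InO b (cs k) l' → Gen (zip2 l l') →
      ∃ g ∈ Γ, bact H (8 * k) g l = l' := by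
    intro l l' hl hl' hz
    have hz' := inO_zip2 hl hl' hz
    obtain ⟨g, hg⟩ := h1 k (le_of_max_le_left hk) (dbl b) (oddB_dbl hb) _ _
      (based_zip2 e hx (hx.bact n)) hz'.1.1 (by rw [labs_zip2 e]; exact hc)
      (by rw [hz'.1.2]; exact count_cs k) hg hz
      (by rw [hz'.2.2, pr_zip2 e, pr_bact, hp]; rfl)
    rw [bact_zip2 g e] at hg
    obtain ⟨e1, e2⟩ := zip2_inj (labs_bact_congr g e) (hl.1.2.trans hl'.1.2.symm) hg
    refine ⟨g * n * g⁻¹, hN.conj_mem n hn g, ?_⟩
    rw [← e1, ← e2, ← Equiv.Perm.mul_apply, ← map_mul, ← Equiv.Perm.mul_apply, ← map_mul]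
    congr 2
    group
  intro l l' hl hl'
  obtain ⟨y, hy, g1, g2⟩ := h2 k (le_of_max_le_right hk) b hb l l' hl hl'
  obtain ⟨a, ha, ea⟩ := key y l hy hl g1
  obtain ⟨a', ha', ea'⟩ := key y l' hy hl' g2
  refine ⟨a' * a⁻¹, Γ.mul_mem ha' (Γ.inv_mem ha), ?_⟩
  rw [← ea, ← ea', ← Equiv.Perm.mul_apply, ← map_mul]
  congr 2
  group

/-! ### The twists -/

/-- a full twist of two bands -/
def step (p : St 8 H × St 8 H) : St 8 H × St 8 H :=
  half false (half false p.1 p.2).1 (half false p.1 p.2).2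

theorem cross_append (e : Bool) (s t : St 8 H) (r : List (St 8 H)) : ∀ pre : List (St 8 H),
    cross pre.length e (pre ++ s :: t :: r) = pre ++ (half e s t).1 :: (half e s t).2 :: r
  | [] => rfl
  | a :: pre => by
    simp only [List.length_cons, List.cons_append, cross, cross_append e s t r pre]

theorem bact_step {N : ℕ} (pre r : List (St 8 H)) (p : St 8 H × St 8 H)
    (h : (pre ++ p.1 :: p.2 :: r).length = N) :
    bact H N (letter N (pre.length, true) ^ 2) (pre ++ p.1 :: p.2 :: r) =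
      pre ++ (step p).1 :: (step p).2 :: r := by
  have e : ∀ l : List (St 8 H), l.length = N →
      bact H N (letter N (pre.length, true)) l = cross pre.length false l := fun l hl => by
    rw [bact_letter]
    exact if_pos hl
  rw [pow_two, map_mul, Equiv.Perm.mul_apply, e _ h, e _ (by rw [cross_length, h]), cross_append,
    cross_append]
  rfl

theorem bact_tw {N : ℕ} (pre r : List (St 8 H)) (p : St 8 H × St 8 H)
    (h : (pre ++ p.1 :: p.2 :: r).length = N) (M : ℕ) :
    bact H N (letter N (pre.length, true) ^ (2 * M)) (pre ++ p.1 :: p.2 :: r) =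
      pre ++ (step^[M] p).1 :: (step^[M] p).2 :: r := by
  induction M with
  | zero => simp
  | succ M ih =>
    rw [Nat.mul_succ, add_comm, pow_add, map_mul, Equiv.Perm.mul_apply, ih,
      bact_step _ _ _ (by simpa using h), Function.iterate_succ_apply']

theorem step_col (p : St 8 H × St 8 H) (M : ℕ) :
    (step^[M] p).1.col = (p.2.col * p.1.col) ^ M * p.1.col * ((p.2.col * p.1.col) ^ M)⁻¹ ∧
    (step^[M] p).2.col = (p.2.col * p.1.col) ^ M * p.2.col * ((p.2.col * p.1.col) ^ M)⁻¹ := by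
  induction M with
  | zero => simp
  | succ M ih =>
    rw [Function.iterate_succ_apply']
    simp only [step, half] at ih ⊢
    rw [ih.1, ih.2, pow_succ]
    constructor <;> group

/-- four bands with the product one -/
def quad (b : Fin 8 → H) (t : Fin 8 × H × H) : List (St 8 H) :=
  [mk b t.1 t.2.1, mk b t.1 t.2.2, mk b (bar t.1) t.2.2, mk b (bar t.1) t.2.1]

/-- the four bands after the twist of the first two -/
def quad' (M : ℕ) (b : Fin 8 → H) (t : Fin 8 × H × H) : List (St 8 H) :=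
  [(step^[M] (mk b t.1 t.2.1, mk b t.1 t.2.2)).1, (step^[M] (mk b t.1 t.2.1, mk b t.1 t.2.2)).2,
    mk b (bar t.1) t.2.2, mk b (bar t.1) t.2.1]

theorem twist_all {N : ℕ} (M : ℕ) (b : Fin 8 → H) (r : List (St 8 H)) :
    ∀ (L : List (Fin 8 × H × H)) (pre : List (St 8 H)),
      (pre ++ (L.flatMap (quad b) ++ r)).length = N →
      ∃ n ∈ Tw N M, bact H N n (pre ++ (L.flatMap (quad b) ++ r)) =
        pre ++ (L.flatMap (quad' M b) ++ r)
  | [], pre, _ => ⟨1, one_mem _, by rw [map_one]; rfl⟩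
  | t :: L, pre, h => by
    obtain ⟨n, hn, e⟩ := twist_all M b r L (pre ++ quad' M b t) (N := N) (by
      rw [← h]
      simp [quad, quad'])
    refine ⟨n * letter N (pre.length, true) ^ (2 * M),
      mul_mem hn (Subgroup.subset_normalClosure ⟨_, rfl⟩), ?_⟩
    have e2 := bact_tw (N := N) pre (mk b (bar t.1) t.2.2 :: mk b (bar t.1) t.2.1 ::
      (L.flatMap (quad b) ++ r)) (mk b t.1 t.2.1, mk b t.1 t.2.2) (by
        rw [← h]
        simp [quad]) M
    rw [map_mul, Equiv.Perm.mul_apply, List.flatMap_cons, List.flatMap_cons]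
    refine Eq.trans (congrArg (bact H N n) (e2.trans ?_)) (e.trans ?_)
    · simp [quad']
    · simp

theorem mem_zip_all (M : ℕ) (b : Fin 8 → H) (r : List (St 8 H)) (t : Fin 8 × H × H) :
    ∀ L : List (Fin 8 × H × H), t ∈ L → ∀ s ∈ zip2 (quad b t) (quad' M b t),
      s ∈ zip2 (L.flatMap (quad b) ++ r) (L.flatMap (quad' M b) ++ r)
  | [], h, _, _ => by simp at h
  | u :: L, h, s, hs => by
    rw [List.flatMap_cons, List.flatMap_cons, List.append_assoc, List.append_assoc, zip2,
      List.zipWith_append (by simp [quad, quad'])]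
    rcases List.mem_cons.1 h with rfl | h
    · exact List.mem_append_left _ hs
    · exact List.mem_append_right _ (mem_zip_all M b r t L h s hs)

theorem gen_twist {M : ℕ} (hM : Mov H M) {b : Fin 8 → H} (hb : OddB b) (hn : NGen b)
    (r : List (St 8 H)) (L : List (Fin 8 × H × H)) (hL : ∀ t, t ∈ L) :
    Gen (zip2 (L.flatMap (quad b) ++ r) (L.flatMap (quad' M b) ++ r)) := by
  set K := span (zip2 (L.flatMap (quad b) ++ r) (L.flatMap (quad' M b) ++ r)) with hK
  have h1 : ∀ c h, ((h⁻¹ * b c * h)⁻¹, (h⁻¹ * b c * h)⁻¹) ∈ K := fun c h => by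
    have := mem_span (mem_zip_all M b r (c, h, h) L (hL _)
      ⟨bar c, ((h⁻¹ * b c * h)⁻¹, (h⁻¹ * b c * h)⁻¹), (h, h)⟩ (by
        simp [zip2, quad, quad', mk, hb c, mul_assoc]))
    exact this
  have h2 : ∀ c h h', (h⁻¹ * b c * h, (h'⁻¹ * b c * h' * (h⁻¹ * b c * h)) ^ M *
      (h⁻¹ * b c * h) * ((h'⁻¹ * b c * h' * (h⁻¹ * b c * h)) ^ M)⁻¹) ∈ K := fun c h h' => by
    have := mem_span (mem_zip_all M b r (c, h, h') L (hL _) _ List.mem_cons_self)
    have e := (step_col (mk b c h, mk b c h') M).1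
    exact (congrArg (fun z => (h⁻¹ * b c * h, z) ∈ K) e).mp this
  have hd : ∀ g, (g, g) ∈ K := by
    intro g
    have : Subgroup.normalClosure (Set.range b) ≤ K.comap ((MonoidHom.id H).prod (MonoidHom.id H)) := by
      unfold Subgroup.normalClosure
      rw [Subgroup.closure_le]
      intro a ha
      obtain ⟨_, ⟨c, rfl⟩, hc⟩ := Group.mem_conjugatesOfSet_iff.1 ha
      obtain ⟨h, rfl⟩ := isConj_iff.1 hc
      have := K.inv_mem (h1 c h⁻¹)
      simpa using this
    exact this (by rw [show Subgroup.normalClosure (Set.range b) = ⊤ from hn]; trivial)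
  have hnorm : (K.comap (MonoidHom.inr H H)).Normal := ⟨fun a ha g => by
    have := K.mul_mem (K.mul_mem (hd g) ha) (K.inv_mem (hd g))
    simpa using this⟩
  have h3 : ⊤ ≤ K.comap (MonoidHom.inr H H) := by
    rw [← hM (Set.range b) hn]
    refine Subgroup.normalClosure_le_normal ?_
    rintro _ ⟨_, ⟨c, rfl⟩, a, a', ha, ha', rfl⟩
    obtain ⟨h, rfl⟩ := isConj_iff.1 ha
    obtain ⟨h', rfl⟩ := isConj_iff.1 ha'
    have := K.mul_mem (h1 c h⁻¹) (h2 c h⁻¹ h'⁻¹)
    rw [Prod.mk_mul_mk, inv_mul_cancel, inv_inv h, inv_inv h'] at this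
    exact this
  unfold Gen
  rw [← hK, eq_top_iff]
  rintro ⟨g, g'⟩ -
  have := K.mul_mem (hd g) (h3 (Subgroup.mem_top (g⁻¹ * g')))
  simpa using this

/-- all triples with a second entry in the list -/
def trip (P : List (H × H)) : List (Fin 8 × H × H) :=
  P.flatMap fun p => (List.finRange 8).map fun c => (c, p)

/-- caps -/
def pad (b : Fin 8 → H) : ℕ → List (St 8 H)
  | 0 => []
  | m + 1 => (List.finRange 8).map (fun c => mk b c 1) ++ pad b m

theorem labs_append (l l' : List (St 8 H)) : labs (l ++ l') = labs l ++ labs l' :=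
  List.map_append

theorem based_quad (b : Fin 8 → H) (L : List (Fin 8 × H × H)) : Based b (L.flatMap (quad b)) := by
  intro s hs
  obtain ⟨t, -, ht⟩ := List.mem_flatMap.1 hs
  simp only [quad, List.mem_cons, List.not_mem_nil, or_false] at ht
  rcases ht with rfl | rfl | rfl | rfl <;> rfl

theorem pr_quad {b : Fin 8 → H} (hb : OddB b) :
    ∀ L : List (Fin 8 × H × H), pr (L.flatMap (quad b)) = 1
  | [] => rfl
  | t :: L => by
    rw [List.flatMap_cons, pr_append, pr_quad hb L]
    simp only [quad, pr, mk, List.map_cons, List.map_nil, List.prod_cons, List.prod_nil, hb t.1]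
    group

theorem count_trip (b : Fin 8 → H) (c : Fin 8) : ∀ P : List (H × H),
    (labs ((trip P).flatMap (quad b))).count c = 4 * P.length ∧
      ((trip P).flatMap (quad b)).length = 32 * P.length
  | [] => ⟨rfl, rfl⟩
  | p :: P => by
    obtain ⟨h1, h2⟩ := count_trip b c P
    have e : labs (((List.finRange 8).map fun c => (c, p)).flatMap (quad b)) =
        (List.finRange 8).flatMap fun c => [c, c, bar c, bar c] := rfl
    have e2 : ∀ c : Fin 8, ((List.finRange 8).flatMap fun c => [c, c, bar c, bar c]).count c = 4 := by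
      decide
    unfold trip at h1 h2 ⊢
    rw [List.flatMap_cons, List.flatMap_append, labs_append, List.count_append, h1,
      List.length_append, h2, ← labs_length, e, e2]
    exact ⟨by simp only [List.length_cons]; ring, by
      rw [show ((List.finRange 8).flatMap fun c => [c, c, bar c, bar c]).length = 32 from rfl]
      simp only [List.length_cons]
      ring⟩

theorem pad_spec {b : Fin 8 → H} (hb : OddB b) : ∀ m, Based b (pad b m) ∧ pr (pad b m) = 1 ∧
    (∀ c, (labs (pad b m)).count c = m) ∧ (pad b m).length = 8 * m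
  | 0 => ⟨fun s hs => by simp [pad] at hs, rfl, fun _ => rfl, rfl⟩
  | m + 1 => by
    obtain ⟨h1, h2, h3, h4⟩ := pad_spec hb m
    have e : labs ((List.finRange 8).map fun c => mk b c 1) = List.finRange 8 := rfl
    have e2 : ∀ c : Fin 8, (List.finRange 8).count c = 1 := by decide
    refine ⟨fun s hs => ?_, ?_, fun c => ?_, ?_⟩
    · rcases List.mem_append.1 hs with hs | hs
      · obtain ⟨c, -, rfl⟩ := List.mem_map.1 hs
        rfl
      · exact h1 s hs
    · have a1 : b 1 = (b 0)⁻¹ := hb 0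
      have a3 : b 3 = (b 2)⁻¹ := hb 2
      have a5 : b 5 = (b 4)⁻¹ := hb 4
      have a7 : b 7 = (b 6)⁻¹ := hb 6
      rw [pad, pr_append, h2, show List.finRange 8 = [0, 1, 2, 3, 4, 5, 6, 7] from rfl]
      simp [pr, mk, a1, a3, a5, a7]
    · rw [pad, labs_append, List.count_append, e, e2, h3, add_comm]
    · rw [pad, List.length_append, h4]
      simp
      ring

theorem base (hA : RowA) (hB1 : RowB1) (hB2 : RowB2) (M : ℕ) (H : Type) [Group H] (hH : SP H)
    (hM : Mov H M) : ∃ k0, ∀ k ≥ k0, ∀ b : Fin 8 → H, OddB b → Tr k (Tw (8 * k) M) b := by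
  haveI := hH.fin
  haveI := Fintype.ofFinite H
  obtain ⟨k1, h1⟩ := prim hA hB1 hB2 H hH
  set P := (Finset.univ : Finset (H × H)).toList with hP
  refine ⟨max k1 (4 * P.length), fun k hk b hb l l' hl hl' => ?_⟩
  obtain ⟨m, hm⟩ := Nat.exists_eq_add_of_le (le_of_max_le_right hk)
  obtain ⟨p1, p2, p3, p4⟩ := pad_spec hb m
  obtain ⟨n, hn, e⟩ := twist_all (N := 8 * k) M b (pad b m) (trip P) [] (by
    rw [List.nil_append, List.length_append, (count_trip b 0 P).2, p4, hm]
    ring)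
  rw [List.nil_append, List.nil_append] at e
  refine h1 k (le_of_max_le_left hk) b hb _ inferInstance (tw_le _ M) n hn
    ((trip P).flatMap (quad b) ++ pad b m) (fun s hs => ?_) (fun c => ?_) ?_ ?_ l l' hl hl'
  · exact (List.mem_append.1 hs).elim (based_quad b _ s) (p1 s)
  · rw [labs_append, List.count_append, (count_trip b c P).1, p3, hm]
  · rw [pr_append, pr_quad hb, p2, mul_one]
  · rw [e]
    refine gen_twist hM hb (ngen_of hl.1.1 hl.2.1) _ _ fun t => ?_
    exact List.mem_flatMap.2 ⟨t.2, by simp [hP], List.mem_map.2 ⟨t.1, List.mem_finRange _, rfl⟩⟩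

theorem main (hA : RowA) (hB1 : RowB1) (hB2 : RowB2) (M : ℕ) : ∀ (j : ℕ) (H : Type) [Group H],
    SP H → Mov H M → ∃ k0, ∀ k ≥ k0, ∀ b : Fin 8 → H, OddB b → Tr k (Der (8 * k) M j) b := by
  intro j
  induction j with
  | zero => exact fun H _ hH hM => base hA hB1 hB2 M H hH hM
  | succ j ih =>
    intro H _ hH hM
    obtain ⟨k1, h1⟩ := prim hA hB1 hB2 H hH
    obtain ⟨k2, h2⟩ := partner hB1 hB2 H hH
    obtain ⟨k3, h3⟩ := ih H hH hM
    obtain ⟨k4, h4⟩ := ih (H × H) (sp_prod hH hH) (mov_prod hM hM)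
    refine ⟨max (max k1 k2) (max k3 k4), fun k hk b hb l0 l1 hl0 hl1 => ?_⟩
    have q1 : k1 ≤ k := le_of_max_le_left (le_of_max_le_left hk)
    have q2 : k2 ≤ k := le_of_max_le_right (le_of_max_le_left hk)
    have q3 : k3 ≤ k := le_of_max_le_left (le_of_max_le_right hk)
    have q4 : k4 ≤ k := le_of_max_le_right (le_of_max_le_right hk)
    obtain ⟨l, hl, g1, -⟩ := h2 k q2 b hb l0 l0 hl0 hl0
    obtain ⟨x, hx, g2, g3⟩ := h2 k q2 b hb l l0 hl hl0
    obtain ⟨d, hd, ed⟩ := h3 k q3 b hb x l hx hl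
    obtain ⟨g, hg, eg⟩ := h4 k q4 (dbl b) (oddB_dbl hb) _ _ (inO_zip2 hx hl g2)
      (inO_zip2 hx hl0 g3)
    have e1 : labs x = labs l := hx.1.2.trans hl.1.2.symm
    rw [bact_zip2 g e1] at eg
    obtain ⟨e2, e3⟩ := zip2_inj (labs_bact_congr g e1) (hx.1.2.trans hl0.1.2.symm) eg
    have e4 : bact H (8 * k) g⁻¹ x = x := by
      rw [map_inv, Equiv.Perm.inv_eq_iff_eq, e2]
    have e5 : bact H (8 * k) d⁻¹ l = x := by
      rw [map_inv, Equiv.Perm.inv_eq_iff_eq, ed]
    have e6 : bact H (8 * k) ⁅g, d⁆ l = l0 := by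
      rw [commutatorElement_def, map_mul, map_mul, map_mul, Equiv.Perm.mul_apply,
        Equiv.Perm.mul_apply, Equiv.Perm.mul_apply, e5, e4, ed, e3]
    exact h1 k q1 b hb (Der (8 * k) M (j + 1)) inferInstance (der_le _ M _) ⁅g, d⁆
      (Subgroup.commutator_mem_commutator hg hd) l hl.1.1 (by rw [hl.1.2]; exact count_cs k)
      hl.2.2 (by rw [e6]; exact g1) l0 l1 hl0 hl1

end RC

theorem rowC (hA : RowA) (hB1 : RowB1) (hB2 : RowB2) : RowC :=
  ⟨fun _ _ _ _ h h' => RC.sp_prod h h', fun _ _ _ _ _ _ _ h h' => RC.mov_prod h h',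
    fun M j H _ h h' => RC.main hA hB1 hB2 M j H h h'⟩

end Vale.Agent.Q258D
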