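import Vale.Agent.Q258D.Defs
import Vale.Agent.P258.R2.H390.Grp

/-!
# Rows of coloured bands: definitions and first lemmas
-/

set_option linter.all false

namespace Vale.Agent.Q258D

open Vale.Agent.P258.Braid

variable {H H' : Type} [Group H] [Group H']

/-! ### The action of the braid group on lists -/

/-- the crossing at the position `i` on lists of length `N`, inverted -/
def crossP (N i : ℕ) (e : Bool) : Equiv.Perm (List (St 8 H)) where
  toFun l := if l.length = N then cross i (!e) l else l
  invFun l := if l.length = N then cross i e l else l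
  left_inv l := by
    by_cases h : l.length = N
    · have h2 := cross_inv (!e) i l
      rw [Bool.not_not] at h2
      simp only [if_pos h, cross_length, h2]
    · simp only [if_neg h]
  right_inv l := by
    by_cases h : l.length = N
    · simp only [if_pos h, cross_length, cross_inv e i l]
    · simp only [if_neg h]

variable (H) in
/-- the action of the braid group on lists (trivial on lists of another length) -/
def bact (N : ℕ) : BraidGroup N →* Equiv.Perm (List (St 8 H)) :=
  PresentedGroup.toGroup (f := fun i : Fin (N - 1) => crossP N i.val true) (by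
    rintro r (⟨i, j, hij, rfl⟩ | ⟨i, j, hij, rfl⟩)
    · rw [map_mul, map_inv, mul_inv_eq_one]
      simp only [map_mul, FreeGroup.lift_apply_of]
      ext1 l
      by_cases h : l.length = N
      · simp only [Equiv.Perm.mul_apply, crossP, Equiv.coe_fn_mk, cross_length, if_pos h,
          Bool.not_true, ← hij]
        apply cross_braid
        have := j.2
        omega
      · simp only [Equiv.Perm.mul_apply, crossP, Equiv.coe_fn_mk, if_neg h]
    · rw [map_mul, map_inv, mul_inv_eq_one]
      simp only [map_mul, FreeGroup.lift_apply_of]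
      ext1 l
      by_cases h : l.length = N
      · simp only [Equiv.Perm.mul_apply, crossP, Equiv.coe_fn_mk, cross_length, if_pos h,
          Bool.not_true]
        exact (cross_comm false false i.val j.val l hij).symm
      · simp only [Equiv.Perm.mul_apply, crossP, Equiv.coe_fn_mk, if_neg h])

theorem bact_letter (N : ℕ) (x : ℕ × Bool) : bact H N (letter N x) = crossP N x.1 x.2 := by
  unfold letter
  split_ifs with h h2
  · have : bact H N (PresentedGroup.of (⟨x.1, h⟩ : Fin (N - 1))) = crossP N x.1 true :=
      PresentedGroup.toGroup.of _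
    rw [this, h2]
  · have : bact H N (PresentedGroup.of (⟨x.1, h⟩ : Fin (N - 1))) = crossP N x.1 true :=
      PresentedGroup.toGroup.of _
    rw [map_inv, this]
    have h3 : x.2 = false := by simpa using h2
    rw [h3]
    ext1 l
    rfl
  · rw [map_one]
    ext1 l
    change l = if l.length = N then cross x.1 (!x.2) l else l
    split_ifs with h3
    · rw [cross_out _ _ _ (by omega)]
    · rfl

theorem bact_toBraid {N : ℕ} (w : Word) {l : List (St 8 H)} (hl : l.length = N) :
    bact H N (toBraid N w) l = run (inverse w) l := by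
  induction w with
  | nil =>
    have : toBraid N [] = 1 := rfl
    rw [this, map_one]
    rfl
  | cons x w ih =>
    have h : toBraid N (x :: w) = letter N x * toBraid N w := by simp [toBraid]
    have h2 : inverse (x :: w) = inverse w ++ [(x.1, !x.2)] := by simp [inverse]
    rw [h, map_mul, Equiv.Perm.mul_apply, bact_letter, h2, run_append, ih]
    change (if _ then _ else _) = _
    rw [if_pos (by rw [run_length, hl])]
    rfl

theorem toBraid_append (N : ℕ) (u v : Word) : toBraid N (u ++ v) = toBraid N u * toBraid N v := by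
  simp [toBraid]

theorem letter_not (N : ℕ) (x : ℕ × Bool) : letter N (x.1, !x.2) = (letter N x)⁻¹ := by
  unfold letter
  obtain ⟨i, e⟩ := x
  split_ifs <;> simp_all

theorem toBraid_inverse (N : ℕ) (w : Word) : toBraid N (inverse w) = (toBraid N w)⁻¹ := by
  induction w with
  | nil => simp [toBraid, inverse]
  | cons x w ih =>
    have h : toBraid N (x :: w) = letter N x * toBraid N w := by simp [toBraid]
    have h2 : inverse (x :: w) = inverse w ++ [(x.1, !x.2)] := by simp [inverse]
    rw [h, h2, toBraid_append, ih, mul_inv_rev, ← letter_not]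
    simp [toBraid]

/-- every braid is the braid of a word with letters in range -/
theorem exists_word {N : ℕ} (β : BraidGroup N) :
    ∃ w : Word, (∀ x ∈ w, x.1 + 1 < N) ∧ toBraid N w = β := by
  have h : β ∈ Subgroup.closure (Set.range (PresentedGroup.of : _ → BraidGroup N)) := by
    rw [PresentedGroup.closure_range_of]; trivial
  induction h using Subgroup.closure_induction with
  | mem x hx =>
    obtain ⟨i, rfl⟩ := hx
    refine ⟨[(i.val, true)], fun x hx => ?_, ?_⟩
    · obtain rfl := List.mem_singleton.1 hx
      have := i.2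
      simp only
      omega
    · simp [toBraid, letter, i.2]
  | one => exact ⟨[], by simp, rfl⟩
  | mul x y _ _ hx hy =>
    obtain ⟨u, u1, rfl⟩ := hx
    obtain ⟨v, v1, rfl⟩ := hy
    exact ⟨u ++ v, fun x hx => (List.mem_append.1 hx).elim (u1 x) (v1 x), toBraid_append _ _ _⟩
  | inv x _ hx =>
    obtain ⟨u, u1, rfl⟩ := hx
    refine ⟨inverse u, fun x hx => ?_, toBraid_inverse _ _⟩
    simp only [inverse, List.mem_reverse, List.mem_map] at hx
    obtain ⟨y, hy, rfl⟩ := hx
    exact u1 y hy

theorem bact_of_ne {N : ℕ} (β : BraidGroup N) {l : List (St 8 H)} (hl : l.length ≠ N) :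
    bact H N β l = l := by
  obtain ⟨w, -, rfl⟩ := exists_word β
  induction w with
  | nil =>
    have : toBraid N [] = 1 := rfl
    rw [this, map_one]
    rfl
  | cons x w ih =>
    have h : toBraid N (x :: w) = letter N x * toBraid N w := by simp [toBraid]
    rw [h, map_mul, Equiv.Perm.mul_apply, bact_letter, ih]
    exact if_neg hl

/-- a property of pairs that is kept by crossings is kept by braids -/
theorem bact_ind {N : ℕ} (β : BraidGroup N) (l : List (St 8 H)) (P : List (St 8 H) → Prop)
    (h0 : P l) (h : ∀ i e l, P l → P (cross i e l)) : P (bact H N β l) := by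
  by_cases hl : l.length = N
  · obtain ⟨w, -, rfl⟩ := exists_word β
    rw [bact_toBraid w hl]
    generalize inverse w = u
    clear hl
    induction u generalizing l with
    | nil => exact h0
    | cons x u ih => exact ih _ (h _ _ _ h0)
  · rwa [bact_of_ne β hl]

/-- a word acts as a braid -/
theorem run_eq_bact (w : Word) (l : List (St 8 H)) :
    run w l = bact H l.length (toBraid l.length w)⁻¹ l := by
  rw [← toBraid_inverse, bact_toBraid _ rfl, inverse_inverse]

theorem bact_length {N : ℕ} (β : BraidGroup N) (l : List (St 8 H)) :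
    (bact H N β l).length = l.length :=
  bact_ind β l (fun l' => l'.length = l.length) rfl fun i e l' h => by rw [cross_length, h]

theorem bact_map {N : ℕ} (β : BraidGroup N) (f : H →* H') (l : List (St 8 H)) :
    bact H' N β (l.map (St.map f)) = (bact H N β l).map (St.map f) := by
  by_cases hl : l.length = N
  · obtain ⟨w, -, rfl⟩ := exists_word β
    rw [bact_toBraid w hl, bact_toBraid w (by rw [List.length_map, hl]), run_map]
  · rw [bact_of_ne β hl, bact_of_ne β (by rwa [List.length_map])]

theorem bact_ker_finiteIndex (H : Type) [Group H] [Finite H] (N : ℕ) :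
    (bact H N).ker.FiniteIndex := by
  have h1 : Finite {l : List (St 8 H) // l.length = N} := by
    haveI := Fintype.ofFinite (St 8 H)
    exact (inferInstance : Finite (List.Vector (St 8 H) N))
  have h2 : Finite (bact H N).range := by
    refine Finite.of_injective (fun g => fun l : {l : List (St 8 H) // l.length = N} =>
      (⟨g.1 l.1, by obtain ⟨_, β, rfl⟩ := g; exact (bact_length β l.1).trans l.2⟩ :
        {l : List (St 8 H) // l.length = N})) ?_
    rintro ⟨_, β, rfl⟩ ⟨_, β', rfl⟩ h
    refine Subtype.ext (Equiv.ext fun l => ?_)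
    by_cases hl : l.length = N
    · exact congrArg Subtype.val (congrFun h ⟨l, hl⟩)
    · exact (bact_of_ne β hl).trans (bact_of_ne β' hl).symm
  infer_instance

/-! ### Colours, frames, products -/

/-- the colour of the other half of a cap -/
def bar : Fin 8 → Fin 8 := ![1, 0, 3, 2, 5, 4, 7, 6]

/-- opposite colours have inverse base elements -/
def OddB (b : Fin 8 → H) : Prop := ∀ c, b (bar c) = (b c)⁻¹

/-- the base elements generate the group as a normal subgroup -/
def NGen (b : Fin 8 → H) : Prop := Subgroup.normalClosure (Set.range b) = ⊤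

/-- the base elements given by the meridians of the four long bands -/
def bs (y : Fin 4 → H) : Fin 8 → H :=
  ![y 0, (y 0)⁻¹, y 1, (y 1)⁻¹, y 2, (y 2)⁻¹, y 3, (y 3)⁻¹]

theorem oddB_bs (y : Fin 4 → H) : OddB (bs y) := fun c => by
  fin_cases c <;> simp [bs, bar]

/-- the band with colour `c` and frame `h` -/
def mk (b : Fin 8 → H) (c : Fin 8) (h : H) : St 8 H := ⟨c, h⁻¹ * b c * h, h⟩

/-- the label of every band is the conjugate of its base element by its frame -/
def Based (b : Fin 8 → H) (l : List (St 8 H)) : Prop := ∀ s ∈ l, s = mk b s.lab s.tr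

/-- the product of the inverses of the labels -/
def pr (l : List (St 8 H)) : H := (l.map fun s => s.col⁻¹).prod

/-- the subgroup generated by the labels -/
def span (l : List (St 8 H)) : Subgroup H := Subgroup.closure {g | ∃ s ∈ l, s.col = g}

/-- the labels generate the group -/
def Gen (l : List (St 8 H)) : Prop := span l = ⊤

/-- the colours -/
def labs (l : List (St 8 H)) : List (Fin 8) := l.map St.lab

/-- rows with the base `b` and the colours `cl` -/
def InX (b : Fin 8 → H) (cl : List (Fin 8)) (l : List (St 8 H)) : Prop := Based b l ∧ labs l = cl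

/-- the big orbit -/
def InO (b : Fin 8 → H) (cl : List (Fin 8)) (l : List (St 8 H)) : Prop :=
  InX b cl l ∧ Gen l ∧ pr l = 1

/-- two rows as one row over the product -/
def zip2 (l : List (St 8 H)) (l' : List (St 8 H')) : List (St 8 (H × H')) :=
  List.zipWith (fun s t => ⟨s.lab, (s.col, t.col), (s.tr, t.tr)⟩) l l'

theorem cross_based {b : Fin 8 → H} (e : Bool) : ∀ (i : ℕ) (l : List (St 8 H)),
    Based b l → Based b (cross i e l)
  | 0, [], h => h
  | 0, [_], h => h
  | 0, s :: t :: l, h => by
    have hs := h s (by simp)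
    have ht := h t (by simp)
    have hs' : s.col = s.tr⁻¹ * b s.lab * s.tr := congrArg St.col hs
    have ht' : t.col = t.tr⁻¹ * b t.lab * t.tr := congrArg St.col ht
    intro x hx
    simp only [cross, List.mem_cons] at hx
    rcases hx with rfl | rfl | hx
    · cases e
      · exact ht
      · refine St.ext rfl ?_ rfl
        simp only [half, mk]
        rw [ht']
        group
    · cases e
      · refine St.ext rfl ?_ rfl
        simp only [half, mk]
        rw [hs']
        group
      · exact hs
    · exact h x (by simp [hx])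
  | _ + 1, [], h => h
  | i + 1, s :: l, h => by
    intro x hx
    simp only [cross, List.mem_cons] at hx
    rcases hx with rfl | hx
    · exact h _ (by simp)
    · exact cross_based e i l (fun y hy => h y (by simp [hy])) x hx

theorem pr_cons (s : St 8 H) (l : List (St 8 H)) : pr (s :: l) = s.col⁻¹ * pr l := by
  simp [pr]

theorem pr_append (l l' : List (St 8 H)) : pr (l ++ l') = pr l * pr l' := by simp [pr]

theorem cross_pr (e : Bool) : ∀ (i : ℕ) (l : List (St 8 H)), pr (cross i e l) = pr l
  | 0, [] => rfl
  | 0, [_] => rfl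
  | 0, s :: t :: l => by
    cases e <;> simp only [cross, half, pr_cons] <;> group
  | _ + 1, [] => rfl
  | i + 1, s :: l => by simp only [cross, pr_cons, cross_pr e i l]

theorem span_le {l : List (St 8 H)} {K : Subgroup H} : span l ≤ K ↔ ∀ s ∈ l, s.col ∈ K := by
  unfold span
  rw [Subgroup.closure_le]
  exact ⟨fun h s hs => h ⟨s, hs, rfl⟩, by rintro h _ ⟨s, hs, rfl⟩; exact h s hs⟩

theorem mem_span {l : List (St 8 H)} {s : St 8 H} (h : s ∈ l) : s.col ∈ span l :=
  span_le.1 le_rfl s h

theorem cross_cols {K : Subgroup H} (e : Bool) : ∀ (i : ℕ) (l : List (St 8 H)),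
    (∀ s ∈ l, s.col ∈ K) → ∀ s ∈ cross i e l, s.col ∈ K
  | 0, [], h => h
  | 0, [_], h => h
  | 0, s :: t :: l, h => by
    have hs := h s (by simp)
    have ht := h t (by simp)
    intro x hx
    simp only [cross, List.mem_cons] at hx
    rcases hx with rfl | rfl | hx
    · cases e
      · exact ht
      · exact K.mul_mem (K.mul_mem (K.inv_mem hs) ht) hs
    · cases e
      · exact K.mul_mem (K.mul_mem ht hs) (K.inv_mem ht)
      · exact hs
    · exact h x (by simp [hx])
  | _ + 1, [], h => h
  | i + 1, s :: l, h => by
    intro x hx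
    simp only [cross, List.mem_cons] at hx
    rcases hx with rfl | hx
    · exact h _ (by simp)
    · exact cross_cols e i l (fun y hy => h y (by simp [hy])) x hx

theorem cross_span (e : Bool) (i : ℕ) (l : List (St 8 H)) : span (cross i e l) = span l := by
  refine le_antisymm (span_le.2 (cross_cols e i l fun s => mem_span)) ?_
  conv_lhs => rw [← cross_inv e i l]
  exact span_le.2 (cross_cols _ i _ fun s => mem_span)

theorem cross_labs_perm (e : Bool) : ∀ (i : ℕ) (l : List (St 8 H)),
    (labs (cross i e l)).Perm (labs l)
  | 0, [] => .refl _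
  | 0, [_] => .refl _
  | 0, s :: t :: l => by
    cases e <;> exact .swap _ _ _
  | _ + 1, [] => .refl _
  | i + 1, s :: l => (cross_labs_perm e i l).cons _

theorem cross_labs_congr (e e' : Bool) : ∀ (i : ℕ) (l : List (St 8 H)) (l' : List (St 8 H')),
    labs l = labs l' → labs (cross i e l) = labs (cross i e' l')
  | 0, [], [], _ => rfl
  | 0, [], _ :: _, h => by simp [labs] at h
  | 0, _ :: _, [], h => by simp [labs] at h
  | 0, [_], [_], h => h
  | 0, [_], _ :: _ :: _, h => by simp [labs] at h
  | 0, _ :: _ :: _, [_], h => by simp [labs] at h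
  | 0, s :: t :: l, s' :: t' :: l', h => by
    simp only [labs, List.map_cons, List.cons.injEq] at h
    cases e <;> cases e' <;> simp [labs, cross, half, h]
  | _ + 1, [], [], _ => rfl
  | _ + 1, [], _ :: _, h => by simp [labs] at h
  | _ + 1, _ :: _, [], h => by simp [labs] at h
  | i + 1, s :: l, s' :: l', h => by
    simp only [labs, List.map_cons, List.cons.injEq] at h
    have := cross_labs_congr e e' i l l' h.2
    simp only [labs] at this
    simp only [labs, cross, List.map_cons, this, h.1]

variable {N : ℕ}

theorem Based.bact {b : Fin 8 → H} {l : List (St 8 H)} (h : Based b l) (β : BraidGroup N) :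
    Based b (bact H N β l) :=
  bact_ind β l _ h fun i e l => cross_based e i l

theorem pr_bact (β : BraidGroup N) (l : List (St 8 H)) : pr (bact H N β l) = pr l :=
  bact_ind β l (fun l' => pr l' = pr l) rfl fun i e l' h => by rw [cross_pr, h]

theorem span_bact (β : BraidGroup N) (l : List (St 8 H)) : span (bact H N β l) = span l :=
  bact_ind β l (fun l' => span l' = span l) rfl fun i e l' h => by rw [cross_span, h]

theorem gen_bact (β : BraidGroup N) (l : List (St 8 H)) : Gen (bact H N β l) ↔ Gen l := by
  unfold Gen; rw [span_bact]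

theorem labs_bact_perm (β : BraidGroup N) (l : List (St 8 H)) :
    (labs (bact H N β l)).Perm (labs l) :=
  bact_ind β l (fun l' => (labs l').Perm (labs l)) (.refl _) fun i e l' h =>
    (cross_labs_perm e i l').trans h

theorem labs_length (l : List (St 8 H)) : (labs l).length = l.length := List.length_map _

/-- the colours after a braid depend only on the colours before -/
theorem labs_bact_congr (β : BraidGroup N) {l : List (St 8 H)} {l' : List (St 8 H')}
    (h : labs l = labs l') : labs (bact H N β l) = labs (bact H' N β l') := by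
  have hl : l.length = l'.length := by rw [← labs_length, h, labs_length]
  by_cases h1 : l.length = N
  · obtain ⟨w, -, rfl⟩ := exists_word β
    rw [bact_toBraid w h1, bact_toBraid w (hl ▸ h1)]
    generalize inverse w = u
    clear hl h1
    induction u generalizing l l' with
    | nil => exact h
    | cons x u ih => exact ih (cross_labs_congr _ _ _ _ _ h)
  · rwa [bact_of_ne β h1, bact_of_ne β (hl ▸ h1)]

instance (N M : ℕ) : (Tw N M).Normal := by unfold Tw; infer_instance

instance der_normal (N M : ℕ) : ∀ j, (Der N M j).Normal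
  | 0 => by unfold Der; infer_instance
  | j + 1 => by
    have := der_normal N M j
    unfold Der; infer_instance

theorem tw_le (N M : ℕ) : Tw N M ≤ Tw N 1 := by
  refine Subgroup.normalClosure_le_normal ?_
  rintro _ ⟨i, rfl⟩
  simp only
  rw [pow_mul]
  exact (Tw N 1).pow_mem (Subgroup.subset_normalClosure ⟨i, rfl⟩) M

theorem der_le (N M : ℕ) : ∀ j, Der N M j ≤ Tw N 1
  | 0 => tw_le N M
  | j + 1 => (Subgroup.commutator_le_left _ _).trans (der_le N M j)

theorem der_succ_le (N M j : ℕ) : Der N M (j + 1) ≤ ⁅Tw N 1, Tw N 1⁆ :=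
  Subgroup.commutator_mono (der_le N M j) (der_le N M j)

/-- pure braids keep the colours -/
theorem labs_pure {β : BraidGroup N} (hβ : β ∈ Tw N 1) (l : List (St 8 H)) :
    labs (bact H N β l) = labs l := by
  let P : Subgroup (BraidGroup N) :=
    { carrier := {β | ∀ l : List (St 8 H), labs (bact H N β l) = labs l}
      one_mem' := fun l => by rw [map_one]; rfl
      mul_mem' := fun {a b} ha hb l => by rw [map_mul, Equiv.Perm.mul_apply, ha, hb]
      inv_mem' := fun {a} ha l => by
        rw [← ha (bact H N a⁻¹ l), ← Equiv.Perm.mul_apply, ← map_mul, mul_inv_cancel, map_one]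
        rfl }
  have hn : P.Normal := ⟨fun a ha g l => by
    rw [map_mul, map_mul, Equiv.Perm.mul_apply, Equiv.Perm.mul_apply,
      labs_bact_congr g (ha (bact H N g⁻¹ l)), ← Equiv.Perm.mul_apply, ← map_mul, mul_inv_cancel,
      map_one]
    rfl⟩
  refine (Subgroup.normalClosure_le_normal (N := P) ?_ hβ) l
  rintro _ ⟨i, rfl⟩ l
  simp only [mul_one]
  rw [pow_two, map_mul, Equiv.Perm.mul_apply, bact_letter]
  change labs (if (if l.length = N then _ else _ : List _).length = N then _ else _) = _
  by_cases h : l.length = N
  · rw [if_pos h, if_pos (by rw [cross_length, h])]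
    conv_rhs => rw [← cross_inv false i l]
    exact cross_labs_congr _ _ _ _ _ (by rw [show (crossP N i true) l = cross i false l from if_pos h])
  · rw [if_neg h, if_neg h]
    exact congrArg labs (if_neg h)

theorem InX.bact {b : Fin 8 → H} {cl : List (Fin 8)} {l : List (St 8 H)} (h : InX b cl l)
    {β : BraidGroup N} (hβ : β ∈ Tw N 1) : InX b cl (bact H N β l) :=
  ⟨h.1.bact β, (labs_pure hβ l).trans h.2⟩

theorem InO.bact {b : Fin 8 → H} {cl : List (Fin 8)} {l : List (St 8 H)} (h : InO b cl l)
    {β : BraidGroup N} (hβ : β ∈ Tw N 1) : InO b cl (bact H N β l) :=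
  ⟨h.1.bact hβ, (gen_bact β l).2 h.2.1, (pr_bact β l).trans h.2.2⟩

theorem zip2_fst : ∀ {l : List (St 8 H)} {l' : List (St 8 H')}, l.length = l'.length →
    (zip2 l l').map (St.map (MonoidHom.fst H H')) = l
  | [], [], _ => rfl
  | [], _ :: _, h => by simp at h
  | _ :: _, [], h => by simp at h
  | s :: l, t :: l', h => by
    have := zip2_fst (l := l) (l' := l') (by simpa using h)
    simp only [zip2, List.zipWith_cons_cons, List.map_cons] at this ⊢
    rw [this]
    rfl

theorem zip2_snd : ∀ {l : List (St 8 H)} {l' : List (St 8 H')}, labs l = labs l' →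
    (zip2 l l').map (St.map (MonoidHom.snd H H')) = l'
  | [], [], _ => rfl
  | [], _ :: _, h => by simp [labs] at h
  | _ :: _, [], h => by simp [labs] at h
  | s :: l, t :: l', h => by
    simp only [labs, List.map_cons, List.cons.injEq] at h
    have := zip2_snd (l := l) (l' := l') h.2
    simp only [zip2, List.zipWith_cons_cons, List.map_cons] at this ⊢
    rw [this, h.1]
    rfl

theorem zip2_eta : ∀ l : List (St 8 (H × H')),
    zip2 (l.map (St.map (MonoidHom.fst H H'))) (l.map (St.map (MonoidHom.snd H H'))) = l
  | [] => rfl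
  | s :: l => by
    have := zip2_eta l
    simp only [zip2, List.zipWith_cons_cons, List.map_cons] at this ⊢
    rw [this]
    rfl

theorem bact_zip2 (β : BraidGroup N) {l : List (St 8 H)} {l' : List (St 8 H')}
    (h : labs l = labs l') :
    bact (H × H') N β (zip2 l l') = zip2 (bact H N β l) (bact H' N β l') := by
  have hl : l.length = l'.length := by rw [← labs_length, h, labs_length]
  rw [← zip2_eta (bact (H × H') N β (zip2 l l')), ← bact_map, ← bact_map, zip2_fst hl, zip2_snd h]

/-! ### The layout of the surface -/

/-- the colour of the band at the position `s`: four blocks of `2 k` bands -/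
def colr (k s : ℕ) : Fin 8 := ⟨(2 * (s / (2 * k)) + s % 2) % 8, Nat.mod_lt _ (by norm_num)⟩

/-- the colours of the `8 k` bands -/
def cs (k : ℕ) : List (Fin 8) := (List.range (8 * k)).map (colr k)

/-- the row with the frames `F` -/
def row (k : ℕ) (b : Fin 8 → H) (F : ℕ → H) : List (St 8 H) :=
  (List.range (8 * k)).map fun s => mk b (colr k s) (F s)

/-- the frame at the position `s` -/
def frm (l : List (St 8 H)) (s : ℕ) : H := (l.map St.tr).getD s 1

/-- the label at the position `s` -/
def lbl (l : List (St 8 H)) (s : ℕ) : H := (l.map St.col).getD s 1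

/-- rows that fit the caps at the top -/
def InT (k : ℕ) (b : Fin 8 → H) (l : List (St 8 H)) : Prop :=
  ∃ f : ℕ → H, l = row k b fun s => f (s / 2)

/-- rows that fit the caps at the bottom, with the frames `1` at the first and `e j` at the last
band of the block `j` -/
def InB (k : ℕ) (b : Fin 8 → H) (e : ℕ → H) (l : List (St 8 H)) : Prop :=
  ∃ f : ℕ → H, (∀ j, f (k * j) = 1) ∧
    l = row k b fun s => if s % (2 * k) = 2 * k - 1 then e (s / (2 * k)) else f ((s + 1) / 2)

/-- markings: the meridian `t` of the knot and the longitudes of the four long bands -/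
abbrev Mk (H : Type) : Type := H × (H × H) × (H × H)

/-- a commutator -/
def cm (a : H × H) : H := a.1 * a.2⁻¹ * a.1⁻¹ * a.2

/-- the longitude of the knot -/
def lam (m : Mk H) : H := cm m.2.1 * cm m.2.2

/-- the meridian conjugated by `g` -/
def zz (m : Mk H) (g : H) : H := g⁻¹ * m.1 * g

/-- the meridians of the four long bands -/
def ym (m : Mk H) : Fin 4 → H :=
  ![(zz m (m.2.1.1 * m.2.1.2⁻¹ * m.2.1.1⁻¹))⁻¹ * m.1,
    (zz m (m.2.1.1 * m.2.1.2⁻¹))⁻¹ * zz m (m.2.1.1 * m.2.1.2⁻¹ * m.2.1.1⁻¹),
    (zz m (cm m.2.1 * (m.2.2.1 * m.2.2.2⁻¹ * m.2.2.1⁻¹)))⁻¹ * zz m (cm m.2.1),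
    (zz m (cm m.2.1 * (m.2.2.1 * m.2.2.2⁻¹)))⁻¹ *
      zz m (cm m.2.1 * (m.2.2.1 * m.2.2.2⁻¹ * m.2.2.1⁻¹))]

/-- the frames at the ends of the four long bands -/
def em (m : Mk H) : ℕ → H
  | 0 => m.2.1.1 * ym m 1
  | 1 => m.2.1.2
  | 2 => m.2.2.1 * ym m 3
  | _ => m.2.2.2

/-- the row `u` at the top and the marking `m` give a colouring of the surface of the braid `β` -/
def IsSol (k : ℕ) (β : BraidGroup (8 * k)) (m : Mk H) (u : List (St 8 H)) : Prop :=
  InT k (bs (ym m)) u ∧ InB k (bs (ym m)) (em m) (bact H (8 * k) β u)

/-- the number of colourings with `t ^ s * λ = 1` -/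
noncomputable def NS (k : ℕ) (H : Type) [Group H] (β : BraidGroup (8 * k)) (s : ℤ) : ℕ :=
  Nat.card {x : Mk H × List (St 8 H) // x.1.1 ^ s * lam x.1 = 1 ∧ IsSol k β x.1 x.2}

/-- all metabelian colourings are trivial on the bands (Alexander polynomial one) -/
def AM (k : ℕ) (β : BraidGroup (8 * k)) : Prop :=
  ∀ (H : Type) [Group H], (∀ a ∈ commutator H, ∀ b ∈ commutator H, Commute a b) →
    ∀ (m : Mk H) (u : List (St 8 H)), Commute m.1 (lam m) → IsSol k β m u → ∀ j, ym m j = 1

theorem row_length (k : ℕ) (b : Fin 8 → H) (F : ℕ → H) : (row k b F).length = 8 * k := by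
  simp [row]

theorem inX_row (k : ℕ) (b : Fin 8 → H) (F : ℕ → H) : InX b (cs k) (row k b F) := by
  refine ⟨fun s hs => ?_, by simp [labs, row, cs, mk, Function.comp_def]⟩
  simp only [row, List.mem_map] at hs
  obtain ⟨a, -, rfl⟩ := hs
  rfl

theorem frm_row {k s : ℕ} (b : Fin 8 → H) (F : ℕ → H) (hs : s < 8 * k) :
    frm (row k b F) s = F s := by
  simp [frm, row, mk, List.getD_eq_getElem?_getD, hs]

theorem lbl_row {k s : ℕ} (b : Fin 8 → H) (F : ℕ → H) (hs : s < 8 * k) :
    lbl (row k b F) s = (F s)⁻¹ * b (colr k s) * F s := by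
  simp [lbl, row, mk, List.getD_eq_getElem?_getD, hs]

theorem row_congr {k : ℕ} (b : Fin 8 → H) {F F' : ℕ → H} (h : ∀ s < 8 * k, F s = F' s) :
    row k b F = row k b F' :=
  List.map_congr_left fun s hs => by rw [h s (List.mem_range.1 hs)]

theorem InX.eq_row {k : ℕ} {b : Fin 8 → H} {l : List (St 8 H)} (h : InX b (cs k) l) :
    l = row k b (frm l) := by
  have hl : l.length = 8 * k := by rw [← labs_length, h.2]; simp [cs]
  refine List.ext_getElem (by rw [hl, row_length]) fun i h1 h2 => ?_
  have h3 : l[i].lab = colr k i := by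
    have := congrArg (fun L => L[i]?) h.2
    simpa [labs, cs, h1, hl ▸ h1] using this
  rw [h.1 _ (List.getElem_mem h1), h3]
  simp [row, frm, List.getD_eq_getElem?_getD, h1]

theorem zip2_row (k : ℕ) (b : Fin 8 → H) (b' : Fin 8 → H') (F : ℕ → H) (F' : ℕ → H') :
    zip2 (row k b F) (row k b' F') = row k (fun c => (b c, b' c)) fun s => (F s, F' s) := by
  simp only [zip2, row, List.zipWith_map, List.zipWith_self]
  rfl

theorem row_map (k : ℕ) (b : Fin 8 → H) (F : ℕ → H) (f : H →* H') :
    (row k b F).map (St.map f) = row k (fun c => f (b c)) fun s => f (F s) := by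
  simp [row, St.map, mk, Function.comp_def]

end Vale.Agent.Q258D
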