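import Vale.Agent.Q258D.Rows
import Mathlib.LinearAlgebra.Projectivization.PSL.PSL2
import Mathlib.LinearAlgebra.Matrix.GeneralLinearGroup.Card
import Mathlib.LinearAlgebra.Matrix.Charpoly.FiniteField
import Mathlib.GroupTheory.Perm.Cycle.Type

/-!
# The structure of the groups `SL(2, p)`
-/

namespace Vale.Agent.Q258D

namespace D1

open Matrix Matrix.SpecialLinearGroup
open scoped MatrixGroups

section Field

variable {F : Type} [Field F]

/-- the matrix with four given entries -/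
def mk4 (a b c d : F) (h : a * d - b * c = 1) : SL(2, F) :=
  ⟨!![a, b; c, d], by rwa [det_fin_two_of]⟩

theorem mk4_ent (a b c d : F) (h : a * d - b * c = 1) : (mk4 a b c d h).1 0 0 = a ∧
    (mk4 a b c d h).1 0 1 = b ∧ (mk4 a b c d h).1 1 0 = c ∧ (mk4 a b c d h).1 1 1 = d :=
  ⟨rfl, rfl, rfl, rfl⟩

/-- upper unipotent matrices -/
def up (s : F) : SL(2, F) := mk4 1 s 0 1 (by simp)

/-- lower unipotent matrices -/
def lo (s : F) : SL(2, F) := mk4 1 0 s 1 (by simp)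

theorem one_ent : (1 : SL(2, F)).1 0 0 = 1 ∧ (1 : SL(2, F)).1 0 1 = 0 ∧
    (1 : SL(2, F)).1 1 0 = 0 ∧ (1 : SL(2, F)).1 1 1 = 1 := ⟨rfl, rfl, rfl, rfl⟩

theorem det2 (a : SL(2, F)) : a.1 0 0 * a.1 1 1 - a.1 0 1 * a.1 1 0 = 1 := by
  rw [← det_fin_two]
  exact a.2

theorem ext2 {a b : SL(2, F)} (h1 : a.1 0 0 = b.1 0 0) (h2 : a.1 0 1 = b.1 0 1)
    (h3 : a.1 1 0 = b.1 1 0) (h4 : a.1 1 1 = b.1 1 1) : a = b := by
  ext i j
  fin_cases i <;> fin_cases j
  exacts [h1, h2, h3, h4]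

theorem mul2 (a b : SL(2, F)) (i j : Fin 2) :
    (a * b).1 i j = a.1 i 0 * b.1 0 j + a.1 i 1 * b.1 1 j := by
  show (a.1 * b.1) i j = _
  rw [Matrix.mul_apply, Fin.sum_univ_two]

theorem up_add (s t : F) : up (s + t) = up s * up t := by
  apply ext2 <;> simp only [mul2, up, mk4_ent] <;> ring

theorem up_zero : up (0 : F) = 1 := ext2 rfl rfl rfl rfl

theorem up_pow (s : F) (n : ℕ) : up s ^ n = up (n * s) := by
  induction n with
  | zero => rw [pow_zero, Nat.cast_zero, zero_mul, up_zero]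
  | succ n ih => rw [pow_succ, ih, ← up_add, Nat.cast_succ, add_mul, one_mul]

theorem eq_top_of {K : Subgroup SL(2, F)} (h1 : ∀ s, up s ∈ K) (h2 : ∀ s, lo s ∈ K) : K = ⊤ := by
  refine le_antisymm le_top fun A _ => SL2.transvection_induction (· ∈ K) (fun i j h c => ?_)
    (fun _ _ => mul_mem) A
  fin_cases i <;> fin_cases j
  · exact absurd rfl h
  · convert h1 c using 1
    apply ext2 <;> simp [up, mk4_ent, transvection_coe]
  · convert h2 c using 1
    apply ext2 <;> simp [lo, mk4_ent, transvection_coe]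
  · exact absurd rfl h

theorem eq_top_of_up {K : Subgroup SL(2, F)} (h1 : ∀ s, up s ∈ K) {a : SL(2, F)} (ha : a ∈ K)
    (hc : a.1 1 0 ≠ 0) : K = ⊤ := by
  refine eq_top_of h1 fun s => ?_
  have hd := det2 a
  have hw := K.mul_mem (h1 (-a.1 0 0 / a.1 1 0)) ha
  have e : lo s * (up (-a.1 0 0 / a.1 1 0) * a) =
      up (-a.1 0 0 / a.1 1 0) * a * up (-s / a.1 1 0 ^ 2) := by
    apply ext2 <;> simp only [mul2, up, lo, mk4_ent] <;> field_simp
    · ring
    · ring
    · ring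
    · linear_combination (-(a.1 1 0 * s)) * hd
  rw [eq_mul_inv_of_mul_eq e]
  exact K.mul_mem (K.mul_mem hw (h1 _)) (K.inv_mem hw)

theorem center_iff (a : SL(2, F)) : a ∈ Subgroup.center SL(2, F) ↔ a = 1 ∨ a = -1 := by
  rw [mem_center_iff]
  constructor
  · rintro ⟨r, h1, h2⟩
    rw [Fintype.card_fin, pow_two, mul_self_eq_one_iff] at h1
    rcases h1 with rfl | rfl
    · exact Or.inl (Subtype.ext (h2.symm.trans (map_one _)))
    · exact Or.inr (Subtype.ext (h2.symm.trans (by rw [map_neg, map_one]; rfl)))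
  · rintro (rfl | rfl)
    · exact ⟨1, one_pow _, by simp⟩
    · exact ⟨-1, by simp, by rw [map_neg, map_one]; rfl⟩

theorem normal_cases {c : F} (h0 : c ≠ 0) (h1 : c ^ 2 ≠ 1) (K : Subgroup SL(2, F))
    (hK : K.Normal) : K = ⊤ ∨ K ≤ Subgroup.center SL(2, F) := by
  have hs := ProjectiveSpecialLinearGroup.rank_two_simple' ⟨c, h0, h1⟩
  have hn := hK.map (QuotientGroup.mk' (Subgroup.center SL(2, F))) (QuotientGroup.mk'_surjective _)
  rcases hs.eq_bot_or_eq_top_of_normal _ hn with h | h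
  · right
    rwa [Subgroup.map_eq_bot_iff, QuotientGroup.ker_mk'] at h
  · left
    have h2 : ∀ a : SL(2, F), ∃ k ∈ K, ∃ z ∈ Subgroup.center SL(2, F), a = k * z := fun a => by
      obtain ⟨k, hk, e⟩ : QuotientGroup.mk' (Subgroup.center SL(2, F)) a ∈
        K.map (QuotientGroup.mk' (Subgroup.center SL(2, F))) := h ▸ Subgroup.mem_top _
      exact ⟨k, hk, k⁻¹ * a, QuotientGroup.eq.1 e, by group⟩
    rw [eq_top_iff, ← SL2.commutator_eq_top h0 h1, commutator_def, Subgroup.commutator_le]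
    intro a _ b _
    obtain ⟨k, hk, z, hz, rfl⟩ := h2 a
    rw [commutatorElement_def, mul_assoc k, ← Subgroup.mem_center_iff.1 hz b]
    have e : k * (b * z) * (k * z)⁻¹ * b⁻¹ = k * (b * k⁻¹ * b⁻¹) := by group
    rw [e]
    exact K.mul_mem hk (hK.conj_mem _ (K.inv_mem hk) b)

theorem conj_up {a : SL(2, F)} (h : a.1 0 0 + a.1 1 1 = 2) : ∃ x s, x⁻¹ * a * x = up s := by
  have hd := det2 a
  have h1 : a.1 1 1 = 2 - a.1 0 0 := by linear_combination h
  by_cases c : a.1 1 0 = 0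
  · have h2 : a.1 0 0 = 1 := by
      have : (a.1 0 0 - 1) ^ 2 = 0 := by
        rw [c, h1] at hd
        linear_combination -hd
      exact sub_eq_zero.1 (pow_eq_zero_iff two_ne_zero |>.1 this)
    refine ⟨1, a.1 0 1, ?_⟩
    rw [inv_one, one_mul, mul_one]
    refine ext2 h2 rfl c (h1.trans ?_)
    rw [h2, up, (mk4_ent ..).2.2.2]
    norm_num
  · refine ⟨mk4 (a.1 0 0 - 1) (-(a.1 1 0)⁻¹) (a.1 1 0) 0 (by simp [c]), -(a.1 1 0)⁻¹, ?_⟩
    rw [mul_assoc, inv_mul_eq_iff_eq_mul]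
    rw [h1] at hd
    apply ext2 <;> simp only [mul2, up, mk4_ent, h1]
    · linear_combination -hd
    · ring
    · ring
    · ring

theorem tr_conj (a x : SL(2, F)) :
    (x⁻¹ * a * x).1 0 0 + (x⁻¹ * a * x).1 1 1 = a.1 0 0 + a.1 1 1 := by
  rw [← trace_fin_two, ← trace_fin_two]
  show trace ((x⁻¹).1 * a.1 * x.1) = _
  rw [trace_mul_cycle]
  show trace ((x * x⁻¹ * a).1) = _
  rw [mul_inv_cancel, one_mul]

theorem comm_up {a : SL(2, F)} {s : F} (hs : s ≠ 0) (h : a * up s = up s * a) :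
    a.1 0 0 + a.1 1 1 = 2 ∨ a.1 0 0 + a.1 1 1 = -2 := by
  have hd := det2 a
  have h1 := congrArg (fun b : SL(2, F) => b.1 0 0) h
  have h2 := congrArg (fun b : SL(2, F) => b.1 0 1) h
  simp only [mul2, up, mk4_ent] at h1 h2
  have h3 : a.1 1 0 = 0 := mul_left_cancel₀ hs (by linear_combination -h1)
  have h4 : a.1 1 1 = a.1 0 0 := mul_left_cancel₀ hs (by linear_combination -h2)
  rw [h3, h4, mul_zero, sub_zero, mul_self_eq_one_iff] at hd
  rw [h4]
  rcases hd with e | e <;> rw [e] <;> norm_num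

end Field

variable {p : ℕ} [Fact p.Prime]

theorem card_eq : Nat.card (SLp p) = p * (p ^ 2 - 1) := by
  have hp := (Fact.out : p.Prime).two_le
  have h1 := Subgroup.card_mul_index
    (GeneralLinearGroup.det : GL (Fin 2) (ZMod p) →* (ZMod p)ˣ).ker
  have h2 : Nat.card (GeneralLinearGroup.det : GL (Fin 2) (ZMod p) →* (ZMod p)ˣ).ker =
      Nat.card (SLp p) := Nat.card_congr
    ⟨fun g => ⟨g.1.1, congrArg Units.val g.2⟩, fun g => ⟨toGL g, Units.ext g.2⟩,
      fun _ => Subtype.ext (Units.ext rfl), fun _ => rfl⟩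
  rw [h2, Subgroup.index_ker, MonoidHom.range_eq_top.2 GeneralLinearGroup.det_surjective,
    Subgroup.card_top, Nat.card_units, Nat.card_zmod, card_GL_field, Fin.prod_univ_two,
    ZMod.card] at h1
  refine Nat.eq_of_mul_eq_mul_right (show 0 < p - 1 by omega) (h1.trans ?_)
  simp only [Fin.val_zero, Fin.val_one, pow_zero, pow_one]
  rw [show p ^ 2 - p = p * (p - 1) by rw [Nat.mul_sub_one, pow_two]]
  ring

theorem trc_of_pow {a : SLp p} (h : a ^ p = 1) : trc a = 2 := by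
  have h1 := ZMod.trace_pow_card a.1
  rw [ZMod.pow_card, ← coe_pow, h, trace_fin_two a.1] at h1
  rw [trc, ← h1]
  simp

theorem two_ok (hp : 5 ≤ p) : (2 : ZMod p) ≠ 0 ∧ (2 : ZMod p) ^ 2 ≠ 1 := by
  have h : ∀ n : ℕ, 0 < n → n < 5 → (n : ZMod p) ≠ 0 := fun n h0 h1 h2 => by
    have := Nat.le_of_dvd h0 ((ZMod.natCast_eq_zero_iff n p).1 h2)
    omega
  refine ⟨by exact_mod_cast h 2 (by norm_num) (by norm_num), fun e => ?_⟩
  refine h 3 (by norm_num) (by norm_num) ?_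
  push_cast
  linear_combination e

theorem conj_of_order {a : SLp p} (h : a ^ p = 1) (h1 : a ≠ 1) :
    ∃ x s, s ≠ 0 ∧ x⁻¹ * a * x = up s := by
  obtain ⟨x, s, e⟩ := conj_up (F := ZMod p) (a := a) (trc_of_pow h)
  refine ⟨x, s, fun c => h1 ?_, e⟩
  rw [c, up_zero] at e
  calc a = x * (x⁻¹ * a * x) * x⁻¹ := by group
    _ = 1 := by rw [e, mul_one, mul_inv_cancel]

theorem borel (K : Subgroup (SLp p)) (h : p ∣ Nat.card K) :
    K = ⊤ ∨ ∃ x : SLp p, ∀ a ∈ K, (x⁻¹ * a * x).1 1 0 = 0 := by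
  obtain ⟨g, hg⟩ := exists_prime_orderOf_dvd_card' p h
  rw [← Subgroup.orderOf_coe] at hg
  obtain ⟨x, s, hs, e⟩ := conj_of_order (a := g.1)
    (by have := pow_orderOf_eq_one g.1; rwa [hg] at this) fun c => by
    rw [c, orderOf_one] at hg
    exact (Fact.out : p.Prime).ne_one hg.symm
  by_cases c : ∀ a ∈ K, (x⁻¹ * a * x).1 1 0 = 0
  · exact Or.inr ⟨x, c⟩
  · left
    push Not at c
    obtain ⟨a, ha, c⟩ := c
    have m : ∀ b, x⁻¹ * b * x ∈ K.comap (MulAut.conj x).toMonoidHom ↔ b ∈ K := fun b => by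
      simp [Subgroup.mem_comap, mul_assoc]
    have h1 : K.comap (MulAut.conj x).toMonoidHom = ⊤ := eq_top_of_up (fun t => by
      have h2 := Subgroup.pow_mem _ ((m _).2 g.2) (t / s).val
      rwa [e, up_pow, ZMod.natCast_zmod_val, div_mul_cancel₀ _ hs] at h2) ((m a).2 ha) c
    exact eq_top_iff.2 fun b _ => (m b).1 (h1 ▸ Subgroup.mem_top _)

theorem trc_of_ne {a : SLp p} (h : a ^ (p ^ 2 - 1) ≠ 1) : trc a = 2 ∨ trc a = -2 := by
  obtain ⟨x, s, hs, e⟩ := conj_of_order (a := a ^ (p ^ 2 - 1))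
    (by rw [← pow_mul, mul_comm, ← card_eq, pow_card_eq_one']) h
  rw [trc, ← tr_conj a x]
  refine comm_up hs ?_
  rw [← e]
  have := (Commute.self_pow a (p ^ 2 - 1)).eq
  generalize a ^ (p ^ 2 - 1) = b at this
  calc x⁻¹ * a * x * (x⁻¹ * b * x) = x⁻¹ * (a * b) * x := by group
    _ = _ := by rw [this]; group

end D1

open D1 in
theorem rowD1 : RowD1 := fun _ _ hp =>
  ⟨card_eq, center_iff, borel, normal_cases (two_ok hp).1 (two_ok hp).2,
    Matrix.SL2.commutator_eq_top (two_ok hp).1 (two_ok hp).2, fun _ => trc_of_pow,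
    fun _ h => let ⟨x, s, e⟩ := conj_up h; ⟨x, s, congrArg Subtype.val e⟩,
    fun _ h1 h2 => eq_top_of
      (fun s => let ⟨a, ha, e⟩ := h1 s; (show a = up s from Subtype.ext e) ▸ ha)
      fun s => let ⟨a, ha, e⟩ := h2 s; (show a = lo s from Subtype.ext e) ▸ ha⟩

end Vale.Agent.Q258D
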