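import Vale.Agent.Q258D.Rows
import Mathlib.GroupTheory.Transfer
import Mathlib.FieldTheory.Finite.Basic
import Mathlib.RingTheory.RootsOfUnity.AlgebraicallyClosed
import Mathlib.GroupTheory.Perm.Cycle.Type

/-!
# The groups `SL(2, p)` are superperfect

A central element `z` of a perfect group satisfies `z ^ [U : H] ∈ [H, H]` (transfer).  This is
applied to the preimages of a cyclic subgroup of order `p` and of two dicyclic subgroups of the
orders `2 (p - 1)` and `2 (p + 1)`.
-/

set_option linter.all false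

namespace Vale.Agent.Q258D

namespace D2

open Subgroup

section Transfer

variable {U E : Type} [Group U] [Group E]

theorem pow_index_mem (hU : commutator U = ⊤) (H : Subgroup U) [H.FiniteIndex] {z : U}
    (hz : z ∈ center U) : z ^ H.index ∈ ⁅H, H⁆ := by
  have key : ∀ (k : ℕ) (g₀ : U), g₀⁻¹ * z ^ k * g₀ ∈ H → g₀⁻¹ * z ^ k * g₀ = z ^ k := by
    intro k g _
    rw [mul_assoc, ← mem_center_iff.1 (pow_mem hz k) g, inv_mul_cancel_left]
  have h1 := MonoidHom.transfer_eq_pow (Abelianization.of : H →* Abelianization H) z key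
  have h2 : MonoidHom.transfer (Abelianization.of : H →* Abelianization H) z = 1 := by
    have := Abelianization.commutator_subset_ker
      (MonoidHom.transfer (Abelianization.of : H →* Abelianization H))
    rw [hU] at this
    exact this (mem_top z)
  rw [h2] at h1
  have h3 : (⟨z ^ H.index, MonoidHom.transfer_eq_pow_aux z key⟩ : H) ∈ commutator H := by
    rw [← Abelianization.ker_of]
    exact h1.symm
  have h4 := mem_map_of_mem H.subtype h3
  rw [commutator_def, map_commutator, ← MonoidHom.range_eq_map, range_subtype] at h4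
  exact h4

theorem comm_closure_le (s : Set U) (W : Subgroup U)
    (hn : ∀ x ∈ s, ∀ w ∈ W, x * w * x⁻¹ ∈ W ∧ x⁻¹ * w * x ∈ W)
    (hc : ∀ x ∈ s, ∀ y ∈ s, x * y * x⁻¹ * y⁻¹ ∈ W) : ⁅closure s, closure s⁆ ≤ W := by
  have hN : ∀ x ∈ closure s, ∀ w ∈ W, x * w * x⁻¹ ∈ W ∧ x⁻¹ * w * x ∈ W := by
    intro x hx
    induction hx using closure_induction with
    | mem x hx => exact hn x hx
    | one => intro w hw; simpa using hw
    | mul x y _ _ hx hy =>
      intro w hw
      constructor
      · have := (hx _ (hy w hw).1).1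
        convert this using 1
        group
      · have := (hy _ (hx w hw).2).2
        convert this using 1
        group
    | inv x _ hx =>
      intro w hw
      rw [inv_inv]
      exact (hx w hw).symm
  rw [commutator_le]
  intro x hx y hy
  rw [commutatorElement_def]
  induction hx, hy using closure_induction₂ with
  | mem x y hx hy => exact hc x hx y hy
  | one_left x hx => simp
  | one_right x hx => simp
  | mul_left x y z hx hy hz h1 h2 =>
    have := W.mul_mem (hN x hx _ h2).1 h1
    convert this using 1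
    group
  | mul_right y z x hy hz hx h1 h2 =>
    have := W.mul_mem h1 (hN y hy _ h2).1
    convert this using 1
    group
  | inv_left x y hx hy h =>
    have := (hN x hx _ (W.inv_mem h)).2
    convert this using 1
    group
  | inv_right x y hx hy h =>
    have := (hN y hy _ (W.inv_mem h)).2
    convert this using 1
    group

theorem pow_mem_of_pair (hU : commutator U = ⊤) [Finite E] (f : U →* E)
    (hf : Function.Surjective f) (hk : f.ker ≤ center U) (R S : U) (W : Subgroup U)
    (hR : ∀ w ∈ W, R * w * R⁻¹ ∈ W ∧ R⁻¹ * w * R ∈ W)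
    (hS : ∀ w ∈ W, S * w * S⁻¹ ∈ W ∧ S⁻¹ * w * S ∈ W) (hRS : R * S * R⁻¹ * S⁻¹ ∈ W)
    {z : U} (hz : z ∈ center U) : z ^ (closure ({f R, f S} : Set E)).index ∈ W := by
  have h1 : (closure ({f R, f S} : Set E)).comap f = closure ({R, S} ∪ (f.ker : Set U)) := by
    rw [Subgroup.closure_union, Subgroup.closure_eq, ← comap_map_eq, MonoidHom.map_closure, Set.image_pair]
  have h2 := index_comap_of_surjective (closure ({f R, f S} : Set E)) hf
  haveI : ((closure ({f R, f S} : Set E)).comap f).FiniteIndex :=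
    ⟨by rw [h2]; exact FiniteIndex.index_ne_zero⟩
  have h3 := pow_index_mem hU ((closure ({f R, f S} : Set E)).comap f) hz
  rw [h2, h1] at h3
  refine comm_closure_le _ W ?_ ?_ h3
  · rintro x ((rfl | rfl) | hx) w hw
    · exact hR w hw
    · exact hS w hw
    · have h := mem_center_iff.1 (hk hx) w
      constructor
      · rwa [← h, mul_inv_cancel_right]
      · rwa [mul_assoc, h, inv_mul_cancel_left]
  · rintro x hx y hy
    rcases hx with hx | hx
    · rcases hy with hy | hy
      · rcases hx with rfl | rfl <;> rcases hy with rfl | rfl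
        · simp
        · exact hRS
        · have := W.inv_mem hRS
          convert this using 1
          group
        · simp
      · rw [mem_center_iff.1 (hk hy) x]
        simp
    · rw [← mem_center_iff.1 (hk hx) y]
      simp

/-- cyclic subgroups -/
theorem pow_cyc (hU : commutator U = ⊤) [Finite E] (f : U →* E) (hf : Function.Surjective f)
    (hk : f.ker ≤ center U) (r : E) {z : U} (hz : z ∈ center U) {n : ℕ}
    (hn : n * orderOf r = Nat.card E) : z ^ n = 1 := by
  obtain ⟨R, rfl⟩ := hf r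
  have h := pow_mem_of_pair hU f hf hk R R ⊥ (by simp) (by simp) (by simp) hz
  rw [Set.pair_eq_singleton, ← zpowers_eq_closure, mem_bot] at h
  have h2 := (zpowers (f R)).index_mul_card
  rw [Nat.card_zpowers, ← hn] at h2
  rwa [Nat.eq_of_mul_eq_mul_right (orderOf_pos _) h2] at h

theorem index_dic [Finite E] {r s : E} {m : ℕ} (hm : 2 ≤ m) (hr : orderOf r = 2 * m)
    (hs : s * r * s⁻¹ = r⁻¹) (hs2 : s * s = r ^ m) :
    (closure ({r, s} : Set E)).index * (4 * m) = Nat.card E := by
  have c1 : ∀ y ∈ zpowers r, s * y * s⁻¹ ∈ zpowers r := by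
    rintro _ ⟨i, rfl⟩
    change s * r ^ i * s⁻¹ ∈ _
    rw [← conj_zpow, hs]
    exact zpow_mem (inv_mem (mem_zpowers r)) i
  have hs' : s⁻¹ * r * s = r⁻¹ := by
    have : r = s * r⁻¹ * s⁻¹ := by rw [← conj_inv, hs, inv_inv]
    conv_lhs => rw [this]
    group
  have c2 : ∀ y ∈ zpowers r, s⁻¹ * y * s ∈ zpowers r := by
    rintro _ ⟨i, rfl⟩
    change s⁻¹ * r ^ i * s ∈ _
    have : s⁻¹ * r ^ i * s = (s⁻¹ * r * s) ^ i := by
      have := conj_zpow (a := s⁻¹) (b := r) (i := i)
      rw [inv_inv] at this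
      exact this.symm
    rw [this, hs']
    exact zpow_mem (inv_mem (mem_zpowers r)) i
  have c3 : s * s ∈ zpowers r := hs2 ▸ pow_mem (mem_zpowers r) m
  have c4 : s ∉ zpowers r := by
    rintro ⟨i, hi⟩
    have h1 : s * r * s⁻¹ = r := by
      rw [← hi]
      group
    have h2 : r ^ 2 = 1 := by
      rw [pow_two]
      nth_rewrite 1 [← h1]
      rw [hs, inv_mul_cancel]
    have h3 := Nat.le_of_dvd (by norm_num) (orderOf_dvd_of_pow_eq_one h2)
    omega
  have c5 : ∀ b ∈ closure ({r, s} : Set E), b * s ∈ zpowers r ∨ b ∈ zpowers r := by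
    intro b hb
    induction hb using closure_induction_left with
    | one => exact Or.inr (one_mem _)
    | mul_left x hx y _ h =>
      rcases hx with rfl | rfl
      · refine h.imp (fun h => ?_) fun h => mul_mem (mem_zpowers _) h
        rw [mul_assoc]
        exact mul_mem (mem_zpowers _) h
      · rcases h with h | h
        · right
          convert c1 _ h using 1
          group
        · left
          convert mul_mem (c1 _ h) c3 using 1
          group
    | inv_mul_cancel x hx y _ h =>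
      rcases hx with rfl | rfl
      · refine h.imp (fun h => ?_) fun h => mul_mem (inv_mem (mem_zpowers _)) h
        rw [mul_assoc]
        exact mul_mem (inv_mem (mem_zpowers _)) h
      · rcases h with h | h
        · right
          convert mul_mem (c2 _ h) (inv_mem c3) using 1
          group
        · exact Or.inl (c2 _ h)
  have hle : zpowers r ≤ closure ({r, s} : Set E) := by
    rw [zpowers_le]
    exact subset_closure (by simp)
  have c6 : (zpowers r).relIndex (closure ({r, s} : Set E)) = 2 := by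
    rw [relIndex, index_eq_two_iff]
    refine ⟨⟨s, subset_closure (by simp)⟩, fun b => ?_⟩
    simp only [mem_subgroupOf, coe_mul]
    have c7 : ¬ (b.1 * s ∈ zpowers r ∧ b.1 ∈ zpowers r) := fun h =>
      c4 (by simpa using mul_mem (inv_mem h.2) h.1)
    rcases c5 b.1 b.2 with h | h
    · exact Or.inl ⟨h, fun h' => c7 ⟨h, h'⟩⟩
    · exact Or.inr ⟨h, fun h' => c7 ⟨h', h⟩⟩
  have c8 := relIndex_mul_index hle
  have c9 := (zpowers r).index_mul_card
  rw [Nat.card_zpowers, hr, ← c8, c6] at c9
  rw [← c9]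
  ring

/-- dicyclic subgroups -/
theorem pow_dic (hU : commutator U = ⊤) [Finite E] (f : U →* E) (hf : Function.Surjective f)
    (hk : f.ker ≤ center U) {r s : E} {m : ℕ} (hm : 2 ≤ m) (hr : orderOf r = 2 * m)
    (hs : s * r * s⁻¹ = r⁻¹) (hs2 : s * s = r ^ m) {z : U} (hz : z ∈ f.ker) {n : ℕ}
    (hn : n * (4 * m) = Nat.card E) : z ^ n = 1 := by
  have hi := index_dic hm hr hs hs2
  obtain ⟨R, rfl⟩ := hf r
  obtain ⟨S, rfl⟩ := hf s
  obtain ⟨a, ha⟩ : ∃ a, a = R * (S * R * S⁻¹) := ⟨_, rfl⟩
  obtain ⟨b, hb⟩ : ∃ b, b = (R ^ m)⁻¹ * (S * S) := ⟨_, rfl⟩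
  have ka : a ∈ f.ker := by
    rw [MonoidHom.mem_ker, ha]
    simp only [map_mul, map_inv, hs, mul_inv_cancel]
  have kb : b ∈ f.ker := by
    rw [MonoidHom.mem_ker, hb]
    simp only [map_mul, map_inv, map_pow, hs2, inv_mul_cancel]
  have ca : ∀ g, Commute g a := fun g => mem_center_iff.1 (hk ka) g
  have cb : ∀ g, Commute g b := fun g => mem_center_iff.1 (hk kb) g
  have e1 : S * R * S⁻¹ = R⁻¹ * a := by rw [ha]; group
  have e2 : R ^ m = S * S * b⁻¹ := by
    have : R ^ m * b = S * S := by rw [hb]; group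
    rw [← this, mul_inv_cancel_right]
  have e3 : S * R ^ m * S⁻¹ = R ^ m := by
    have : Commute S (R ^ m) := by
      rw [e2]
      exact ((Commute.refl S).mul_right (Commute.refl S)).mul_right (cb S).inv_right
    rw [this.eq, mul_inv_cancel_right]
  have e4 : R ^ m * R ^ m = a ^ m := by
    nth_rewrite 2 [← e3]
    rw [← conj_pow, e1, (ca R⁻¹).mul_pow, inv_pow, mul_inv_cancel_left]
  obtain ⟨w, hw⟩ : ∃ w, w = R * R * a⁻¹ := ⟨_, rfl⟩
  have e5 : w ^ m = 1 := by
    rw [hw, (ca (R * R)).inv_right.mul_pow, (Commute.refl R).mul_pow, e4, inv_pow, mul_inv_cancel]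
  have e6 : Commute R w := by
    rw [hw]
    exact ((Commute.refl R).mul_right (Commute.refl R)).mul_right (ca R).inv_right
  have e7 : S * w * S⁻¹ = w⁻¹ := by
    have : S * w * S⁻¹ = (S * R * S⁻¹) * (S * R * S⁻¹) * (S * a⁻¹ * S⁻¹) := by
      rw [hw]
      group
    rw [this, e1, (ca S).inv_right.eq, mul_inv_cancel_right, mul_assoc, mul_inv_cancel_right, hw,
      mul_inv_rev, mul_inv_rev, inv_inv, (ca R⁻¹).eq, mul_assoc]
  have e8 : S⁻¹ * w * S = w⁻¹ := by
    have : w = S * w⁻¹ * S⁻¹ := by rw [← conj_inv, e7, inv_inv]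
    conv_lhs => rw [this]
    group
  have h := pow_mem_of_pair hU f hf hk R S (zpowers w) ?_ ?_ ?_ (hk hz)
  · have hn' : (closure ({f R, f S} : Set E)).index = n :=
      Nat.eq_of_mul_eq_mul_right (by omega) (hi.trans hn.symm)
    rw [hn'] at h
    obtain ⟨i, hi⟩ := h
    have hi' : w ^ i = z ^ n := hi
    have h1 : f R ^ (2 * i) = 1 := by
      have h2 : f (w ^ i) = 1 := by
        rw [hi', map_pow, (MonoidHom.mem_ker.1 hz), one_pow]
      rw [map_zpow, hw, map_mul, map_inv, MonoidHom.mem_ker.1 ka, inv_one, mul_one, map_mul,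
        ← pow_two] at h2
      rw [zpow_mul]
      exact_mod_cast h2
    have h3 := orderOf_dvd_iff_zpow_eq_one.2 h1
    rw [hr] at h3
    push_cast at h3
    obtain ⟨j, rfl⟩ := (mul_dvd_mul_iff_left (two_ne_zero)).1 h3
    rw [← hi', zpow_mul, zpow_natCast, e5, one_zpow]
  · rintro _ ⟨i, rfl⟩
    have := e6.zpow_right i
    constructor
    · change R * w ^ i * R⁻¹ ∈ _
      rw [this.eq, mul_inv_cancel_right]
      exact zpow_mem (mem_zpowers w) i
    · change R⁻¹ * w ^ i * R ∈ _
      rw [mul_assoc, ← this.eq, inv_mul_cancel_left]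
      exact zpow_mem (mem_zpowers w) i
  · rintro _ ⟨i, rfl⟩
    constructor
    · change S * w ^ i * S⁻¹ ∈ _
      rw [← conj_zpow, e7]
      exact zpow_mem (inv_mem (mem_zpowers w)) i
    · change S⁻¹ * w ^ i * S ∈ _
      have : S⁻¹ * w ^ i * S = (S⁻¹ * w * S) ^ i := by
        have := conj_zpow (a := S⁻¹) (b := w) (i := i)
        rw [inv_inv] at this
        exact this.symm
      rw [this, e8]
      exact zpow_mem (inv_mem (mem_zpowers w)) i
  · have : R * S * R⁻¹ * S⁻¹ = w := by
      have h1 : R * S * R⁻¹ * S⁻¹ = R * (S * R * S⁻¹)⁻¹ := by group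
      rw [h1, e1, hw, mul_inv_rev, inv_inv, ← (ca R).inv_right.eq, mul_assoc]
    rw [this]
    exact mem_zpowers w

end Transfer

section Matrices

variable {p : ℕ} [Fact p.Prime]

/-- the companion matrix -/
def cp (t : ZMod p) : SLp p := ⟨!![0, -1; 1, t], by simp [Matrix.det_fin_two]⟩

theorem cp_pow_iff {K : Type} [Field K] [Algebra (ZMod p) K] {t : ZMod p} {w : K} (h0 : w ≠ 0)
    (h2 : w ^ 2 ≠ 1) (ht : algebraMap (ZMod p) K t = w + w⁻¹) (k : ℕ) :
    cp t ^ k = 1 ↔ w ^ k = 1 := by
  obtain ⟨φ, hφ⟩ : ∃ φ : Matrix (Fin 2) (Fin 2) (ZMod p) →+* Matrix (Fin 2) (Fin 2) K,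
    φ = (algebraMap (ZMod p) K).mapMatrix := ⟨_, rfl⟩
  have hinj : Function.Injective φ := by
    rw [hφ]
    exact Matrix.map_injective (algebraMap (ZMod p) K).injective
  obtain ⟨P, hP⟩ : ∃ P : Matrix (Fin 2) (Fin 2) K, P = !![1, 1; -w, -w⁻¹] := ⟨_, rfl⟩
  have h1 : φ (cp t).1 * P = P * !![w, 0; 0, w⁻¹] := by
    rw [hφ, hP]
    ext i j
    fin_cases i <;> fin_cases j <;>
      simp [cp, Matrix.mul_apply, Fin.sum_univ_two, ht] <;> field_simp <;> ring
  have h3 : ∀ k : ℕ, φ (cp t ^ k).1 * P = P * !![w ^ k, 0; 0, w⁻¹ ^ k] := by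
    intro k
    induction k with
    | zero => simp [← Matrix.one_fin_two]
    | succ k ih =>
      rw [pow_succ', Matrix.SpecialLinearGroup.coe_mul, map_mul, mul_assoc, ih, ← mul_assoc, h1,
        mul_assoc]
      congr 1
      ext i j
      fin_cases i <;> fin_cases j <;> simp [Matrix.mul_apply, Fin.sum_univ_two, pow_succ']
  have hdet : IsUnit P := by
    rw [Matrix.isUnit_iff_isUnit_det, hP, Matrix.det_fin_two_of, isUnit_iff_ne_zero]
    intro h
    apply h2
    field_simp at h
    linear_combination h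
  constructor
  · intro h
    have h4 := h3 k
    rw [h, Matrix.SpecialLinearGroup.coe_one, map_one, one_mul, hP] at h4
    have := congrFun (congrFun h4 0) 0
    simpa [Matrix.mul_apply, Fin.sum_univ_two] using this.symm
  · intro h
    have h4 := h3 k
    rw [inv_pow, h, inv_one, ← Matrix.one_fin_two, mul_one] at h4
    have h5 : φ (cp t ^ k).1 = 1 := hdet.mul_right_cancel (by rw [h4, one_mul])
    exact Subtype.ext (hinj (by rw [h5, Matrix.SpecialLinearGroup.coe_one, map_one]))

theorem two_ne (hp : 5 ≤ p) : (2 : ZMod p) ≠ 0 := by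
  intro h
  have h' : ((2 : ℕ) : ZMod p) = 0 := by exact_mod_cast h
  rw [ZMod.natCast_eq_zero_iff] at h'
  have := Nat.le_of_dvd (by norm_num) h'
  omega

theorem sq_eq_one (hp : 5 ≤ p) {x : SLp p} (h : x * x = 1) (h1 : x ≠ 1) : x = -1 := by
  have h2 : x = x⁻¹ := eq_inv_of_mul_eq_one_left h
  have hd := x.2
  rw [Matrix.det_fin_two] at hd
  have h3 := congrArg Subtype.val h2
  rw [Matrix.SpecialLinearGroup.coe_inv, Matrix.adjugate_fin_two] at h3
  have a := congrFun (congrFun h3 0) 0
  have b := congrFun (congrFun h3 0) 1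
  have c := congrFun (congrFun h3 1) 0
  simp only [Matrix.of_apply, Matrix.cons_val', Matrix.cons_val_zero, Matrix.cons_val_one,
    Matrix.cons_val_fin_one] at a b c
  have b0 : x.1 0 1 = 0 := by
    apply (mul_eq_zero.1 (show 2 * x.1 0 1 = 0 by linear_combination b)).resolve_left (two_ne hp)
  have c0 : x.1 1 0 = 0 := by
    apply (mul_eq_zero.1 (show 2 * x.1 1 0 = 0 by linear_combination c)).resolve_left (two_ne hp)
  have a2 : (x.1 0 0 - 1) * (x.1 0 0 + 1) = 0 := by
    rw [← a, b0] at hd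
    linear_combination hd
  rcases mul_eq_zero.1 a2 with a1 | a1
  · exfalso
    apply h1
    ext i j
    fin_cases i <;> fin_cases j
    · simpa using sub_eq_zero.1 a1
    · simpa using b0
    · simpa using c0
    · simpa [← a] using sub_eq_zero.1 a1
  · ext i j
    fin_cases i <;> fin_cases j
    · simpa using eq_neg_of_add_eq_zero_left a1
    · simpa using b0
    · simpa using c0
    · simpa [← a] using eq_neg_of_add_eq_zero_left a1

theorem exists_flip (hp : 5 ≤ p) {t : ZMod p} (ht : t ^ 2 ≠ 4) :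
    ∃ s : SLp p, s * cp t * s⁻¹ = (cp t)⁻¹ ∧ s * s = -1 := by
  have hodd : Fintype.card (ZMod p) % 2 = 1 := by
    rw [ZMod.card]
    exact (Nat.Prime.eq_two_or_odd Fact.out).resolve_left (by omega)
  obtain ⟨a, z, h⟩ := FiniteField.exists_root_sum_quadratic (R := ZMod p)
    (f := Polynomial.X ^ 2) (g := Polynomial.C (4 - t ^ 2) * Polynomial.X ^ 2 + Polynomial.C 1)
    (by simp) (by
      rw [Polynomial.degree_add_C] <;>
        rw [Polynomial.degree_C_mul_X_pow _ (sub_ne_zero.2 ht.symm)] <;> norm_num) hodd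
  simp only [Polynomial.eval_add, Polynomial.eval_mul, Polynomial.eval_pow, Polynomial.eval_X,
    Polynomial.eval_C] at h
  obtain ⟨s, hs⟩ : ∃ s : SLp p,
      s.1 = !![a - t * z, a * t - t ^ 2 * z + 2 * z; 2 * z, t * z - a] :=
    ⟨⟨_, by rw [Matrix.det_fin_two_of]; linear_combination -h⟩, rfl⟩
  refine ⟨s, ?_, ?_⟩
  · rw [mul_inv_eq_iff_eq_mul, eq_inv_mul_iff_mul_eq]
    have hc : (cp t).1 = !![0, -1; 1, t] := rfl
    ext i j
    fin_cases i <;> fin_cases j <;> simp [hc, hs, Matrix.mul_apply, Fin.sum_univ_two] <;> ring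
  · ext i j
    fin_cases i <;> fin_cases j <;> simp [hs, Matrix.mul_apply, Fin.sum_univ_two]
    · linear_combination h
    · ring
    · ring
    · linear_combination h

theorem exists_dic (hp : 5 ≤ p) {m : ℕ} (hm : 2 * m + 1 = p ∨ 2 * m = p + 1) :
    ∃ r s : SLp p, orderOf r = 2 * m ∧ s * r * s⁻¹ = r⁻¹ ∧ s * s = r ^ m := by
  have hm2 : 2 ≤ m := by omega
  haveI : NeZero ((2 * m : ℕ) : ZMod p) := ⟨by
    rcases hm with h | h
    · intro h0
      have : ((2 * m + 1 : ℕ) : ZMod p) = 0 := by rw [h, ZMod.natCast_self]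
      rw [Nat.cast_add, h0] at this
      simp at this
    · rw [h]
      simp⟩
  obtain ⟨w, hw⟩ := HasEnoughRootsOfUnity.exists_primitiveRoot (AlgebraicClosure (ZMod p)) (2 * m)
  have h0 : w ≠ 0 := hw.ne_zero (by omega)
  have h2 : w ^ 2 ≠ 1 := hw.pow_ne_one_of_pos_of_lt (by norm_num) (by omega)
  have hfix : (w + w⁻¹) ^ p = w + w⁻¹ := by
    rw [add_pow_char, inv_pow]
    rcases hm with h | h
    · have : w ^ p = w := by
        have := pow_succ w (2 * m)
        rwa [h, hw.pow_eq_one, one_mul] at this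
      rw [this]
    · have : w ^ p = w⁻¹ := eq_inv_of_mul_eq_one_left (by rw [← pow_succ, ← h, hw.pow_eq_one])
      rw [this, inv_inv, add_comm]
  obtain ⟨n, hn⟩ := (mem_bot_iff_intCast p _).1 ((Subfield.mem_bot_iff_pow_eq_self _ p).2 hfix)
  have ht : algebraMap (ZMod p) (AlgebraicClosure (ZMod p)) (n : ZMod p) = w + w⁻¹ := by
    rw [map_intCast, hn]
  have hord : orderOf (cp (n : ZMod p)) = 2 * m := by
    rw [hw.eq_orderOf, orderOf_eq_orderOf_iff]
    exact cp_pow_iff h0 h2 ht
  have ht4 : (n : ZMod p) ^ 2 ≠ 4 := by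
    intro h
    have h4 := congrArg (algebraMap (ZMod p) (AlgebraicClosure (ZMod p))) h
    rw [map_pow, ht, map_ofNat] at h4
    apply h2
    have h5 : (w ^ 2 - 1) ^ 2 = 0 := by
      field_simp at h4
      linear_combination h4
    exact sub_eq_zero.1 (pow_eq_zero_iff (by norm_num) |>.1 h5)
  obtain ⟨s, s1, s2⟩ := exists_flip hp ht4
  refine ⟨_, s, hord, s1, ?_⟩
  rw [s2]
  refine (sq_eq_one hp ?_ ?_).symm
  · rw [← pow_add, ← two_mul, ← hord, pow_orderOf_eq_one]
  · exact pow_ne_one_of_lt_orderOf (by omega) (by omega)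

end Matrices

end D2

theorem rowD2 (h1 : RowD1) : RowD2 := by
  intro p _ hp
  obtain ⟨hcard, -, -, -, hperf, -⟩ := h1 p hp
  have hpr : p.Prime := Fact.out
  haveI : Finite (SLp p) := inferInstance
  refine ⟨inferInstance, hperf, fun U _ f hf hk hU => ?_⟩
  rw [injective_iff_map_eq_one]
  intro z hz
  obtain ⟨q, hq⟩ : ∃ q, p = 2 * q + 1 := hpr.odd_of_ne_two (by omega)
  have hc : p ^ 2 - 1 = 4 * q * (q + 1) := by
    have : p ^ 2 = 4 * q * (q + 1) + 1 := by rw [hq]; ring
    omega
  rw [hc] at hcard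
  obtain ⟨u, hu⟩ := exists_prime_orderOf_dvd_card' (G := SLp p) p (hcard ▸ dvd_mul_right _ _)
  have e1 : z ^ (4 * q * (q + 1)) = 1 :=
    D2.pow_cyc hU f hf hk u (hk hz) (by rw [hu, hcard, mul_comm])
  obtain ⟨r, s, a1, a2, a3⟩ := D2.exists_dic hp (m := q) (Or.inl hq.symm)
  have e2 : z ^ (p * (q + 1)) = 1 :=
    D2.pow_dic hU f hf hk (by omega) a1 a2 a3 hz (by rw [hcard]; ring)
  obtain ⟨r', s', b1, b2, b3⟩ := D2.exists_dic hp (m := q + 1) (Or.inr (by omega))
  have e3 : z ^ (p * q) = 1 :=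
    D2.pow_dic hU f hf hk (by omega) b1 b2 b3 hz (by rw [hcard]; ring)
  have e4 : z ^ p = 1 := by rwa [mul_add, mul_one, pow_add, e3, one_mul] at e2
  have e5 : z ^ (p * p) = 1 := by rw [pow_mul, e4, one_pow]
  have e6 : p * p = 4 * q * (q + 1) + 1 := by rw [hq]; ring
  rwa [e6, pow_succ, e1, one_mul] at e5

end Vale.Agent.Q258D
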