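import Vale.Agent.Q258D.D1

/-!
# Elementary counts in the groups `SL(2, p)`
-/

namespace Vale.Agent.Q258D

namespace D3

open Matrix Finset D1
open scoped MatrixGroups

/-- double counting along a family of translations -/
theorem avg {G S : Type} [Group G] [Finite G] [Finite S] (u : S → G) (P B : G → Prop) (m : ℕ)
    (h : ∀ x, ¬ B x → Nat.card {s // P (x * u s)} ≤ m) :
    Nat.card S * Nat.card {x // P x} ≤ m * Nat.card G + Nat.card S * Nat.card {x // B x} := by
  classical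
  have := Fintype.ofFinite G
  have := Fintype.ofFinite S
  simp only [Nat.card_eq_fintype_card, Fintype.card_subtype] at h ⊢
  have h1 : ∀ s, (univ.filter fun x => P (x * u s)).card = (univ.filter P).card := fun s =>
    card_equiv (Equiv.mulRight (u s)) (by simp)
  calc Fintype.card S * (univ.filter P).card
      = ∑ s, (univ.filter fun x => P (x * u s)).card := by simp [h1]
    _ = ∑ x, (univ.filter fun s => P (x * u s)).card := by
        simp only [card_filter]
        exact sum_comm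
    _ ≤ ∑ x, (m + if B x then Fintype.card S else 0) := sum_le_sum fun x _ => by
        split_ifs with c
        · exact (card_le_univ _).trans (Nat.le_add_left _ _)
        · exact h x c
    _ = _ := by
        rw [sum_add_distrib, ← sum_filter]
        simp [mul_comm]

theorem avg0 {G S : Type} [Group G] [Finite G] [Finite S] (u : S → G) (P : G → Prop) (m : ℕ)
    (h : ∀ x, Nat.card {s // P (x * u s)} ≤ m) :
    Nat.card S * Nat.card {x // P x} ≤ m * Nat.card G := by
  simpa using avg u P (fun _ => False) m fun x _ => h x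

/-- counting along the fibres of a map -/
theorem card_le_fib {X Y : Type} [Finite X] [Finite Y] (P : X → Prop) (Q : Y → Prop) (f : X → Y)
    (m : ℕ) (h1 : ∀ x, P x → Q (f x)) (h2 : ∀ y, Q y → Nat.card {x // P x ∧ f x = y} ≤ m) :
    Nat.card {x // P x} ≤ m * Nat.card {y // Q y} := by
  classical
  have := Fintype.ofFinite X
  have := Fintype.ofFinite Y
  simp only [Nat.card_eq_fintype_card, Fintype.card_subtype] at h2 ⊢
  refine card_le_mul_card_image_of_maps_to (f := f) (fun x hx => ?_) m fun y hy => ?_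
  · simpa using h1 x (by simpa using hx)
  · rw [filter_filter]
    exact h2 y (by simpa using hy)

theorem card_mono {X : Type} [Finite X] {P Q : X → Prop} (h : ∀ x, P x → Q x) :
    Nat.card {x // P x} ≤ Nat.card {x // Q x} :=
  Nat.card_le_card_of_injective (Subtype.map id h) (Subtype.map_injective _ Function.injective_id)

section Field

variable {F : Type} [Field F] [Finite F]

theorem roots2 {A B C : F} (h : A ≠ 0 ∨ B ≠ 0 ∨ C ≠ 0) {P : F → Prop}
    (hP : ∀ s, P s → A * s ^ 2 + B * s + C = 0) : Nat.card {s // P s} ≤ 2 := by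
  classical
  have := Fintype.ofFinite F
  rw [Nat.card_eq_fintype_card, Fintype.card_subtype]
  by_contra c
  obtain ⟨a, b, d, ha, hb, hd, h1, h2, h3⟩ := two_lt_card_iff.1 (not_le.1 c)
  have ea := hP a (mem_filter.1 ha).2
  have eb := hP b (mem_filter.1 hb).2
  have ed := hP d (mem_filter.1 hd).2
  have e1 : A * (a + b) + B = 0 :=
    mul_left_cancel₀ (sub_ne_zero.2 h1) (by linear_combination ea - eb)
  have e2 : A * (a + d) + B = 0 :=
    mul_left_cancel₀ (sub_ne_zero.2 h2) (by linear_combination ea - ed)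
  have e3 : A = 0 := mul_left_cancel₀ (sub_ne_zero.2 h3) (by linear_combination e1 - e2)
  have e4 : B = 0 := by rw [e3] at e1; linear_combination e1
  rw [e3, e4] at ea
  rcases h with h | h | h
  exacts [h e3, h e4, h (by linear_combination ea)]

theorem roots1 {B C : F} (h : B ≠ 0 ∨ C ≠ 0) {P : F → Prop} (hP : ∀ s, P s → B * s + C = 0) :
    Nat.card {s // P s} ≤ 1 := by
  refine Finite.card_le_one_iff_subsingleton.2 ⟨fun a b => Subtype.ext ?_⟩
  have ea := hP _ a.2
  have eb := hP _ b.2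
  by_cases c : B = 0
  · rw [c] at ea
    exact absurd (by linear_combination ea) (h.resolve_left fun h => h c)
  · exact mul_left_cancel₀ c (by linear_combination ea - eb)

omit [Finite F] in
theorem inv_up (s : F) : (up s)⁻¹ = up (-s) :=
  inv_eq_of_mul_eq_one_right (by rw [← up_add, add_neg_cancel, up_zero])

omit [Finite F] in
theorem inv_lo (s : F) : (lo s)⁻¹ = lo (-s) := by
  refine inv_eq_of_mul_eq_one_right ?_
  apply ext2 <;> simp only [mul2, lo, mk4_ent, one_ent] <;> ring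

omit [Finite F] in
theorem central_of {a : SL(2, F)} (h1 : a.1 0 1 = 0) (h2 : a.1 1 0 = 0) (h3 : a.1 1 1 = a.1 0 0) :
    a ∈ Subgroup.center SL(2, F) := by
  refine Subgroup.mem_center_iff.2 fun g => ?_
  apply ext2 <;> simp only [mul2, h1, h2, h3] <;> ring

omit [Finite F] in
theorem conj_central {a x : SL(2, F)} (h : x⁻¹ * a * x ∈ Subgroup.center SL(2, F)) :
    a ∈ Subgroup.center SL(2, F) := by
  have h1 := Subgroup.normal_of_characteristic (Subgroup.center SL(2, F)) |>.conj_mem _ h x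
  rwa [show x * (x⁻¹ * a * x) * x⁻¹ = a by group] at h1

omit [Finite F] in
theorem conj_lo (a : SL(2, F)) (s : F) : ((lo s)⁻¹ * a * lo s).1 1 0 =
    -a.1 0 1 * s ^ 2 + (a.1 1 1 - a.1 0 0) * s + a.1 1 0 := by
  rw [inv_lo]
  simp only [mul2, lo, mk4_ent]
  ring

theorem count2 {a : SL(2, F)} (h : a ∉ Subgroup.center SL(2, F)) :
    Nat.card F * Nat.card {x : SL(2, F) // (x⁻¹ * a * x).1 1 0 = 0} ≤ 2 * Nat.card SL(2, F) := by
  refine avg0 lo _ 2 fun x => roots2 (A := -(x⁻¹ * a * x).1 0 1)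
    (B := (x⁻¹ * a * x).1 1 1 - (x⁻¹ * a * x).1 0 0) (C := (x⁻¹ * a * x).1 1 0) ?_ fun s hs => ?_
  · by_contra c
    push Not at c
    exact h (conj_central (central_of (neg_eq_zero.1 c.1) c.2.2 (sub_eq_zero.1 c.2.1)))
  · rw [← conj_lo, ← hs, _root_.mul_inv_rev]
    simp only [mul_assoc]

omit [Finite F] in
theorem exists_conj {a : SL(2, F)} (h : a ∉ Subgroup.center SL(2, F)) :
    ∃ y : SL(2, F), (y⁻¹ * a * y).1 1 0 ≠ 0 := by
  by_contra c
  push Not at c
  have h0 := c 1
  have h1 := c (lo 1)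
  have h2 := c (mk4 0 (-1) 1 0 (by simp))
  rw [inv_one, one_mul, mul_one] at h0
  have e : (mk4 (0 : F) (-1) 1 0 (by simp))⁻¹ = mk4 0 1 (-1) 0 (by simp) := by
    refine inv_eq_of_mul_eq_one_right ?_
    apply ext2 <;> simp only [mul2, mk4_ent, one_ent] <;> ring
  rw [conj_lo] at h1
  simp only [e, mul2, mk4_ent] at h2
  have h3 : a.1 0 1 = 0 := by linear_combination -h2
  exact h (central_of h3 h0 (by linear_combination h1 - h0 + h3))

theorem count1 {a b : SL(2, F)} (ha : a ∉ Subgroup.center SL(2, F))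
    (hb : b ∉ Subgroup.center SL(2, F)) (τ : F) :
    Nat.card F * Nat.card {x : SL(2, F) //
      (a * (x⁻¹ * b * x)).1 0 0 + (a * (x⁻¹ * b * x)).1 1 1 = τ} ≤ 4 * Nat.card SL(2, F) := by
  obtain ⟨y, hy⟩ := exists_conj ha
  have e : Nat.card {x : SL(2, F) // (a * (x⁻¹ * b * x)).1 0 0 + (a * (x⁻¹ * b * x)).1 1 1 = τ} =
      Nat.card {x : SL(2, F) // (y⁻¹ * a * y * (x⁻¹ * b * x)).1 0 0 +
        (y⁻¹ * a * y * (x⁻¹ * b * x)).1 1 1 = τ} :=
    Nat.card_congr ((Equiv.mulRight y).subtypeEquiv fun x => by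
      rw [← tr_conj _ y, Equiv.coe_mulRight,
        show y⁻¹ * (a * (x⁻¹ * b * x)) * y = y⁻¹ * a * y * ((x * y)⁻¹ * b * (x * y)) by group])
  rw [e]
  generalize y⁻¹ * a * y = c at hy
  have h1 := count2 hb
  refine (avg up _ (fun x => (x⁻¹ * b * x).1 1 0 = 0) 2 fun x hx => ?_).trans (by omega)
  have e1 : ∀ s : F, (x * up s)⁻¹ * b * (x * up s) = up (-s) * (x⁻¹ * b * x) * up s := fun s => by
    rw [← inv_up]; group
  simp only [e1]
  generalize x⁻¹ * b * x = d at hx
  refine roots2 (A := -c.1 1 0 * d.1 1 0)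
    (B := (c.1 1 1 - c.1 0 0) * d.1 1 0 + c.1 1 0 * (d.1 0 0 - d.1 1 1))
    (C := c.1 0 0 * d.1 0 0 + c.1 0 1 * d.1 1 0 + c.1 1 0 * d.1 0 1 + c.1 1 1 * d.1 1 1 - τ)
    (Or.inl (mul_ne_zero (neg_ne_zero.2 hy) hx)) fun s hs => ?_
  simp only [mul2, up, mk4_ent] at hs
  linear_combination hs

theorem count3 {a : SL(2, F)} (ha : a ∉ Subgroup.center SL(2, F)) :
    Nat.card {x : SL(2, F) // x * a = a * x} ≤ 2 * Nat.card F := by
  obtain ⟨y, hy⟩ := exists_conj ha
  have e : Nat.card {x : SL(2, F) // x * a = a * x} =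
      Nat.card {x : SL(2, F) // x * (y⁻¹ * a * y) = y⁻¹ * a * y * x} :=
    Nat.card_congr ((MulAut.conj y⁻¹).toEquiv.subtypeEquiv fun x => by
      show _ ↔ y⁻¹ * x * y⁻¹⁻¹ * (y⁻¹ * a * y) = y⁻¹ * a * y * (y⁻¹ * x * y⁻¹⁻¹)
      rw [show y⁻¹ * x * y⁻¹⁻¹ * (y⁻¹ * a * y) = y⁻¹ * (x * a) * y by group,
        show y⁻¹ * a * y * (y⁻¹ * x * y⁻¹⁻¹) = y⁻¹ * (a * x) * y by group, mul_left_inj,
        mul_right_inj])
  rw [e]
  generalize y⁻¹ * a * y = c at hy
  have key : ∀ x : SL(2, F), x * c = c * x → c.1 1 0 * x.1 0 1 = c.1 0 1 * x.1 1 0 ∧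
      c.1 1 0 * x.1 1 1 = c.1 1 0 * x.1 0 0 + (c.1 1 1 - c.1 0 0) * x.1 1 0 := fun x hx => by
    have h1 := congrArg (fun b : SL(2, F) => b.1 0 0) hx
    have h2 := congrArg (fun b : SL(2, F) => b.1 1 0) hx
    simp only [mul2] at h1 h2
    exact ⟨by linear_combination h1, by linear_combination h2⟩
  refine (card_le_fib _ (fun _ => True) (fun x => x.1 1 0) 2 (fun _ _ => trivial)
    fun t _ => ?_).trans (by simp)
  refine le_trans (Nat.card_le_card_of_injective (β := {s : F // c.1 1 0 * s ^ 2 +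
    (c.1 1 1 - c.1 0 0) * t * s + (-c.1 0 1 * t ^ 2 - c.1 1 0) = 0})
    (fun x => ⟨x.1.1 0 0, ?_⟩) fun x x' h => ?_) (roots2 (Or.inl hy) fun _ h => h)
  · obtain ⟨h1, h2⟩ := key _ x.2.1
    have h3 := det2 x.1
    rw [x.2.2] at h1 h2 h3
    linear_combination c.1 1 0 * h3 - x.1.1 0 0 * h2 + t * h1
  · obtain ⟨h1, h2⟩ := key _ x.2.1
    obtain ⟨h3, h4⟩ := key _ x'.2.1
    have h5 : x.1.1 0 0 = x'.1.1 0 0 := congrArg Subtype.val h
    have h6 : x.1.1 1 0 = x'.1.1 1 0 := x.2.2.trans x'.2.2.symm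
    rw [h6] at h1 h2
    rw [h5] at h2
    exact Subtype.ext (ext2 h5 (mul_left_cancel₀ hy (h1.trans h3.symm)) h6
      (mul_left_cancel₀ hy (h2.trans h4.symm)))

omit [Finite F] in
theorem row_ne {r t : F} (h : r ≠ 0 ∨ t ≠ 0) (x : SL(2, F)) :
    r * x.1 0 0 + t * x.1 1 0 ≠ 0 ∨ r * x.1 0 1 + t * x.1 1 1 ≠ 0 := by
  by_contra c
  push Not at c
  have hd := det2 x
  rcases h with h | h
  · exact h (by linear_combination x.1 1 1 * c.1 - x.1 1 0 * c.2 - r * hd)
  · exact h (by linear_combination x.1 0 0 * c.2 - x.1 0 1 * c.1 - t * hd)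

/-- hyperplane sections -/
theorem count_lin {r t r' t' : F} (h : (r ≠ 0 ∨ t ≠ 0) ∨ r' ≠ 0 ∨ t' ≠ 0) (τ : F) :
    Nat.card F * Nat.card {x : SL(2, F) //
      r * x.1 0 0 + t * x.1 1 0 + (r' * x.1 0 1 + t' * x.1 1 1) = τ} ≤ 2 * Nat.card SL(2, F) := by
  rcases h with h | h
  · have h1 := avg0 up (fun x : SL(2, F) => r * x.1 0 1 + t * x.1 1 1 = 0) 1 fun x =>
      roots1 (row_ne h x) fun s hs => by
        simp only [mul2, up, mk4_ent] at hs
        linear_combination hs
    refine (avg lo _ (fun x : SL(2, F) => r * x.1 0 1 + t * x.1 1 1 = 0) 1 fun x hx =>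
      roots1 (C := r * x.1 0 0 + t * x.1 1 0 + (r' * x.1 0 1 + t' * x.1 1 1) - τ) (Or.inl hx)
        fun s hs => ?_).trans (by omega)
    simp only [mul2, lo, mk4_ent] at hs
    linear_combination hs
  · have h1 := avg0 lo (fun x : SL(2, F) => r' * x.1 0 0 + t' * x.1 1 0 = 0) 1 fun x =>
      roots1 (row_ne h x).symm fun s hs => by
        simp only [mul2, lo, mk4_ent] at hs
        linear_combination hs
    refine (avg up _ (fun x : SL(2, F) => r' * x.1 0 0 + t' * x.1 1 0 = 0) 1 fun x hx =>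
      roots1 (C := r * x.1 0 0 + t * x.1 1 0 + (r' * x.1 0 1 + t' * x.1 1 1) - τ) (Or.inl hx)
        fun s hs => ?_).trans (by omega)
    simp only [mul2, up, mk4_ent] at hs
    linear_combination hs

theorem fib_le {G : Type} [Group G] [Finite G] (h b : G) :
    Nat.card {a : G × G // cm a = h ∧ a.2⁻¹ = b} ≤ Nat.card {x : G // x * b = b * x} := by
  rcases isEmpty_or_nonempty {a : G × G // cm a = h ∧ a.2⁻¹ = b} with c | ⟨⟨a0, h0, e0⟩⟩
  · simp
  · have key : ∀ a : G × G, cm a = h ∧ a.2⁻¹ = b → a.1 * b = h * b * a.1 := fun a ha => by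
      rw [← ha.1, ← ha.2, cm]; group
    refine Nat.card_le_card_of_injective (fun a => ⟨a0.1⁻¹ * a.1.1, ?_⟩) fun a a' e => ?_
    · rw [mul_assoc, key _ a.2, ← mul_right_inj a0.1, ← mul_assoc a0.1 b, key _ ⟨h0, e0⟩]
      group
    · exact Subtype.ext (Prod.ext (mul_left_cancel (congrArg Subtype.val e))
        (inv_injective (a.2.2.trans a'.2.2.symm)))

theorem count5 {h : SL(2, F)} (h1 : h ≠ 1) :
    Nat.card {a : SL(2, F) × SL(2, F) // cm a = h} ≤ 4 * Nat.card SL(2, F) := by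
  have h2 := count_lin (r := h.1 0 0 - 1) (t := h.1 0 1) (r' := h.1 1 0) (t' := h.1 1 1 - 1)
    (by
      by_contra c
      push Not at c
      exact h1 (ext2 (sub_eq_zero.1 c.1.1) c.1.2 c.2.1 (sub_eq_zero.1 c.2.2))) 0
  have h3 := card_le_fib (fun a : SL(2, F) × SL(2, F) => cm a = h)
    (fun x : SL(2, F) => x ∉ Subgroup.center SL(2, F) ∧ (h.1 0 0 - 1) * x.1 0 0 + h.1 0 1 * x.1 1 0 +
      (h.1 1 0 * x.1 0 1 + (h.1 1 1 - 1) * x.1 1 1) = 0) (fun a => a.2⁻¹) (2 * Nat.card F)
    (fun a ha => by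
      have e : a.1⁻¹ * (h * a.2⁻¹) * a.1 = a.2⁻¹ := by rw [← ha, cm]; group
      refine ⟨fun c => h1 ?_, ?_⟩
      · rw [← ha, cm, Subgroup.mem_center_iff.1 c a.1]
        group
      · have e1 := tr_conj (h * a.2⁻¹) a.1
        rw [e] at e1
        simp only [mul2] at e1
        linear_combination -e1)
    fun b hb => (fib_le h b).trans (count3 hb.1)
  have h4 := card_mono (X := SL(2, F)) fun x (hx : x ∉ Subgroup.center SL(2, F) ∧
    (h.1 0 0 - 1) * x.1 0 0 + h.1 0 1 * x.1 1 0 +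
      (h.1 1 0 * x.1 0 1 + (h.1 1 1 - 1) * x.1 1 1) = 0) => hx.2
  have h5 := Nat.mul_le_mul_left (Nat.card F) h4
  nlinarith

theorem card_center : Nat.card {x : SL(2, F) // x ∈ Subgroup.center SL(2, F)} ≤ 2 := by
  classical
  have := Fintype.ofFinite SL(2, F)
  rw [Nat.card_eq_fintype_card, Fintype.card_subtype]
  refine le_trans (card_le_card (t := {1, -1}) fun x hx => ?_) card_le_two
  simpa [center_iff] using hx

theorem count6 :
    Nat.card {a : SL(2, F) × SL(2, F) // cm a = 1} ≤ 3 * Nat.card F * Nat.card SL(2, F) := by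
  classical
  have h1 := card_le_fib (fun a : SL(2, F) × SL(2, F) => cm a = 1 ∧ a.2⁻¹ ∈ Subgroup.center _)
    (fun x => x ∈ Subgroup.center SL(2, F)) (fun a => a.2⁻¹) (Nat.card SL(2, F)) (fun _ h => h.2)
    fun b _ => ((card_mono fun a ha => ⟨ha.1.1, ha.2⟩).trans (fib_le 1 b)).trans
      (Finite.card_subtype_le _)
  have h2 := card_le_fib (fun a : SL(2, F) × SL(2, F) => cm a = 1 ∧ a.2⁻¹ ∉ Subgroup.center _)
    (fun x => x ∉ Subgroup.center SL(2, F)) (fun a => a.2⁻¹) (2 * Nat.card F) (fun _ h => h.2)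
    fun b hb => ((card_mono fun a ha => ⟨ha.1.1, ha.2⟩).trans (fib_le 1 b)).trans (count3 hb)
  have h3 : Nat.card {a : SL(2, F) × SL(2, F) // cm a = 1} =
      Nat.card {a : SL(2, F) × SL(2, F) // cm a = 1 ∧ a.2⁻¹ ∈ Subgroup.center _} +
      Nat.card {a : SL(2, F) × SL(2, F) // cm a = 1 ∧ a.2⁻¹ ∉ Subgroup.center _} := by
    have := Fintype.ofFinite (SL(2, F) × SL(2, F))
    simp only [Nat.card_eq_fintype_card, Fintype.card_subtype, ← filter_filter]
    exact (card_filter_add_card_filter_not _).symm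
  have h4 := Nat.mul_le_mul_left (Nat.card SL(2, F)) (card_center (F := F))
  have h5 := Nat.mul_le_mul_left (2 * Nat.card F)
    (Finite.card_subtype_le fun x => x ∉ Subgroup.center SL(2, F))
  have h6 := Nat.mul_le_mul_right (Nat.card SL(2, F)) (Finite.one_lt_card (α := F))
  nlinarith

end Field

variable {p : ℕ} [Fact p.Prime]

theorem count4 {a : SLp p} (h1 : trc a ≠ 2) (h2 : trc a ≠ -2) :
    Nat.card {x : SLp p // x * a = a * x} < 2 * p := by
  have ha : a ∉ Subgroup.center (SLp p) := fun c => by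
    rcases (center_iff (F := ZMod p) a).1 c with rfl | rfl
    · exact h1 (by simp [trc]; norm_num)
    · exact h2 (by simp [trc]; norm_num)
  have h3 := count3 (F := ZMod p) ha
  rw [Nat.card_zmod] at h3
  refine lt_of_le_of_ne h3 fun e => ?_
  have e1 : Nat.card (Subgroup.centralizer {a}) = 2 * p :=
    (Nat.card_congr (Equiv.subtypeEquivRight fun _ =>
      Subgroup.mem_centralizer_singleton_iff)).trans e
  obtain ⟨g, hg⟩ := exists_prime_orderOf_dvd_card' (G := Subgroup.centralizer {a}) p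
    (e1 ▸ Dvd.intro_left 2 rfl)
  rw [← Subgroup.orderOf_coe] at hg
  obtain ⟨x, s, hs, e⟩ := conj_of_order (a := g.1)
    (by have := pow_orderOf_eq_one g.1; rwa [hg] at this) fun c => by
    rw [c, orderOf_one] at hg
    exact (Fact.out : p.Prime).ne_one hg.symm
  have h4 := comm_up (a := x⁻¹ * a * x) hs (by
    rw [← e]
    calc x⁻¹ * a * x * (x⁻¹ * g.1 * x) = x⁻¹ * (a * g.1) * x := by group
      _ = _ := by rw [← Subgroup.mem_centralizer_singleton_iff.1 g.2]; group)
  rw [tr_conj] at h4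
  exact h4.elim h1 h2

end D3

open D3 in
theorem rowD3 (h : RowD1) : RowD3 := fun p _ hp => by
  refine ⟨fun τ => ?_, fun a ha => ?_, fun h h1 => (count5 (F := ZMod p) h1).trans
    (Nat.mul_le_mul_right _ (by norm_num)), ?_⟩
  · have h1 := count_lin (F := ZMod p) (r := 1) (t := 0) (r' := 0) (t' := 1)
      (Or.inl (Or.inl one_ne_zero)) τ
    simp only [Nat.card_zmod, one_mul, zero_mul, add_zero, zero_add] at h1
    rw [(h p hp).1, mul_left_comm] at h1
    exact (Nat.le_of_mul_le_mul_left h1 (by omega)).trans (by omega)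
  · simpa only [Nat.card_zmod] using count3 (F := ZMod p) ha
  · simpa only [Nat.card_zmod] using count6 (F := ZMod p)

end Vale.Agent.Q258D
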