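import Vale.Agent.Q258D.D3
import Mathlib.NumberTheory.LegendreSymbol.Basic

/-!
# Row D4: twists move labels in `SL(2, p)`; subdirect products in the square
-/

set_option linter.all false

namespace Vale.Agent.Q258D

namespace D4

open Matrix D1 D3
open scoped MatrixGroups

section Field

variable {F : Type} [Field F]

theorem neg_ent (a : SL(2, F)) (i j : Fin 2) : (-a).1 i j = -a.1 i j := rfl

theorem ent_center {a : SL(2, F)} (h : a ∈ Subgroup.center SL(2, F)) :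
    a.1 0 1 = 0 ∧ a.1 1 0 = 0 ∧ a.1 1 1 = a.1 0 0 := by
  rcases (center_iff a).1 h with rfl | rfl
  · exact ⟨rfl, rfl, rfl⟩
  · simp only [neg_ent, one_ent, neg_zero, and_self]

theorem lo_pow (s : F) (n : ℕ) : lo s ^ n = lo (n * s) := by
  induction n with
  | zero =>
    rw [pow_zero, Nat.cast_zero, zero_mul]
    exact ext2 rfl rfl rfl rfl
  | succ n ih =>
    rw [pow_succ, ih]
    apply ext2 <;> simp only [mul2, lo, mk4_ent] <;> push_cast <;> ring

theorem tr_zero {a : SL(2, F)} (h1 : a ∉ Subgroup.center SL(2, F))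
    (h2 : a * a ∈ Subgroup.center SL(2, F)) : a.1 0 0 + a.1 1 1 = 0 := by
  by_contra c
  obtain ⟨e1, e2, e3⟩ := ent_center h2
  simp only [mul2] at e1 e2 e3
  exact h1 (central_of (mul_left_cancel₀ c (by linear_combination e1))
    (mul_left_cancel₀ c (by linear_combination e2))
    (mul_left_cancel₀ c (by linear_combination e3)))

/-- a conjugate of a given element in a convenient position -/
theorem exists_good [Finite F] {i : F} (hi : i * i = -1) {a : SL(2, F)}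
    (ha : a ∉ Subgroup.center SL(2, F)) :
    ∃ b r, IsConj a b ∧ r ≠ 0 ∧ b * up (-r) * b = -up r := by
  obtain ⟨y, hy⟩ := exists_conj ha
  have hc : IsConj a (y⁻¹ * a * y) := isConj_iff.2 ⟨y⁻¹, by rw [inv_inv]⟩
  generalize y⁻¹ * a * y = b at hy hc
  have hd := det2 b
  by_cases c : b.1 0 0 + b.1 1 1 = 0
  · have c' : b.1 1 1 = -b.1 0 0 := by linear_combination c
    refine ⟨mk4 i (-(b.1 1 0)⁻¹) 0 (-i) (by linear_combination -hi), 1, hc.trans ?_,
      one_ne_zero, ?_⟩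
    · refine (isConj_iff.2 ⟨mk4 (i - b.1 1 1) (-(b.1 1 0)⁻¹) (b.1 1 0) 0 (by simp [hy]), ?_⟩).symm
      rw [mul_inv_eq_iff_eq_mul]
      rw [c'] at hd
      apply ext2 <;> simp only [mul2, mk4_ent, c']
      · linear_combination hi + hd
      · ring
      · ring
      · ring
    · apply ext2 <;> simp only [mul2, up, mk4_ent, neg_ent]
      · linear_combination hi
      · linear_combination hi
      · ring
      · linear_combination hi
  · refine ⟨b, (b.1 0 0 + b.1 1 1) / b.1 1 0, hc, div_ne_zero c hy, ?_⟩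
    apply ext2 <;> simp only [mul2, up, mk4_ent, neg_ent] <;> field_simp
    · linear_combination -hd
    · linear_combination -(b.1 0 0 + b.1 1 1) * hd
    · ring
    · linear_combination -hd

theorem moved (h2 : (2 : F) ≠ 0) {b : SL(2, F)} {r : F} (hr : r ≠ 0)
    (h : b * up (-r) * b = -up r) {M : ℕ} (hM : (M : F) ≠ 0) :
    b⁻¹ * ((up r * b * (up r)⁻¹ * b) ^ M * b * ((up r * b * (up r)⁻¹ * b) ^ M)⁻¹) ∉
      Subgroup.center SL(2, F) := by
  have e : up r * b * (up r)⁻¹ * b = -up (r + r) := by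
    rw [inv_up, up_add, ← mul_neg, ← h]
    simp only [mul_assoc]
  have hs : M * (r + r) ≠ 0 := mul_ne_zero hM (by rw [← two_mul]; exact mul_ne_zero h2 hr)
  have e2 : (-up (r + r)) ^ M * b * ((-up (r + r)) ^ M)⁻¹ =
      up (M * (r + r)) * b * (up (M * (r + r)))⁻¹ := by
    rcases M.even_or_odd with c | c
    · rw [c.neg_pow, up_pow]
    · rw [c.neg_pow, up_pow, inv_neg, neg_mul, neg_mul_neg]
  rw [e, e2]
  generalize M * (r + r) = s at hs
  intro c
  have hd := det2 b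
  have h0 := congrArg (fun x : SL(2, F) => x.1 0 0) h
  rcases (center_iff _).1 c with c | c
  · rw [inv_mul_eq_one, eq_mul_inv_iff_mul_eq] at c
    have c0 := congrArg (fun x : SL(2, F) => x.1 0 0) c
    have c1 := congrArg (fun x : SL(2, F) => x.1 0 1) c
    simp only [mul2, up, mk4_ent, neg_ent] at c0 c1 h0
    have d0 : b.1 1 0 = 0 := mul_left_cancel₀ hs (by linear_combination -c0)
    have d1 : b.1 1 1 = b.1 0 0 := mul_left_cancel₀ hs (by linear_combination -c1)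
    rw [d0] at h0
    rw [d0, d1] at hd
    exact h2 (by linear_combination h0 - hd)
  · rw [inv_mul_eq_iff_eq_mul, mul_inv_eq_iff_eq_mul] at c
    have c0 := congrArg (fun x : SL(2, F) => x.1 0 0) c
    have c1 := congrArg (fun x : SL(2, F) => x.1 1 0) c
    simp only [mul2, up, mk4_ent, neg_ent, one_ent] at c0 c1
    have d0 : b.1 1 0 = 0 := mul_left_cancel₀ h2 (by linear_combination c1)
    rw [d0] at c0 hd
    have d1 : b.1 0 0 = 0 := mul_left_cancel₀ h2 (by linear_combination c0)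
    rw [d1] at hd
    exact one_ne_zero (by linear_combination -hd : (1 : F) = 0)

theorem mov [Finite F] (h2 : (2 : F) ≠ 0) (h4 : (2 : F) ^ 2 ≠ 1) {i : F} (hi : i * i = -1) {M : ℕ}
    (hM : (M : F) ≠ 0) : Mov SL(2, F) M := by
  intro Y hY
  have h1 : ∃ y ∈ Y, y ∉ Subgroup.center SL(2, F) := by
    by_contra c
    push Not at c
    have := Subgroup.normalClosure_le_normal (N := Subgroup.center SL(2, F)) c
    rw [hY] at this
    exact one_ne_zero (ent_center (this (Subgroup.mem_top (up (1 : F))))).1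
  obtain ⟨y, hy, h1⟩ := h1
  obtain ⟨b, r, hb, hr, e⟩ := exists_good hi h1
  refine (normal_cases h2 h4 _ Subgroup.normalClosure_normal).resolve_right fun c => ?_
  exact moved h2 hr e hM (c (Subgroup.subset_normalClosure
    ⟨y, hy, b, _, hb, hb.trans (isConj_iff.2 ⟨up r, rfl⟩), rfl⟩))

end Field

section Group

variable {H : Type} [Group H]

/-- subdirect products that respect the centre -/
def Sub (K : Subgroup (H × H)) : Prop :=
  (∀ a, ∃ b, (a, b) ∈ K) ∧ (∀ b, ∃ a, (a, b) ∈ K) ∧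
    ∀ a b, (a, b) ∈ K → (a ∈ Subgroup.center H ↔ b ∈ Subgroup.center H)

theorem one_side (hc : commutator H = ⊤)
    (hn : ∀ K : Subgroup H, K.Normal → K = ⊤ ∨ K ≤ Subgroup.center H)
    {K : Subgroup (H × H)} (hK : K ≠ ⊤) (h1 : ∀ a, ∃ b, (a, b) ∈ K) (h2 : ∀ b, ∃ a, (a, b) ∈ K)
    {a b : H} (h : (a, b) ∈ K) (ha : a ∈ Subgroup.center H) : b ∈ Subgroup.center H := by
  let N : Subgroup H := (K ⊓ (Subgroup.center H).comap (MonoidHom.fst H H)).map (MonoidHom.snd H H)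
  have hN : N.Normal := ⟨by
    rintro _ ⟨⟨x, y⟩, ⟨m1, m2⟩, rfl⟩ g
    obtain ⟨f, hf⟩ := h2 g
    exact ⟨(f, g) * (x, y) * (f, g)⁻¹, ⟨K.mul_mem (K.mul_mem hf m1) (K.inv_mem hf),
      (Subgroup.normal_of_characteristic (Subgroup.center H)).conj_mem _ m2 f⟩, rfl⟩⟩
  rcases hn N hN with c | c
  · refine absurd ?_ hK
    have h3 : commutator H ≤ K.comap (MonoidHom.inr H H) := by
      rw [commutator_def, Subgroup.commutator_le]
      intro y _ g _
      obtain ⟨⟨x, _⟩, ⟨m1, m2⟩, rfl⟩ : y ∈ N := c ▸ Subgroup.mem_top y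
      obtain ⟨f, hf⟩ := h2 g
      have m := K.mul_mem (K.mul_mem (K.mul_mem m1 hf) (K.inv_mem m1)) (K.inv_mem hf)
      have e : x * f * x⁻¹ * f⁻¹ = 1 := by
        rw [← (show f * x = x * f from Subgroup.mem_center_iff.1 m2 f)]
        group
      rw [Subgroup.mem_comap]
      convert m using 1
      exact Prod.ext e.symm rfl
    refine eq_top_iff.2 fun x _ => ?_
    obtain ⟨y, hy⟩ := h1 x.1
    have m : (1, y⁻¹ * x.2) ∈ K := h3 (hc ▸ Subgroup.mem_top (y⁻¹ * x.2))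
    convert K.mul_mem hy m using 1
    exact Prod.ext (mul_one _).symm (mul_inv_cancel_left _ _).symm
  · exact c ⟨(a, b), ⟨h, ha⟩, rfl⟩

theorem sub_of (hc : commutator H = ⊤)
    (hn : ∀ K : Subgroup H, K.Normal → K = ⊤ ∨ K ≤ Subgroup.center H)
    {K : Subgroup (H × H)} (hK : K ≠ ⊤) (h1 : ∀ a, ∃ b, (a, b) ∈ K) (h2 : ∀ b, ∃ a, (a, b) ∈ K) :
    Sub K := by
  refine ⟨h1, h2, fun a b h => ⟨one_side hc hn hK h1 h2 h, fun hb => ?_⟩⟩
  refine one_side hc hn (K := K.comap (MulEquiv.prodComm : H × H ≃* H × H).toMonoidHom)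
    (fun c => hK (eq_top_iff.2 fun x _ => ?_)) h2 h1 (a := b) (b := a) h hb
  have : (x.2, x.1) ∈ K.comap (MulEquiv.prodComm : H × H ≃* H × H).toMonoidHom :=
    c ▸ Subgroup.mem_top _
  exact this

end Group

variable {p : ℕ} [Fact p.Prime]

theorem sign (hp : 5 ≤ p) {K : Subgroup (SLp p × SLp p)} (hK : Sub K) {a : SLp p}
    (ha : a ^ p = 1) : ∃ A, (a, A) ∈ K ∧ trc A = 2 := by
  obtain ⟨A, hA⟩ := hK.1 a
  have h1 : (a ^ p, A ^ p) ∈ K := K.pow_mem hA p
  have h2 := (hK.2.2 _ _ h1).1 (ha ▸ Subgroup.one_mem _)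
  have ho : Even (p + 1) := ((Fact.out : p.Prime).odd_of_ne_two (by omega)).add_one
  refine ⟨A ^ (p + 1), ?_, trc_of_pow ?_⟩
  · have h3 : (a ^ (p + 1), A ^ (p + 1)) ∈ K := K.pow_mem hA (p + 1)
    rwa [pow_succ, ha, one_mul] at h3
  · rw [← pow_mul, mul_comm, pow_mul]
    rcases (center_iff (F := ZMod p) _).1 h2 with c | c <;> rw [c]
    · exact one_pow _
    · exact ho.neg_one_pow

theorem gens (hp : 5 ≤ p) {K : Subgroup (SLp p × SLp p)} (hK : Sub K) :
    ∃ A B : SLp p, (up 1, A) ∈ K ∧ (lo (-1), B) ∈ K ∧ trc A = 2 ∧ trc B = 2 ∧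
      trc (A * A * B) = 0 := by
  obtain ⟨A, hA, tA⟩ := sign hp hK (a := up 1)
    (by rw [up_pow, ZMod.natCast_self, zero_mul, up_zero])
  obtain ⟨B, hB, tB⟩ := sign hp hK (a := lo (-1))
    (by rw [lo_pow, ZMod.natCast_self, zero_mul]; exact ext2 rfl rfl rfl rfl)
  refine ⟨A, B, hA, hB, tA, tB, ?_⟩
  have h1 : (up 1 * up 1 * lo (-1), A * A * B) ∈ K := K.mul_mem (K.mul_mem hA hA) hB
  have h2 : (up 1 * up 1 * lo (-1) * (up 1 * up 1 * lo (-1)), A * A * B * (A * A * B)) ∈ K :=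
    K.mul_mem h1 h1
  refine tr_zero (F := ZMod p) (fun c => ?_) ((hK.2.2 _ _ h2).1 (central_of ?_ ?_ ?_))
  · have := (ent_center (F := ZMod p) ((hK.2.2 _ _ h1).2 c)).2.1
    simp [mul2, up, lo, mk4_ent] at this
  all_goals
    simp only [mul2, up, lo, mk4_ent]
    ring

theorem le_of {K K' : Subgroup (SLp p × SLp p)} (hK : Sub K) {A B : SLp p} (h1 : (up 1, A) ∈ K)
    (h2 : (lo (-1), B) ∈ K) (h1' : (up 1, A) ∈ K') (h2' : (lo (-1), B) ∈ K')
    (h : (1, -1) ∈ K → (1, -1) ∈ K') : K ≤ K' := by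
  have h3 : (K ⊓ K').map (MonoidHom.fst _ _) = ⊤ := by
    refine eq_top_of_up (F := ZMod p) (fun s => ?_) (a := lo (-1)) ⟨_, ⟨h2, h2'⟩, rfl⟩
      (neg_ne_zero.2 one_ne_zero)
    have m : up 1 ∈ (K ⊓ K').map (MonoidHom.fst _ _) := ⟨_, ⟨h1, h1'⟩, rfl⟩
    have := Subgroup.pow_mem _ m s.val
    rwa [up_pow, ZMod.natCast_zmod_val, mul_one] at this
  rintro ⟨a, b⟩ hx
  obtain ⟨⟨_, y⟩, ⟨m, m'⟩, rfl⟩ : a ∈ (K ⊓ K').map (MonoidHom.fst _ _) := h3 ▸ Subgroup.mem_top _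
  have m1 := K.mul_mem (K.inv_mem m) hx
  simp only [Prod.inv_mk, Prod.mk_mul_mk, MonoidHom.coe_fst, inv_mul_cancel] at m1 ⊢
  rcases (center_iff (F := ZMod p) _).1 ((hK.2.2 _ _ m1).1 (Subgroup.one_mem _)) with c | c
  · rwa [← inv_mul_eq_one.1 c]
  · rw [c] at m1
    have m2 := K'.mul_mem m' (h m1)
    rwa [Prod.mk_mul_mk, mul_one, ← c, mul_inv_cancel_left] at m2

theorem det_B (hp : 5 ≤ p) {A B B' x : SLp p} {s : ZMod p} (hx : x⁻¹ * A * x = up s)
    (t : trc B = 2) (t' : trc B' = 2) (u : trc (A * A * B) = 0) (u' : trc (A * A * B') = 0)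
    (e : (x⁻¹ * B * x).1 0 0 = (x⁻¹ * B' * x).1 0 0) : B = B' := by
  have k : ∀ C : SLp p, trc C = 2 → trc (A * A * C) = 0 →
      (x⁻¹ * C * x).1 0 0 + (x⁻¹ * C * x).1 1 1 = 2 ∧ s * (x⁻¹ * C * x).1 1 0 = -1 := by
    intro C c1 c2
    have c3 := (tr_conj (F := ZMod p) C x).trans c1
    have c4 := (tr_conj (F := ZMod p) (A * A * C) x).trans c2
    rw [show x⁻¹ * (A * A * C) * x = x⁻¹ * A * x * (x⁻¹ * A * x) * (x⁻¹ * C * x) by group, hx] at c4
    generalize x⁻¹ * C * x = D at c3 c4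
    simp only [mul2, up, mk4_ent] at c4
    exact ⟨c3, mul_left_cancel₀ (two_ok hp).1 (by linear_combination c4 - c3)⟩
  obtain ⟨a1, a2⟩ := k B t u
  obtain ⟨b1, b2⟩ := k B' t' u'
  have d1 := det2 (F := ZMod p) (x⁻¹ * B * x)
  have d2 := det2 (F := ZMod p) (x⁻¹ * B' * x)
  have hs : s ≠ 0 := fun c => by
    rw [c, zero_mul] at a2
    exact one_ne_zero (neg_eq_zero.1 a2.symm)
  have e2 : (x⁻¹ * B * x).1 1 0 = (x⁻¹ * B' * x).1 1 0 := mul_left_cancel₀ hs (a2.trans b2.symm)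
  have e3 : (x⁻¹ * B * x).1 1 1 = (x⁻¹ * B' * x).1 1 1 := by linear_combination a1 - b1 - e
  have e1 : (x⁻¹ * B * x).1 0 1 = (x⁻¹ * B' * x).1 0 1 := by
    rw [e, e2, e3] at d1
    linear_combination s * (d1 - d2) + ((x⁻¹ * B * x).1 0 1 - (x⁻¹ * B' * x).1 0 1) * b2
  exact mul_left_cancel (mul_right_cancel (ext2 (F := ZMod p) e e1 e2 e3))

theorem count (hp : 5 ≤ p) : Nat.card {K : Subgroup (SLp p × SLp p) // Sub K} ≤
    Nat.card {x : SLp p // trc x = 2} * (p * 2) := by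
  choose A B hA hB tA tB tW using fun K : {K : Subgroup (SLp p × SLp p) // Sub K} => gens hp K.2
  choose x s hx using fun a : {x : SLp p // trc x = 2} => conj_up (F := ZMod p) (a := a.1) a.2
  have := Nat.card_le_card_of_injective (fun K : {K : Subgroup (SLp p × SLp p) // Sub K} =>
    (((⟨A K, tA K⟩, ((x ⟨A K, tA K⟩)⁻¹ * B K * x ⟨A K, tA K⟩).1 0 0, (1, -1) ∈ K.1)) :
      {x : SLp p // trc x = 2} × ZMod p × Prop)) fun K K' e => by
    simp only [Prod.mk.injEq, eq_iff_iff] at e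
    obtain ⟨e1, e2, e3⟩ := e
    rw [← e1] at e2
    have e4 : A K = A K' := congrArg Subtype.val e1
    have e5 : B K = B K' := det_B hp (A := A K) (hx ⟨A K, tA K⟩) (tB K) (tB K') (tW K)
      (by rw [e4]; exact tW K') e2
    exact Subtype.ext (le_antisymm
      (le_of K.2 (hA K) (hB K) (e4 ▸ hA K') (e5 ▸ hB K') e3.1)
      (le_of K'.2 (hA K') (hB K') (e4 ▸ hA K) (e5 ▸ hB K) e3.2))
  rwa [Nat.card_prod, Nat.card_prod, Nat.card_zmod, Nat.card_eq_fintype_card (α := Prop),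
    Fintype.card_prop] at this

end D4

open D1 D4 in
theorem rowD4 (h1 : RowD1) (h3 : RowD3) : RowD4 := by
  refine ⟨fun p _ hp h4 M hM => ?_, 5, fun p _ hp => ?_⟩
  · obtain ⟨i, hi⟩ := ZMod.exists_sq_eq_neg_one_iff.2 (show p % 4 ≠ 3 by omega)
    exact mov (F := ZMod p) (two_ok hp).1 (two_ok hp).2 hi.symm
      fun c => hM ((ZMod.natCast_eq_zero_iff M p).1 c)
  · classical
    have := Fintype.ofFinite (Subgroup (SLp p × SLp p))
    refine ⟨Finset.univ.filter Sub, ⟨fun K hK => (Finset.mem_filter.1 hK).2, fun K hK a b =>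
      ⟨K, Finset.mem_filter.2 ⟨Finset.mem_univ _,
        sub_of (h1 p hp).2.2.2.2.1 (h1 p hp).2.2.2.1 hK a b⟩, le_rfl⟩⟩, ?_⟩
    rw [← Fintype.card_subtype, ← Nat.card_eq_fintype_card, (h1 p hp).1]
    refine (count hp).trans ((Nat.mul_le_mul_right _ ((h3 p hp).1 2)).trans ?_)
    obtain ⟨q, hq⟩ : ∃ q, p ^ 2 = q + 1 := ⟨p ^ 2 - 1, by
      have : 0 < p ^ 2 := by positivity
      omega⟩
    have h5 : 4 ≤ q := by nlinarith
    rw [hq, Nat.add_sub_cancel]
    nlinarith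

end Vale.Agent.Q258D
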