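import Vale.Agent.Q258D.Rows

/-!
# Upper bounds for the numbers of markings in `SL(2, p)`
-/

namespace Vale.Agent.Q258D

namespace D5

theorem card_mono {α : Type} [Finite α] {P Q : α → Prop} (h : ∀ x, P x → Q x) :
    Nat.card {x // P x} ≤ Nat.card {x // Q x} :=
  Nat.card_le_card_of_injective (fun x => (⟨x.1, h _ x.2⟩ : {x // Q x}))
    fun _ _ e => Subtype.ext (congrArg Subtype.val e :)

theorem card_or {α : Type} [Finite α] (P Q : α → Prop) :
    Nat.card {x // P x ∨ Q x} ≤ Nat.card {x // P x} + Nat.card {x // Q x} :=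
  Set.ncard_union_le {x | P x} {x | Q x}

theorem card_le {α : Type} [Finite α] (P : α → Prop) : Nat.card {x // P x} ≤ Nat.card α :=
  Nat.card_le_card_of_injective _ Subtype.val_injective

theorem card_prod {α β : Type} [Finite α] [Finite β] (P : α × β → Prop) (A : α → Prop) (n : ℕ)
    (h1 : ∀ x, P x → A x.1) (h2 : ∀ a, A a → Nat.card {b // P (a, b)} ≤ n) :
    Nat.card {x // P x} ≤ Nat.card {a // A a} * n := by
  classical
  have := Fintype.ofFinite {a // A a}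
  have e : Nat.card {x // P x} ≤ Nat.card (Σ a : {a // A a}, {b // P (a.1, b)}) := by
    refine Nat.card_le_card_of_surjective
      (fun y : Σ a : {a // A a}, {b // P (a.1, b)} => (⟨(y.1.1, y.2.1), y.2.2⟩ : {x // P x})) ?_
    rintro ⟨⟨a, b⟩, h⟩
    exact ⟨⟨⟨a, h1 _ h⟩, ⟨b, h⟩⟩, rfl⟩
  refine e.trans ?_
  rw [Nat.card_sigma, Nat.card_eq_fintype_card, ← Finset.card_univ, ← smul_eq_mul]
  exact Finset.sum_le_card_nsmul _ _ _ fun a _ => h2 a.1 a.2

theorem card_ex {α β : Type} [Finite α] [Finite β] (P : α → β → Prop) (n : ℕ)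
    (h : ∀ a, Nat.card {b // P a b} ≤ n) : Nat.card {b // ∃ a, P a b} ≤ Nat.card α * n := by
  have e : Nat.card {b // ∃ a, P a b} ≤ Nat.card {x : α × β // P x.1 x.2} := by
    refine Nat.card_le_card_of_surjective
      (fun y : {x : α × β // P x.1 x.2} => (⟨y.1.2, y.1.1, y.2⟩ : {b // ∃ a, P a b})) ?_
    rintro ⟨b, a, h⟩
    exact ⟨⟨(a, b), h⟩, rfl⟩
  refine e.trans ((card_prod (fun x : α × β => P x.1 x.2) (fun _ => True) n (fun _ _ => trivial)
    fun a _ => h a).trans ?_)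
  exact Nat.mul_le_mul_right _ (card_le _)

section Grp

variable {H : Type} [Group H] [Finite H]

theorem quad (u v : ℕ) (huv : u ≤ v) (h1 : ∀ h : H, h ≠ 1 → Nat.card {a : H × H // cm a = h} ≤ u)
    (h2 : Nat.card {a : H × H // cm a = 1} ≤ v) (h : H) :
    Nat.card {q : (H × H) × (H × H) // cm q.1 * cm q.2 = h} ≤ Nat.card H ^ 2 * u + v * v := by
  have h3 : ∀ g : H, Nat.card {a : H × H // cm a = g} ≤ v := fun g => by
    by_cases hg : g = 1
    · exact hg ▸ h2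
    · exact (h1 g hg).trans huv
  refine (card_mono (Q := fun q : (H × H) × (H × H) =>
    (cm q.1 * cm q.2 = h ∧ cm q.1 ≠ h) ∨ (cm q.1 * cm q.2 = h ∧ cm q.1 = h)) ?_).trans
      ((card_or _ _).trans (Nat.add_le_add ?_ ?_))
  · intro q hq
    by_cases e : cm q.1 = h
    · exact Or.inr ⟨hq, e⟩
    · exact Or.inl ⟨hq, e⟩
  · refine (card_prod _ (fun a => cm a ≠ h) u (fun _ hx => hx.2) fun a ha => ?_).trans ?_
    · refine (card_mono (Q := fun b => cm b = (cm a)⁻¹ * h) fun b hb => ?_).trans (h1 _ ?_)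
      · exact eq_inv_mul_of_mul_eq hb.1
      · intro e
        exact ha (inv_mul_eq_one.1 e)
    · refine Nat.mul_le_mul_right _ ((card_le _).trans ?_)
      rw [Nat.card_prod, pow_two]
  · refine (card_prod _ (fun a => cm a = h) v (fun _ hx => hx.2) fun a _ => ?_).trans
      (Nat.mul_le_mul_right _ (h3 h))
    exact (card_mono (Q := fun b => cm b = (cm a)⁻¹ * h) fun b hb =>
      eq_inv_mul_of_mul_eq hb.1).trans (h3 _)

theorem coset (c z : H) :
    Nat.card {l : H // c⁻¹ * l * c * l⁻¹ = z} ≤ Nat.card {x : H // x * c = c * x} := by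
  by_cases hne : ∃ l0 : H, c⁻¹ * l0 * c * l0⁻¹ = z
  · obtain ⟨l0, h0⟩ := hne
    refine Nat.card_le_card_of_injective
      (fun l : {l : H // c⁻¹ * l * c * l⁻¹ = z} =>
        (⟨l0⁻¹ * l.1, ?_⟩ : {x : H // x * c = c * x})) fun a b e => ?_
    · have e := l.2.trans h0.symm
      have e1 : l.1 * c = l0 * c * l0⁻¹ * l.1 := by
        have e2 : l.1 * c = c * (c⁻¹ * l.1 * c * l.1⁻¹) * l.1 := by group
        rw [e2, e]
        group
      rw [mul_assoc, e1]
      group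
    · exact Subtype.ext (mul_left_cancel (congrArg Subtype.val e :))
  · have : IsEmpty {l : H // c⁻¹ * l * c * l⁻¹ = z} := ⟨fun l => hne ⟨l.1, l.2⟩⟩
    rw [Nat.card_of_isEmpty]
    exact Nat.zero_le _

omit [Group H] in
theorem four (S : H → Prop) (n : ℕ) (h : Nat.card {l // S l} ≤ n) :
    Nat.card {q : (H × H) × (H × H) // ∀ l ∈ [q.1.1, q.1.2, q.2.1, q.2.2], S l} ≤ n ^ 4 := by
  have h2 : Nat.card {a : H × H // S a.1 ∧ S a.2} ≤ n * n :=
    (card_prod _ S n (fun _ hx => hx.1) fun _ _ =>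
      (card_mono fun _ hb => hb.2).trans h).trans (Nat.mul_le_mul_right _ h)
  refine (card_prod _ (fun a : H × H => S a.1 ∧ S a.2) (n * n) (fun x hx => ?_)
    fun a _ => ?_).trans ?_
  · exact ⟨hx _ (by simp), hx _ (by simp)⟩
  · exact (card_mono fun b hb => ⟨hb _ (by simp), hb _ (by simp)⟩).trans h2
  · exact (Nat.mul_le_mul_right _ h2).trans (le_of_eq (by ring))

end Grp

section SL

variable {p : ℕ} [Fact p.Prime]

theorem mul2 (a b : SLp p) (i j : Fin 2) :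
    (a * b).1 i j = a.1 i 0 * b.1 0 j + a.1 i 1 * b.1 1 j := by
  show (a.1 * b.1) i j = _
  rw [Matrix.mul_apply, Fin.sum_univ_two]

theorem trace_of (t : SLp p) (h : t ^ 4 = 1 ∨ t ^ 4 = -1) :
    trc t = 0 ∨ trc t ^ 2 = 2 ∨ trc t = 2 ∨ trc t = -2 := by
  have hd : t.1 0 0 * t.1 1 1 - t.1 0 1 * t.1 1 0 = 1 := by
    rw [← Matrix.det_fin_two]
    exact t.2
  have e4 : t ^ 4 = t * t * (t * t) := by
    rw [show (4 : ℕ) = 2 + 2 from rfl, pow_add, pow_two]
  have k : (t ^ 4).1 0 1 = 0 ∧ (t ^ 4).1 1 0 = 0 ∧ (t ^ 4).1 0 0 = (t ^ 4).1 1 1 := by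
    rcases h with h | h <;> rw [h]
    · exact ⟨rfl, rfl, rfl⟩
    · exact ⟨neg_zero, neg_zero, rfl⟩
  rw [e4] at k
  simp only [mul2] at k
  obtain ⟨k1, k2, k3⟩ := k
  unfold trc
  generalize t.1 0 0 = a at *
  generalize t.1 0 1 = b at *
  generalize t.1 1 0 = c at *
  generalize t.1 1 1 = d at *
  by_cases h0 : a + d = 0
  · exact Or.inl h0
  by_cases h2 : (a + d) ^ 2 = 2
  · exact Or.inr (Or.inl h2)
  have hn : (a + d) * ((a + d) ^ 2 - 2) ≠ 0 := mul_ne_zero h0 (sub_ne_zero.2 h2)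
  have hb : b = 0 := by
    refine (mul_eq_zero.1 ?_).resolve_left hn
    linear_combination k1 + 2 * b * (a + d) * hd
  have hc : c = 0 := by
    refine (mul_eq_zero.1 ?_).resolve_left hn
    linear_combination k2 + 2 * c * (a + d) * hd
  have ha : a - d = 0 := by
    refine (mul_eq_zero.1 ?_).resolve_left hn
    linear_combination k3 + 2 * (a - d) * (a + d) * hd
  right
  right
  have h4 : (a + d - 2) * (a + d + 2) = 0 := by
    rw [hb] at hd
    linear_combination 4 * hd + (a - d) * ha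
  rcases mul_eq_zero.1 h4 with h | h
  · exact Or.inl (sub_eq_zero.1 h)
  · exact Or.inr (eq_neg_of_add_eq_zero_left h)

theorem card_four (h : ∀ τ : ZMod p, Nat.card {x : SLp p // trc x = τ} ≤ 2 * p ^ 2) :
    Nat.card {t : SLp p // t ^ 4 = 1 ∨ t ^ 4 = -1} ≤ 10 * p ^ 2 := by
  obtain ⟨r, hr⟩ : ∃ r : ZMod p, ∀ τ : ZMod p, τ ^ 2 = 2 → τ = r ∨ τ = -r := by
    by_cases e : ∃ r : ZMod p, r ^ 2 = 2
    · obtain ⟨r, hr⟩ := e
      exact ⟨r, fun τ hτ => sq_eq_sq_iff_eq_or_eq_neg.1 (hτ.trans hr.symm)⟩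
    · exact ⟨0, fun τ hτ => absurd ⟨τ, hτ⟩ e⟩
  refine (card_mono (Q := fun t : SLp p => trc t = 0 ∨ (trc t = r ∨ trc t = -r) ∨
    trc t = 2 ∨ trc t = -2) fun t ht => ?_).trans ?_
  · exact (trace_of t ht).imp_right (Or.imp_left (hr _))
  · have e1 := card_or (fun t : SLp p => trc t = 0)
      fun t => (trc t = r ∨ trc t = -r) ∨ trc t = 2 ∨ trc t = -2
    have e2 := card_or (fun t : SLp p => trc t = r ∨ trc t = -r) fun t => trc t = 2 ∨ trc t = -2
    have e3 := card_or (fun t : SLp p => trc t = r) fun t => trc t = -r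
    have e4 := card_or (fun t : SLp p => trc t = 2) fun t => trc t = -2
    have a1 := h 0
    have a2 := h r
    have a3 := h (-r)
    have a4 := h 2
    have a5 := h (-2)
    omega

end SL

end D5

open D5 in
theorem rowD5 (h1 : RowD1) (h3 : RowD3) : RowD5 := by
  refine ⟨852, fun p _ hp s _ => ?_⟩
  obtain ⟨hE, hZ, -⟩ := h1 p hp
  obtain ⟨c1, c2, c3, c4⟩ := h3 p hp
  generalize hn : Nat.card (SLp p) = E at *
  have hp2 : 25 ≤ p ^ 2 := by nlinarith
  obtain ⟨w, hw⟩ : ∃ w, p ^ 2 = w + 1 := ⟨p ^ 2 - 1, by omega⟩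
  rw [hw, Nat.add_sub_cancel] at hE
  have q3 : p * p ^ 2 ≤ 2 * E := by
    rw [hw, hE]
    nlinarith
  have q2 : p ^ 2 ≤ E := by
    rw [hw, hE]
    nlinarith
  have hq : ∀ h : SLp p, Nat.card {q : (SLp p × SLp p) × (SLp p × SLp p) //
      cm q.1 * cm q.2 = h} ≤ 17 * E ^ 3 := fun h => by
    refine (quad (8 * E) (3 * p * E) (Nat.mul_le_mul_right _ (by omega)) c3 c4 h).trans ?_
    rw [hn]
    have : p ^ 2 * E ^ 2 ≤ E * E ^ 2 := Nat.mul_le_mul_right _ q2
    nlinarith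
  have hf : ∀ t : SLp p, Nat.card {q : (SLp p × SLp p) × (SLp p × SLp p) //
      t ^ s * lam (t, q) = 1} ≤ 17 * E ^ 3 := fun t =>
    (card_mono fun q e => eq_inv_of_mul_eq_one_right e).trans (hq (t ^ s)⁻¹)
  constructor
  · refine (card_prod (fun m : Mk (SLp p) => m.1 ^ s * lam m = 1) (fun _ => True) _
      (fun _ _ => trivial) fun t _ => hf t).trans ?_
    refine (Nat.mul_le_mul_right _ (card_le _)).trans ?_
    rw [hn]
    nlinarith [Nat.zero_le (E ^ 4)]
  · have a1 : Nat.card {m : Mk (SLp p) // m.1 ^ s * lam m = 1 ∧ (m.1 ^ 4 = 1 ∨ m.1 ^ 4 = -1)} ≤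
        10 * p ^ 2 * (17 * E ^ 3) :=
      (card_prod _ (fun t : SLp p => t ^ 4 = 1 ∨ t ^ 4 = -1) _ (fun _ hx => hx.2) fun t _ =>
        (card_mono fun _ e => e.1).trans (hf t)).trans (Nat.mul_le_mul_right _ (card_four c1))
    have a2 : Nat.card {q : (SLp p × SLp p) × (SLp p × SLp p) // ∃ c : SLp p,
        c ∉ Subgroup.center (SLp p) ∧ ∀ l ∈ [q.1.1, q.1.2, q.2.1, q.2.2],
          c⁻¹ * l * c * l⁻¹ ∈ Subgroup.center (SLp p)} ≤ E * (4 * p) ^ 4 := by
      rw [← hn]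
      refine card_ex _ _ fun c => ?_
      by_cases hc : c ∈ Subgroup.center (SLp p)
      · have : IsEmpty {q : (SLp p × SLp p) × (SLp p × SLp p) //
            c ∉ Subgroup.center (SLp p) ∧ ∀ l ∈ [q.1.1, q.1.2, q.2.1, q.2.2],
              c⁻¹ * l * c * l⁻¹ ∈ Subgroup.center (SLp p)} := ⟨fun q => q.2.1 hc⟩
        rw [Nat.card_of_isEmpty]
        exact Nat.zero_le _
      · refine (card_mono fun q e => e.2).trans
          (four (fun l => c⁻¹ * l * c * l⁻¹ ∈ Subgroup.center (SLp p)) _ ?_)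
        refine (card_mono fun l e => (hZ _).1 e).trans ((card_or _ _).trans ?_)
        have b1 := (coset c 1).trans (c2 c hc)
        have b2 := (coset c (-1)).trans (c2 c hc)
        omega
    have a3 : Nat.card {m : Mk (SLp p) // ∃ c : SLp p,
        c ∉ Subgroup.center (SLp p) ∧ ∀ l ∈ [m.2.1.1, m.2.1.2, m.2.2.1, m.2.2.2],
          c⁻¹ * l * c * l⁻¹ ∈ Subgroup.center (SLp p)} ≤ E * (E * (4 * p) ^ 4) := by
      refine (card_prod _ (fun _ => True) _ (fun _ _ => trivial) fun _ _ => a2).trans ?_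
      exact Nat.mul_le_mul_right _ ((card_le _).trans hn.le)
    have a4 := (card_mono (P := fun m : Mk (SLp p) => m.1 ^ s * lam m = 1 ∧ ¬ Good m)
      (fun m hm => by
        by_cases e : m.1 ^ 4 ∈ Subgroup.center (SLp p)
        · exact Or.inl ⟨hm.1, (hZ _).1 e⟩
        · refine Or.inr ?_
          by_contra hcon
          exact hm.2 ⟨e, fun c hc => by_contra fun hc' => hcon ⟨c, hc', hc⟩⟩)).trans
      ((card_or _ _).trans (Nat.add_le_add a1 a3))
    refine (Nat.mul_le_mul_left p a4).trans ?_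
    have b1 : p * p ^ 2 * E ^ 3 ≤ 2 * E * E ^ 3 := Nat.mul_le_mul_right _ q3
    have b2 : p * p ^ 2 * p ^ 2 * E ^ 2 ≤ 2 * E * E * E ^ 2 :=
      Nat.mul_le_mul_right _ (Nat.mul_le_mul q3 q2)
    nlinarith

end Vale.Agent.Q258D
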