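import Vale.Agent.Q258D.Rows
import Mathlib.NumberTheory.LegendreSymbol.QuadraticChar.Basic
import Mathlib.Combinatorics.Enumerative.DoubleCounting

/-!
# Row D6: many good markings in `SL(2, p)`
-/

set_option linter.all false

namespace Vale.Agent.Q258D

namespace D6

open Matrix
open scoped MatrixGroups

/-! ### Good markings generate -/

theorem comm_of_ym {Q : Type} [Group Q] (m : Mk Q) (h : ∀ j, ym m j = 1) :
    ∀ l ∈ [m.2.1.1, m.2.1.2, m.2.2.1, m.2.2.2], Commute m.1 l := by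
  obtain ⟨t, ⟨a, b⟩, ⟨c, d⟩⟩ := m
  have key : ∀ g : Q, g⁻¹ * t * g = t → Commute t g := fun g hg => by
    have : t * g = g * (g⁻¹ * t * g) := by group
    rw [hg] at this
    exact this
  have key' : ∀ g : Q, Commute t g → g⁻¹ * t * g = t := fun g hg => by
    rw [mul_assoc, hg.eq]
    group
  have h0 : (a * b⁻¹ * a⁻¹)⁻¹ * t * (a * b⁻¹ * a⁻¹) = t := inv_mul_eq_one.1 (h 0)
  have h1 : (a * b⁻¹)⁻¹ * t * (a * b⁻¹) = t := (inv_mul_eq_one.1 (h 1)).trans h0
  have ca : Commute t a := by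
    have := (key _ h0).inv_right.mul_right (key _ h1)
    rwa [show (a * b⁻¹ * a⁻¹)⁻¹ * (a * b⁻¹) = a * (b * a⁻¹ * (a * b⁻¹)) by group,
      show b * a⁻¹ * (a * b⁻¹) = 1 by group, mul_one] at this
  have cb : Commute t b := by
    have := (key _ h1).inv_right.mul_right ca
    rwa [show (a * b⁻¹)⁻¹ * a = b by group] at this
  have cc : Commute t (cm (a, b)) :=
    ((ca.mul_right cb.inv_right).mul_right ca.inv_right).mul_right cb
  have h2 : (cm (a, b) * (c * d⁻¹ * c⁻¹))⁻¹ * t * (cm (a, b) * (c * d⁻¹ * c⁻¹)) = t :=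
    (inv_mul_eq_one.1 (h 2)).trans (key' _ cc)
  have h3 : (cm (a, b) * (c * d⁻¹))⁻¹ * t * (cm (a, b) * (c * d⁻¹)) = t :=
    (inv_mul_eq_one.1 (h 3)).trans h2
  have c3 : Commute t c := by
    have := (key _ h2).inv_right.mul_right (key _ h3)
    rwa [show (cm (a, b) * (c * d⁻¹ * c⁻¹))⁻¹ * (cm (a, b) * (c * d⁻¹)) = c by group] at this
  have c4 : Commute t d := by
    have := ((key _ h3).inv_right.mul_right cc).mul_right c3
    rwa [show (cm (a, b) * (c * d⁻¹))⁻¹ * cm (a, b) * c = d by group] at this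
  intro l hl
  simp only [List.mem_cons, List.not_mem_nil, or_false] at hl
  rcases hl with rfl | rfl | rfl | rfl
  exacts [ca, cb, c3, c4]

theorem not_le_center {H : Type} [Group H] (m : Mk H) (hm : Good m) :
    ¬ Subgroup.normalClosure (Set.range (bs (ym m))) ≤ Subgroup.center H := by
  intro h
  let f := QuotientGroup.mk' (Subgroup.center H)
  have hy : ∀ j, ym m j ∈ Subgroup.center H := fun j => by
    refine h (Subgroup.subset_normalClosure ?_)
    fin_cases j
    exacts [⟨0, rfl⟩, ⟨2, rfl⟩, ⟨4, rfl⟩, ⟨6, rfl⟩]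
  have h1 := comm_of_ym (f m.1, (f m.2.1.1, f m.2.1.2), (f m.2.2.1, f m.2.2.2)) fun j => by
    have := (QuotientGroup.eq_one_iff _).2 (hy j)
    rw [← this]
    fin_cases j <;> simp [ym, zz, cm, f]
  refine hm.1 (Subgroup.pow_mem _ (hm.2 _ fun l hl => ?_) 4)
  have h2 : Commute (f m.1) (f l) := h1 _ (by
    simp only [List.mem_cons, List.not_mem_nil, or_false] at hl ⊢
    rcases hl with rfl | rfl | rfl | rfl <;> simp)
  rw [← QuotientGroup.eq_one_iff]
  change f _ = 1
  rw [map_mul, map_mul, map_mul, map_inv, map_inv, mul_assoc (f m.1)⁻¹, ← h2.eq]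
  group

/-! ### Matrices -/

section Field

variable {F : Type} [Field F]

/-- the matrix with four given entries -/
def mk4 (a b c d : F) (h : a * d - b * c = 1) : SL(2, F) :=
  ⟨!![a, b; c, d], by rwa [det_fin_two_of]⟩

theorem mk4_ent (a b c d : F) (h : a * d - b * c = 1) : (mk4 a b c d h).1 0 0 = a ∧
    (mk4 a b c d h).1 0 1 = b ∧ (mk4 a b c d h).1 1 0 = c ∧ (mk4 a b c d h).1 1 1 = d :=
  ⟨rfl, rfl, rfl, rfl⟩

theorem det2 (a : SL(2, F)) : a.1 0 0 * a.1 1 1 - a.1 0 1 * a.1 1 0 = 1 := by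
  rw [← det_fin_two]
  exact a.2

theorem ext2 {a b : SL(2, F)} (h1 : a.1 0 0 = b.1 0 0) (h2 : a.1 0 1 = b.1 0 1)
    (h3 : a.1 1 0 = b.1 1 0) (h4 : a.1 1 1 = b.1 1 1) : a = b := by
  ext i j
  fin_cases i <;> fin_cases j
  exacts [h1, h2, h3, h4]

theorem mul2 (a b : SL(2, F)) (i j : Fin 2) :
    (a * b).1 i j = a.1 i 0 * b.1 0 j + a.1 i 1 * b.1 1 j := by
  show (a.1 * b.1) i j = _
  rw [Matrix.mul_apply, Fin.sum_univ_two]

theorem one_ent : (1 : SL(2, F)).1 0 0 = 1 ∧ (1 : SL(2, F)).1 0 1 = 0 ∧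
    (1 : SL(2, F)).1 1 0 = 0 ∧ (1 : SL(2, F)).1 1 1 = 1 := ⟨rfl, rfl, rfl, rfl⟩

/-- conjugation by an upper unipotent matrix -/
def sh (s : F) : SL(2, F) →* SL(2, F) where
  toFun a := mk4 (a.1 0 0 + s * a.1 1 0) (a.1 0 1 + s * (a.1 1 1 - a.1 0 0) - s ^ 2 * a.1 1 0)
    (a.1 1 0) (a.1 1 1 - s * a.1 1 0) (by linear_combination det2 a)
  map_one' := by apply ext2 <;> simp only [mk4_ent, one_ent] <;> ring
  map_mul' a b := by apply ext2 <;> simp only [mk4_ent, mul2] <;> ring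

theorem sh_ent (s : F) (a : SL(2, F)) : (sh s a).1 0 0 = a.1 0 0 + s * a.1 1 0 ∧
    (sh s a).1 0 1 = a.1 0 1 + s * (a.1 1 1 - a.1 0 0) - s ^ 2 * a.1 1 0 ∧
    (sh s a).1 1 0 = a.1 1 0 ∧ (sh s a).1 1 1 = a.1 1 1 - s * a.1 1 0 := ⟨rfl, rfl, rfl, rfl⟩

theorem sh_neg (s : F) (a : SL(2, F)) : sh (-s) (sh s a) = a := by
  apply ext2 <;> simp only [sh_ent] <;> ring

/-- conjugation by a diagonal matrix -/
def dg (n : F) (hn : n ≠ 0) : SL(2, F) →* SL(2, F) where
  toFun a := mk4 (a.1 0 0) (a.1 0 1 / n) (a.1 1 0 * n) (a.1 1 1) (by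
    have := det2 a
    field_simp
    linear_combination this)
  map_one' := by apply ext2 <;> simp [mk4_ent, one_ent]
  map_mul' a b := by apply ext2 <;> simp only [mk4_ent, mul2] <;> field_simp

theorem dg_ent (n : F) (hn : n ≠ 0) (a : SL(2, F)) : (dg n hn a).1 0 0 = a.1 0 0 ∧
    (dg n hn a).1 0 1 = a.1 0 1 / n ∧ (dg n hn a).1 1 0 = a.1 1 0 * n ∧
    (dg n hn a).1 1 1 = a.1 1 1 := ⟨rfl, rfl, rfl, rfl⟩

theorem dg_inj (n : F) (hn : n ≠ 0) : Function.Injective (dg n hn) := by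
  intro a b h
  have h1 := congrArg (fun x : SL(2, F) => x.1 0 0) h
  have h2 := congrArg (fun x : SL(2, F) => x.1 0 1) h
  have h3 := congrArg (fun x : SL(2, F) => x.1 1 0) h
  have h4 := congrArg (fun x : SL(2, F) => x.1 1 1) h
  simp only [dg_ent] at h1 h2 h3 h4
  exact ext2 h1 ((div_left_inj' hn).1 h2) (mul_right_cancel₀ hn h3) h4

theorem cm_map {G G' : Type} [Group G] [Group G'] (f : G →* G') (a b : G) :
    cm (f a, f b) = f (cm (a, b)) := by simp [cm]

/-- the square root of the inverse -/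
def rt (g : SL(2, F)) (y : F) (h0 : y ≠ 0) (h : y ^ 2 = g.1 0 0 + g.1 1 1 + 2) : SL(2, F) :=
  mk4 ((g.1 1 1 + 1) / y) (-g.1 0 1 / y) (-g.1 1 0 / y) ((g.1 0 0 + 1) / y) (by
    field_simp
    linear_combination det2 g - h)

theorem rt_spec (g : SL(2, F)) (y : F) (h0 : y ≠ 0) (h : y ^ 2 = g.1 0 0 + g.1 1 1 + 2) :
    (rt g y h0 h).1 0 0 + (rt g y h0 h).1 1 1 = y ∧ rt g y h0 h ^ (2 : ℤ) * g = 1 := by
  have hd := det2 g
  refine ⟨?_, ?_⟩
  · simp only [rt, mk4_ent]
    field_simp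
    linear_combination -h
  · rw [zpow_two]
    apply ext2 <;> simp only [rt, mk4_ent, mul2, one_ent] <;> field_simp
    · linear_combination (g.1 1 1 + 2) * hd - h
    · linear_combination (-g.1 0 1) * hd
    · linear_combination (-g.1 1 0) * hd
    · linear_combination (g.1 0 0 + 2) * hd - h

theorem card_roots [Fintype F] [DecidableEq F] (a b c : F) (ha : a ≠ 0) :
    (Finset.univ.filter fun v : F => a * v ^ 2 + b * v + c = 0).card ≤ 2 := by
  by_contra h
  obtain ⟨x, y, z, hx, hy, hz, h1, h2, h3⟩ := Finset.two_lt_card_iff.1 (not_le.1 h)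
  simp only [Finset.mem_filter, Finset.mem_univ, true_and] at hx hy hz
  have e1 : a * (x + y) + b = 0 :=
    mul_left_cancel₀ (sub_ne_zero.2 h1) (by linear_combination hx - hy)
  have e2 : a * (x + z) + b = 0 :=
    mul_left_cancel₀ (sub_ne_zero.2 h2) (by linear_combination hx - hz)
  exact h3 (mul_left_cancel₀ ha (by linear_combination e1 - e2))

/-- points on a split conic -/
theorem conic [Fintype F] [DecidableEq F] (h2 : (2 : F) ≠ 0) (a b c : F) (ha : a ≠ 0) :
    Fintype.card F ≤ 3 + (Finset.univ.filter fun x : F × F =>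
      x.2 ≠ 0 ∧ x.2 ^ 2 = a ^ 2 * x.1 ^ 2 + b * x.1 + c).card := by
  have h1 := card_roots a (-b) (a * c) ha
  have h3 : (Finset.univ.filter fun v : F => 2 * a * v - b = 0).card ≤ 1 := by
    refine Finset.card_le_one.2 fun x hx y hy => ?_
    simp only [Finset.mem_filter, Finset.mem_univ, true_and] at hx hy
    exact mul_left_cancel₀ (mul_ne_zero h2 ha) (by linear_combination hx - hy)
  have h4 : (Finset.univ.filter fun v : F => a * v ^ 2 + -b * v + a * c ≠ 0 ∧
      2 * a * v - b ≠ 0).card ≤ (Finset.univ.filter fun x : F × F =>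
      x.2 ≠ 0 ∧ x.2 ^ 2 = a ^ 2 * x.1 ^ 2 + b * x.1 + c).card := by
    refine Finset.card_le_card_of_injOn
      (fun v => ((c - v ^ 2) / (2 * a * v - b), v + a * ((c - v ^ 2) / (2 * a * v - b))))
      (fun v hv => ?_) fun v _ w _ h => ?_
    · simp only [Finset.coe_filter, Finset.mem_univ, true_and, Set.mem_setOf_eq] at hv ⊢
      obtain ⟨e1, e2⟩ := hv
      have e3 : (c - v ^ 2) / (2 * a * v - b) * (2 * a * v - b) = c - v ^ 2 := div_mul_cancel₀ _ e2
      generalize (c - v ^ 2) / (2 * a * v - b) = s at e3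
      refine ⟨fun h => e1 ?_, by linear_combination e3⟩
      linear_combination (2 * a * v - b) * h - a * e3
    · simp only [Prod.mk.injEq] at h
      obtain ⟨e1, e2⟩ := h
      rw [e1] at e2
      exact add_right_cancel e2
  have h5 : (Finset.univ : Finset F) ⊆ (Finset.univ.filter fun v : F =>
      a * v ^ 2 + -b * v + a * c = 0) ∪ (Finset.univ.filter fun v : F => 2 * a * v - b = 0) ∪
      Finset.univ.filter fun v : F => a * v ^ 2 + -b * v + a * c ≠ 0 ∧ 2 * a * v - b ≠ 0 := by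
    intro v _
    simp only [Finset.mem_union, Finset.mem_filter, Finset.mem_univ, true_and]
    tauto
  have h6 := (Finset.card_le_card h5).trans ((Finset.card_union_le _ _).trans
    (Nat.add_le_add_right (Finset.card_union_le _ _) _))
  rw [Finset.card_univ] at h6
  omega

end Field

/-! ### Counting -/

section Count

open Finset

variable {p : ℕ} [Fact p.Prime]

noncomputable local instance : Fintype (SLp p) := Fintype.ofFinite _

/-- quadruples -/
abbrev Q4 (p : ℕ) : Type := (SLp p × SLp p) × (SLp p × SLp p)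

/-- the leading coefficient -/
def lead (q : Q4 p) : ZMod p := -((cm q.1).1 1 0 * (cm q.2).1 1 0)

theorem card_sub {α : Type} [Fintype α] (P : α → Prop) [DecidablePred P] :
    Nat.card {x // P x} = (univ.filter P).card := by
  rw [Nat.card_eq_fintype_card, Fintype.card_subtype]

open Classical in
theorem sq_le (hp : 5 ≤ p) : (univ.filter fun q : Q4 p => lead q ≠ 0 ∧ IsSquare (lead q)).card *
    (p - 3) ≤ p * Nat.card {m : Mk (SLp p) // m.1 ^ (2 : ℤ) * lam m = 1} := by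
  have h2 : (2 : ZMod p) ≠ 0 := fun h => by
    have := (ZMod.natCast_eq_zero_iff 2 p).1 (by exact_mod_cast h)
    have := Nat.le_of_dvd (by norm_num) this
    omega
  have key := card_mul_le_card_mul (s := univ.filter fun q : Q4 p => lead q ≠ 0 ∧ IsSquare (lead q))
    (t := (univ : Finset (ZMod p)) ×ˢ univ.filter fun m : Mk (SLp p) => m.1 ^ (2 : ℤ) * lam m = 1)
    (fun q x => x.2.2 = ((sh x.1 q.1.1, sh x.1 q.1.2), q.2)) (m := p - 3) (n := 1) ?_ ?_
  · rwa [card_product, card_univ, ZMod.card, mul_one,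
      ← card_sub fun m : Mk (SLp p) => m.1 ^ (2 : ℤ) * lam m = 1] at key
  · intro q hq
    obtain ⟨h0, a, ha⟩ := (mem_filter.1 hq).2
    have ha0 : a ≠ 0 := fun h => h0 (by rw [ha, h, mul_zero])
    have hc := conic h2 a ((cm q.1).1 1 0 * (cm q.2).1 0 0 +
      ((cm q.1).1 1 1 - (cm q.1).1 0 0) * (cm q.2).1 1 0 - (cm q.1).1 1 0 * (cm q.2).1 1 1)
      ((cm q.1).1 0 0 * (cm q.2).1 0 0 + (cm q.1).1 0 1 * (cm q.2).1 1 0 +
        (cm q.1).1 1 0 * (cm q.2).1 0 1 + (cm q.1).1 1 1 * (cm q.2).1 1 1 + 2) ha0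
    rw [ZMod.card] at hc
    refine (Nat.sub_le_iff_le_add'.2 hc).trans (card_le_card_of_surjOn
      (fun x => (x.1, x.2.1.1 0 0 + x.2.1.1 1 1)) fun x hx => ?_)
    obtain ⟨hy0, hy⟩ := (mem_filter.1 hx).2
    have hy' : x.2 ^ 2 = (sh x.1 (cm q.1) * cm q.2).1 0 0 + (sh x.1 (cm q.1) * cm q.2).1 1 1 + 2 := by
      simp only [mul2, sh_ent]
      unfold lead at ha
      linear_combination hy - x.1 ^ 2 * ha
    obtain ⟨e1, e2⟩ := rt_spec _ _ hy0 hy'
    refine ⟨(x.1, rt _ _ hy0 hy', (sh x.1 q.1.1, sh x.1 q.1.2), q.2), ?_, Prod.ext rfl e1⟩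
    refine mem_coe.2 ((mem_bipartiteAbove _).2 ⟨mem_product.2 ⟨mem_univ _, mem_filter.2
      ⟨mem_univ _, ?_⟩⟩, rfl⟩)
    rw [← e2]
    exact congrArg (fun z => _ * (z * _)) (cm_map (sh x.1) q.1.1 q.1.2)
  · intro x _
    refine card_le_one.2 fun q hq q' hq' => ?_
    have e := ((mem_bipartiteBelow _).1 hq).2.symm.trans ((mem_bipartiteBelow _).1 hq').2
    simp only [Prod.mk.injEq] at e
    refine Prod.ext (Prod.ext ?_ ?_) e.2
    · rw [← sh_neg x.1 q.1.1, e.1.1, sh_neg]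
    · rw [← sh_neg x.1 q.1.2, e.1.2, sh_neg]

open Classical in
theorem nsq_le (hp : 5 ≤ p) : (univ.filter fun q : Q4 p => lead q ≠ 0).card ≤
    2 * (univ.filter fun q : Q4 p => lead q ≠ 0 ∧ IsSquare (lead q)).card := by
  obtain ⟨n, hn⟩ := FiniteField.exists_nonsquare (F := ZMod p) (by
    rw [ZMod.ringChar_zmod_n]; omega)
  have hn0 : n ≠ 0 := fun h => hn (h ▸ IsSquare.zero)
  have h1 : (univ.filter fun q : Q4 p => lead q ≠ 0 ∧ ¬ IsSquare (lead q)).card ≤
      (univ.filter fun q : Q4 p => lead q ≠ 0 ∧ IsSquare (lead q)).card := by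
    refine card_le_card_of_injOn (fun q => ((dg n hn0 q.1.1, dg n hn0 q.1.2), q.2))
      (fun q hq => ?_) fun q _ q' _ e => ?_
    · obtain ⟨h0, h⟩ := (mem_filter.1 hq).2
      have e : lead ((dg n hn0 q.1.1, dg n hn0 q.1.2), q.2) = n * lead q := by
        simp only [lead, cm_map, dg_ent]
        ring
      refine mem_coe.2 (mem_filter.2 ⟨mem_univ _, ?_⟩)
      rw [e]
      refine ⟨mul_ne_zero hn0 h0, (quadraticChar_one_iff_isSquare (mul_ne_zero hn0 h0)).1 ?_⟩
      rw [map_mul, quadraticChar_neg_one_iff_not_isSquare.2 hn,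
        quadraticChar_neg_one_iff_not_isSquare.2 h]
      rfl
    · simp only [Prod.mk.injEq] at e
      exact Prod.ext (Prod.ext (dg_inj n hn0 e.1.1) (dg_inj n hn0 e.1.2)) e.2
  have h2 := card_filter_add_card_filter_not (s := univ.filter fun q : Q4 p => lead q ≠ 0)
    (fun q => IsSquare (lead q))
  rw [filter_filter, filter_filter] at h2
  omega

open Classical in
theorem borel_le : (univ.filter fun h : SLp p => h.1 1 0 = 0).card ≤ p ^ 2 := by
  have : (univ.filter fun h : SLp p => h.1 1 0 = 0).card ≤ (univ : Finset (ZMod p × ZMod p)).card := by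
    refine card_le_card_of_injOn (fun h => (h.1 0 0, h.1 0 1)) (fun _ _ => mem_coe.2 (mem_univ _))
      fun a ha b hb e => ?_
    have ha' := (mem_filter.1 ha).2
    have hb' := (mem_filter.1 hb).2
    simp only [Prod.mk.injEq] at e
    have d1 := det2 a
    have d2 := det2 b
    rw [ha'] at d1
    rw [hb', ← e.1] at d2
    refine ext2 e.1 e.2 (ha'.trans hb'.symm) ?_
    linear_combination b.1 1 1 * d1 - a.1 1 1 * d2
  rwa [card_univ, Fintype.card_prod, ZMod.card, ← pow_two] at this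

open Classical in
theorem zero_le (hp : 5 ≤ p) (h3 : RowD3) :
    (univ.filter fun l : SLp p × SLp p => (cm l).1 1 0 = 0).card ≤
      11 * p ^ 2 * Nat.card (SLp p) := by
  obtain ⟨-, -, a1, a2⟩ := h3 p hp
  have h1 : (univ.filter fun l : SLp p × SLp p => (cm l).1 1 0 = 0 ∧ cm l ≠ 1).card ≤
      8 * Nat.card (SLp p) * (univ.filter fun h : SLp p => h.1 1 0 = 0).card := by
    refine card_le_mul_card_image_of_maps_to (f := cm) (fun l hl => ?_) _ fun h _ => ?_
    · exact mem_filter.2 ⟨mem_univ _, (mem_filter.1 hl).2.1⟩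
    · by_cases e : h = 1
      · rw [card_eq_zero.2 (filter_eq_empty_iff.2 fun l hl e' =>
          (mem_filter.1 hl).2.2 (e'.trans e))]
        exact Nat.zero_le _
      · refine le_trans (card_le_card fun l hl => ?_) ((card_sub _).symm.le.trans (a1 h e))
        exact mem_filter.2 ⟨mem_univ _, (mem_filter.1 hl).2⟩
  have h2 : (univ.filter fun l : SLp p × SLp p => (cm l).1 1 0 = 0 ∧ ¬ cm l ≠ 1).card ≤
      3 * p * Nat.card (SLp p) := by
    refine le_trans (card_le_card fun l hl => ?_) ((card_sub _).symm.le.trans a2)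
    exact mem_filter.2 ⟨mem_univ _, not_not.1 (mem_filter.1 hl).2.2⟩
  have h4 := card_filter_add_card_filter_not
    (s := univ.filter fun l : SLp p × SLp p => (cm l).1 1 0 = 0) (fun l => cm l ≠ 1)
  rw [filter_filter, filter_filter] at h4
  have h5 := h1.trans (Nat.mul_le_mul_left _ borel_le)
  have h6 : 3 * p * Nat.card (SLp p) ≤ 3 * p ^ 2 * Nat.card (SLp p) :=
    Nat.mul_le_mul_right _ (Nat.mul_le_mul_left _ (by nlinarith))
  nlinarith

open Classical in
theorem lead_le (hp : 23 ≤ p) (h1 : RowD1) (h3 : RowD3) :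
    Nat.card (SLp p) ^ 4 ≤ 4 * (univ.filter fun q : Q4 p => lead q ≠ 0).card := by
  have a1 := (h1 p (by omega)).1
  have a2 := zero_le (p := p) (by omega) h3
  have a3 := card_filter_add_card_filter_not (s := (univ : Finset (SLp p × SLp p)))
    (fun l => (cm l).1 1 0 = 0)
  rw [card_univ, Fintype.card_prod, ← Nat.card_eq_fintype_card] at a3
  have a4 : (univ.filter fun q : Q4 p => lead q ≠ 0) =
      (univ.filter fun l : SLp p × SLp p => ¬ (cm l).1 1 0 = 0) ×ˢ
        (univ.filter fun l : SLp p × SLp p => ¬ (cm l).1 1 0 = 0) := by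
    ext q
    simp [lead]
  have a5 : 22 * p ^ 2 ≤ Nat.card (SLp p) := by
    obtain ⟨r, hr⟩ : ∃ r, p ^ 2 = r + 1 := ⟨p ^ 2 - 1, by
      have : 0 < p ^ 2 := by positivity
      omega⟩
    rw [a1, hr, Nat.add_sub_cancel]
    have : 22 ≤ r := by nlinarith
    nlinarith
  rw [a4, card_product]
  generalize (univ.filter fun l : SLp p × SLp p => ¬ (cm l).1 1 0 = 0).card = x at a3 ⊢
  generalize (univ.filter fun l : SLp p × SLp p => (cm l).1 1 0 = 0).card = z at a2 a3
  generalize Nat.card (SLp p) = e at a2 a3 a5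
  have a6 : e * e ≤ 2 * x := by nlinarith
  calc e ^ 4 = (e * e) * (e * e) := by ring
    _ ≤ (2 * x) * (2 * x) := Nat.mul_le_mul a6 a6
    _ = 4 * (x * x) := by ring

theorem sol_le (hp : 23 ≤ p) (h1 : RowD1) (h3 : RowD3) :
    Nat.card (SLp p) ^ 4 ≤ 16 * Nat.card {m : Mk (SLp p) // m.1 ^ (2 : ℤ) * lam m = 1} := by
  have a1 := lead_le hp h1 h3
  have a2 := nsq_le (p := p) (by omega)
  have a3 := sq_le (p := p) (by omega)
  obtain ⟨r, rfl⟩ : ∃ r, p = r + 3 := ⟨p - 3, by omega⟩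
  rw [Nat.add_sub_cancel] at a3
  refine a1.trans ((Nat.mul_le_mul_left 4 a2).trans ?_)
  generalize Nat.card {m : Mk (SLp (r + 3)) // m.1 ^ (2 : ℤ) * lam m = 1} = n at a3 ⊢
  generalize Finset.card _ = x at a3 ⊢
  have : x ≤ 2 * n := Nat.le_of_mul_le_mul_right (c := r) (by nlinarith) (by omega)
  omega

end Count

end D6

theorem rowD6 (h1 : RowD1) (h3 : RowD3) (h5 : RowD5) : RowD6 := by
  classical
  obtain ⟨C, hC⟩ := h5
  refine ⟨32, max 23 (32 * C), fun p _ hp => ⟨fun m hm => ?_, ?_⟩⟩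
  · exact ((h1 p (le_trans (by norm_num) (le_of_max_le_left hp))).2.2.2.1 _
      inferInstance).resolve_right (D6.not_le_center m hm)
  · have q1 := le_of_max_le_left hp
    have q2 := le_of_max_le_right hp
    have a1 := D6.sol_le q1 h1 h3
    have a2 := (hC p (by omega) 2 (Or.inl rfl)).2
    haveI : Fintype (Mk (SLp p)) := Fintype.ofFinite _
    have a3 := Finset.card_filter_add_card_filter_not
      (s := Finset.univ.filter fun m : Mk (SLp p) => m.1 ^ (2 : ℤ) * lam m = 1) Good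
    rw [Finset.filter_filter, Finset.filter_filter] at a3
    rw [← D6.card_sub, ← D6.card_sub, ← D6.card_sub] at a3
    generalize Nat.card {m : Mk (SLp p) // m.1 ^ (2 : ℤ) * lam m = 1 ∧ ¬ Good m} = z at a2 a3
    have a4 : 32 * z ≤ Nat.card (SLp p) ^ 4 := by
      refine Nat.le_of_mul_le_mul_left (c := p) ?_ (by omega)
      calc p * (32 * z) = 32 * (p * z) := by ring
        _ ≤ 32 * (C * Nat.card (SLp p) ^ 4) := Nat.mul_le_mul_left _ a2
        _ = 32 * C * Nat.card (SLp p) ^ 4 := by ring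
        _ ≤ _ := Nat.mul_le_mul_right _ q2
    omega

end Vale.Agent.Q258D
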