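import Vale.Agent.N258B.Defs3
import Vale.Agent.P258.R2.H390.Cls

/-!
# Knots that bound a disc with four tangled bands
-/

namespace Vale.Agent.Q258D

open Vale.Agent.P258.Braid Vale.Agent.N258B

/-- Every strand of the braid `w` is replaced by a flat band, that is by two parallel strands. -/
def cable (w : Word) : Word :=
  w.flatMap fun x => [(2 * x.1 + 1, x.2), (2 * x.1, x.2), (2 * x.1 + 2, x.2), (2 * x.1 + 1, x.2)]

/-- The strand at the position `i` moves `d` places to the right, under the other strands. -/
def slide (i d : ℕ) : Word := (List.range d).map fun a => (i + a, false)

/-- `n` pairs of adjacent caps, from the position `q` on, become pairs of nested caps (the two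
edges of a band that turns back). -/
def nest (q n : ℕ) : Word := (List.range n).flatMap fun i => slide (q + 4 * i + 1) 2

/-- The boundary of a disc with eight ends of bands.  There are four blocks of `2 k` bands; the
first and the last band of a block end on the disc, the others are joined in pairs. -/
def bottom (k : ℕ) : Word :=
  slide 1 (16 * k - 2) ++
    (List.range 4).flatMap fun j => slide (4 * k * j + 2) (4 * k - 4) ++ nest (4 * k * j + 2) (k - 1)

/-- The word on `16 k` strands whose plat closure bounds the disc with four long bands (genus
two): the ends of the first two and of the last two long bands are interlaced, the `8 k` bands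
follow the braid `w`, and at the top the bands `2 i` and `2 i + 1` are joined. -/
def surf (k : ℕ) (w : Word) : Word :=
  bottom k ++ (cable ([(2 * k - 1, true), (6 * k - 1, true)] ++ w) ++ inverse (nest 0 (4 * k)))

/-- The normal subgroup generated by the powers `2 M` of the generators; for `M = 1` the group of
pure braids. -/
def Tw (N M : ℕ) : Subgroup (BraidGroup N) :=
  Subgroup.normalClosure (Set.range fun i : ℕ => letter N (i, true) ^ (2 * M))

/-- The derived series of `Tw N M`. -/
def Der (N M : ℕ) : ℕ → Subgroup (BraidGroup N)
  | 0 => Tw N M
  | j + 1 => ⁅Der N M j, Der N M j⁆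

/-- The number of cosets of `S` that contain the braid of a word `w` in the coset of `w0` modulo
`D` with the property `P`. -/
noncomputable def cosets {N : ℕ} (S D : Subgroup (BraidGroup N)) (w0 : Word) (P : Word → Prop) :
    ℕ :=
  Nat.card {q : BraidGroup N ⧸ S // ∃ w, InCoset D w0 w ∧ P w ∧ (toBraid N w : _ ⧸ S) = q}

end Vale.Agent.Q258D
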