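import Vale.Agent.Q258D.DefsJ

/-!
# Abbreviations for the statement
-/

namespace Vale.Agent.Q258D

open Vale.Agent.P258.Braid Vale.Agent.N258B

/-- The knot of the word `w`, in some chart of the sphere, has a tubular neighbourhood with the
preferred framing and the property `P`. -/
def ForSome (k : ℕ) (w : Word) (P : (Circle × ℂ → S3) → Prop) : Prop :=
  ∃ e ν, Framed (8 * k) 0 (surf k w) e ν ∧ P ν

/-- In every chart of the sphere the knot of the word `w` has a tubular neighbourhood with the
preferred framing, and all of them have the property `P`. -/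
def ForAll (k : ℕ) (w : Word) (P : (Circle × ℂ → S3) → Prop) : Prop :=
  ∀ e, (Topology.IsOpenEmbedding e → ∃ ν, Framed (8 * k) 0 (surf k w) e ν) ∧
    ∀ ν, Framed (8 * k) 0 (surf k w) e ν → P ν

/-- The longitude is a product of two commutators and the Alexander polynomial is one. -/
def Alex (ν : Circle × ℂ → S3) : Prop := GenusTwoAlexOne ν

/-- The surgeries of slopes `2` and `-2` are not told apart. -/
def Bad (ν : Circle × ℂ → S3) : Prop := ¬ Distinct (Surgery ν 2) (Surgery ν (-2))

/-- The Kauffman brackets of the knots of `w` and `w0` agree modulo `(A ^ 4 - 1) ^ n`, and at the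
roots of unity `A` with `A ^ (8 M) = 1`, `A ^ 16 ≠ 1`, `A ^ 24 ≠ 1`. -/
def SameJones (k M n : ℕ) (w0 w : Word) : Prop :=
  (∀ (R : Type) [CommRing R] (A : Rˣ), ((A : R) ^ 4 - 1) ^ n ∣
    bracket A (8 * k) (surf k w) - bracket A (8 * k) (surf k w0)) ∧
  ∀ A : ℂˣ, A ^ (8 * M) = 1 → A ^ 16 ≠ 1 → A ^ 24 ≠ 1 →
    bracket A (8 * k) (surf k w) = bracket A (8 * k) (surf k w0)

end Vale.Agent.Q258D
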