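import Vale.Agent.Q258D.Defs

/-!
# The Kauffman bracket of a plat
-/

namespace Vale.Agent.Q258D

open Vale.Agent.P258.Braid

/-- The matching `m` of the points below a level is changed by a cap and a cup at the positions
`i`, `i + 1`. -/
def cup (i : ℕ) (m : ℕ → ℕ) (q : ℕ) : ℕ :=
  if q = i then i + 1 else if q = i + 1 then i else
    if q = m i then m (i + 1) else if q = m (i + 1) then m i else m q

/-- A cap and a cup; a closed loop counts `- A ^ 2 - A ^ (-2)`. -/
def close {R : Type} [CommRing R] (A : Rˣ) (i : ℕ) (f : (ℕ → ℕ) → R) (m : ℕ → ℕ) : R :=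
  (if m i = i + 1 then -(A : R) ^ 2 - ((A⁻¹ : Rˣ) : R) ^ 2 else 1) * f (cup i m)

/-- The Kauffman bracket of the plat closure of the word `w` on `2 b` strands: every crossing is
smoothed in the two ways, with the weights `A` and `A⁻¹`; the last loop counts `1`. -/
def bracket {R : Type} [CommRing R] (A : Rˣ) (b : ℕ) (w : Word) : R :=
  w.foldr (fun x f m => ((if x.2 then A else A⁻¹ : Rˣ) : R) * f m +
      ((if x.2 then A⁻¹ else A : Rˣ) : R) * close A x.1 f m)
    ((List.range (b - 1)).foldr (fun j => close A (2 * j + 2)) fun _ => 1)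
    fun q => if q % 2 = 0 then q + 1 else q - 1

end Vale.Agent.Q258D
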