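import Vale.Agent.Q258D.E1a

/-!
# Colourings of the knot and colourings of the surface
-/

set_option linter.all false

namespace Vale.Agent.Q258D

open Vale.Agent.P258.Braid Vale.Agent.N258B

namespace E1

variable {H : Type} [Group H]

/-- the interlacing of the long bands -/
def w0 (n : ℕ) : Word := [(2 * n + 1, true), (6 * n + 5, true)]

/-- the part of the word below the braid -/
def B1 (n : ℕ) : Word := bottom (n + 1) ++ cable (w0 n)

theorem surf_eq (n : ℕ) (w : Word) :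
    surf (n + 1) w = B1 n ++ (cable w ++ inverse (nest 0 (4 * (n + 1)))) := by
  rw [surf, B1, w0, cable_append, show 2 * (n + 1) - 1 = 2 * n + 1 by omega,
    show 6 * (n + 1) - 1 = 6 * n + 5 by omega]
  simp only [List.append_assoc]

theorem B1_rng (n : ℕ) : ∀ x ∈ B1 n, x.1 + 1 < 2 * (8 * (n + 1)) :=
  app_rng (bottom_rng n) (cable_rng fun x hx => by
    simp only [w0, List.mem_cons, List.not_mem_nil, or_false] at hx
    rcases hx with rfl | rfl <;> simp only <;> omega)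

theorem surf_rng {n : ℕ} {w : Word} (hw : ∀ x ∈ w, x.1 + 1 < 8 * (n + 1)) :
    ∀ x ∈ surf (n + 1) w, x.1 + 1 < 2 * (8 * (n + 1)) := by
  rw [surf_eq]
  exact app_rng (B1_rng n) (app_rng (cable_rng hw) (inverse_rng (nest_rng (by omega))))

theorem intl (n : ℕ) (G : ℕ → St 8 H) (s e : ℕ) (he : e < 2) :
    rn (cable (w0 n)) G (2 * ps (w0 n) s + e) = cj (G (2 * s + e))
      (if s = 2 * n + 2 then bd G (2 * n + 1) else if s = 6 * n + 6 then bd G (6 * n + 5) else 1) := by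
  rw [cab (w0 n) G (fun s => ⟨0, bd G s, 1⟩) (fun _ => rfl) s e he]
  congr 1
  have a : sw (2 * n + 1, true) (6 * n + 5) = 6 * n + 5 := by
    simp only [sw]; split_ifs <;> omega
  have b : sw (2 * n + 1, true) s = 6 * n + 5 + 1 ↔ s = 6 * n + 6 := by
    simp only [sw]; split_ifs <;> omega
  simp only [w0, tau, und, stp, a, b, if_true, cj, mul_one,
    if_neg (show ¬ 6 * n + 5 = 2 * n + 1 + 1 by omega), inv_one, one_mul]
  split_ifs <;> first | omega | simp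

theorem ps_w0 (n s : ℕ) : ps (w0 n) s = if s = 2 * n + 1 then 2 * n + 2 else
    if s = 2 * n + 2 then 2 * n + 1 else if s = 6 * n + 5 then 6 * n + 6 else
    if s = 6 * n + 6 then 6 * n + 5 else s := by
  simp only [ps, w0, List.foldl_cons, List.foldl_nil, sw]
  split_ifs <;> omega

/-- the bands that are joined to the next band at the bottom -/
def In (n s : ℕ) : Prop :=
  s % 2 = 1 ∧ s < 8 * n + 7 ∧ s ≠ 2 * n + 1 ∧ s ≠ 4 * n + 3 ∧ s ≠ 6 * n + 5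

/-- the caps at the bottom, seen above the interlacing, except the outermost -/
def Cap1 (n : ℕ) (R : St 8 H → St 8 H → Prop) (G : ℕ → St 8 H) : Prop :=
  R (G (2 * 0 + 1)) (G (2 * (2 * n + 2))) ∧
  R (G (2 * (2 * n + 2) + 1)) (cj (G (2 * (2 * n + 1))) (bd G (2 * n + 2))⁻¹) ∧
  R (cj (G (2 * (2 * n + 1) + 1)) (bd G (2 * n + 2))⁻¹) (G (2 * (4 * n + 3))) ∧
  R (G (2 * (4 * n + 3) + 1)) (G (2 * (4 * n + 4))) ∧
  R (G (2 * (4 * n + 4) + 1)) (G (2 * (6 * n + 6))) ∧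
  R (G (2 * (6 * n + 6) + 1)) (cj (G (2 * (6 * n + 5))) (bd G (6 * n + 6))⁻¹) ∧
  R (cj (G (2 * (6 * n + 5) + 1)) (bd G (6 * n + 6))⁻¹) (G (2 * (8 * n + 7))) ∧
  ∀ s, In n s → R (G (2 * s)) (G (2 * (s + 1) + 1)) ∧ R (G (2 * s + 1)) (G (2 * (s + 1)))

theorem intl_fix (n : ℕ) (G : ℕ → St 8 H) (q : ℕ)
    (h : q / 2 ≠ 2 * n + 1 ∧ q / 2 ≠ 2 * n + 2 ∧ q / 2 ≠ 6 * n + 5 ∧ q / 2 ≠ 6 * n + 6) :
    rn (cable (w0 n)) G q = G q := by
  have := intl n G (q / 2) (q % 2) (by omega)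
  rwa [ps_w0, if_neg h.1, if_neg h.2.1, if_neg h.2.2.1, if_neg h.2.2.2, if_neg h.2.1,
    if_neg h.2.2.2, cj_one, Nat.div_add_mod] at this

theorem intl_sw (n : ℕ) (G : ℕ → St 8 H) (a : ℕ) (ha : a = 2 * n + 1 ∨ a = 6 * n + 5) (e : ℕ)
    (he : e < 2) : rn (cable (w0 n)) G (2 * (a + 1) + e) = G (2 * a + e) ∧
      cj (rn (cable (w0 n)) G (2 * a + e)) (bd (rn (cable (w0 n)) G) (a + 1))⁻¹ =
        G (2 * (a + 1) + e) := by
  have h1 : ∀ e < 2, rn (cable (w0 n)) G (2 * (a + 1) + e) = G (2 * a + e) := fun e he => by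
    have := intl n G a e he
    rwa [show ps (w0 n) a = a + 1 by rw [ps_w0]; split_ifs <;> omega, if_neg (by omega),
      if_neg (by omega), cj_one] at this
  have h2 := intl n G (a + 1) e he
  rw [show ps (w0 n) (a + 1) = a by rw [ps_w0]; split_ifs <;> omega,
    show (if a + 1 = 2 * n + 2 then bd G (2 * n + 1) else
      if a + 1 = 6 * n + 6 then bd G (6 * n + 5) else 1) = bd G a by
        rcases ha with rfl | rfl
        · rw [if_pos rfl]
        · rw [if_neg (by omega), if_pos rfl]] at h2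
  refine ⟨h1 e he, ?_⟩
  have h3 := h1 0 (by omega)
  rw [add_zero, add_zero] at h3
  rw [h2, cj_cj, bd, bd, h3, h1 1 (by omega), mul_inv_cancel, cj_one]

theorem cap1_iff (n : ℕ) (R : St 8 H → St 8 H → Prop) (G : ℕ → St 8 H) :
    Cap1 n R (rn (cable (w0 n)) G) ↔ Cap0 n R G := by
  obtain ⟨a0, b0⟩ := intl_sw n G _ (Or.inl rfl) 0 (by omega)
  obtain ⟨a1, b1⟩ := intl_sw n G _ (Or.inl rfl) 1 (by omega)
  obtain ⟨c0, d0⟩ := intl_sw n G _ (Or.inr rfl) 0 (by omega)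
  obtain ⟨c1, d1⟩ := intl_sw n G _ (Or.inr rfl) 1 (by omega)
  simp only [add_zero, add_assoc, Nat.reduceAdd] at a0 b0 a1 b1 c0 d0 c1 d1
  have f := intl_fix n G
  unfold Cap1
  rw [a0, b0, a1, b1, c0, d0, c1, d1, f _ (by omega), f _ (by omega), f _ (by omega),
    f _ (by omega), f _ (by omega), f _ (by omega)]
  have cg : ∀ {a b a' b' : ℕ}, R (G a) (G b) → a = a' → b = b' → R (G a') (G b') := by
    rintro a b _ _ h rfl rfl; exact h
  constructor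
  · rintro ⟨h1, h2, h3, h4, h5, h6, h7, h8⟩ j hj
    refine ⟨fun j0 => ?_, ?_, fun i hi => ?_⟩
    · obtain rfl | rfl | rfl : j = 1 ∨ j = 2 ∨ j = 3 := by omega
      exacts [cg h2 (by omega) (by omega), cg h4 (by omega) (by omega),
        cg h6 (by omega) (by omega)]
    · obtain rfl | rfl | rfl | rfl : j = 0 ∨ j = 1 ∨ j = 2 ∨ j = 3 := by omega
      exacts [cg h1 (by omega) (by omega), cg h3 (by omega) (by omega),
        cg h5 (by omega) (by omega), cg h7 (by omega) (by omega)]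
    · have e : ∃ s, In n s ∧ 2 * s = 4 * (n + 1) * j + 4 * i + 2 := by
        refine ⟨2 * (n + 1) * j + 2 * i + 1, ?_, by ring⟩
        obtain rfl | rfl | rfl | rfl : j = 0 ∨ j = 1 ∨ j = 2 ∨ j = 3 := by omega
        all_goals unfold In; omega
      obtain ⟨s, hs, e⟩ := e
      obtain ⟨k1, k2⟩ := h8 s hs
      unfold In at hs
      rw [f _ (by omega), f _ (by omega)] at k1 k2
      exact ⟨cg k1 (by omega) (by omega), cg k2 (by omega) (by omega)⟩
  · intro h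
    obtain ⟨-, p0, q0⟩ := h 0 (by omega)
    obtain ⟨o1, p1, q1⟩ := h 1 (by omega)
    obtain ⟨o2, p2, q2⟩ := h 2 (by omega)
    obtain ⟨o3, p3, q3⟩ := h 3 (by omega)
    refine ⟨cg p0 (by omega) (by omega), cg (o1 (by omega)) (by omega) (by omega),
      cg p1 (by omega) (by omega), cg (o2 (by omega)) (by omega) (by omega),
      cg p2 (by omega) (by omega), cg (o3 (by omega)) (by omega) (by omega),
      cg p3 (by omega) (by omega), fun s hs => ?_⟩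
    unfold In at hs
    rw [f _ (by omega), f _ (by omega), f _ (by omega), f _ (by omega)]
    rcases (by omega : s < 2 * n + 1 ∨ (2 * n + 2 < s ∧ s < 4 * n + 3) ∨
      (4 * n + 4 < s ∧ s < 6 * n + 5) ∨ 6 * n + 6 < s) with c | c | c | c
    · obtain ⟨k1, k2⟩ := q0 (s / 2) (by omega)
      exact ⟨cg k1 (by omega) (by omega), cg k2 (by omega) (by omega)⟩
    · obtain ⟨k1, k2⟩ := q1 (s / 2 - (n + 1)) (by omega)
      exact ⟨cg k1 (by omega) (by omega), cg k2 (by omega) (by omega)⟩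
    · obtain ⟨k1, k2⟩ := q2 (s / 2 - 2 * (n + 1)) (by omega)
      exact ⟨cg k1 (by omega) (by omega), cg k2 (by omega) (by omega)⟩
    · obtain ⟨k1, k2⟩ := q3 (s / 2 - 3 * (n + 1)) (by omega)
      exact ⟨cg k1 (by omega) (by omega), cg k2 (by omega) (by omega)⟩

/-- inverse colours -/
def R0 (s t : St 8 H) : Prop := t.col = s.col⁻¹

/-- inverse colours and equal potentials -/
def R1 (s t : St 8 H) : Prop := t.col = s.col⁻¹ ∧ s.tr = t.tr

theorem bot_up {n : ℕ} {g : ℕ → St 8 H} (h : Nt g 0 (8 * (n + 1))) :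
    Cap1 n R0 (rn (B1 n) g) ∧
      (rn (B1 n) g (2 * (8 * n + 7) + 1)).col = (rn (B1 n) g (2 * 0)).col⁻¹ := by
  have h1 := neu_bottom h
  rw [B1, rn_append, cap1_iff, cap0_iff, intl_fix _ _ _ (by omega), intl_fix _ _ _ (by omega)]
  refine ⟨fun c hc _ => ?_, ?_⟩
  · rw [h1, h1]
    have := h c hc
    rwa [zero_add] at this
  · have a0 := h1 0
    have a1 := h1 1
    rw [ps_bot0] at a0
    rw [ps_bot1] at a1
    rw [show 2 * (8 * n + 7) + 1 = 16 * n + 15 by omega, a1, a0]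
    exact h 0 (by omega)

theorem bot_dn {n : ℕ} {G : ℕ → St 8 H} (h : Cap1 n R1 G)
    (h0 : (G (2 * (8 * n + 7) + 1)).col = (G (2 * 0)).col⁻¹) :
    Nt (rn (inverse (B1 n)) G) 0 (8 * (n + 1)) ∧
      (∀ j < 8 * (n + 1), 1 ≤ j →
        (rn (inverse (B1 n)) G (2 * j)).tr = (rn (inverse (B1 n)) G (2 * j + 1)).tr) ∧
      rn (inverse (B1 n)) G 0 = G (2 * 0) ∧ rn (inverse (B1 n)) G 1 = G (2 * (8 * n + 7) + 1) := by
  obtain ⟨G0, rfl⟩ : ∃ G0, G = rn (cable (w0 n)) G0 := ⟨_, (rn_inv' _ G).symm⟩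
  rw [cap1_iff, cap0_iff] at h
  rw [intl_fix _ _ _ (by omega), intl_fix _ _ _ (by omega),
    show 2 * (8 * n + 7) + 1 = 16 * n + 15 by omega] at h0 ⊢
  have h1 : Nt (fun p => G0 (ps (bottom (n + 1)) p)) 0 (8 * (n + 1)) := fun j hj => by
    rw [zero_add]
    rcases Nat.eq_zero_or_pos j with rfl | j0
    · simp only [mul_zero, zero_add, ps_bot0, ps_bot1]
      exact h0
    · exact (h j hj j0).1
  have h2 : rn (inverse (B1 n)) (rn (cable (w0 n)) G0) = fun p => G0 (ps (bottom (n + 1)) p) := by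
    rw [← (neu_bottom h1).inv, ← rn_inv (B1 n) (rn (inverse (bottom (n + 1))) G0), B1, rn_append,
      rn_inv']
  rw [h2]
  exact ⟨h1, fun j hj j0 => (h j hj j0).2, by simp only [ps_bot0], by simp only [ps_bot1]⟩

theorem top_dn {m : ℕ} {G : ℕ → St 8 H} (h : Nt (rn (inverse (nest 0 m)) G) 0 (2 * m)) :
    ∀ i < m, R0 (G (4 * i)) (G (4 * i + 3)) ∧ R0 (G (4 * i + 1)) (G (4 * i + 2)) := by
  have h1 := neu_nest m h
  rw [capT_iff]
  intro c hc
  have a0 := h1 (2 * c)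
  have a1 := h1 (2 * c + 1)
  rw [rn_inv'] at a0 a1
  rw [a0, a1]
  have := h c hc
  rwa [zero_add] at this

theorem top_up {m : ℕ} {G : ℕ → St 8 H}
    (h : ∀ i < m, R1 (G (4 * i)) (G (4 * i + 3)) ∧ R1 (G (4 * i + 1)) (G (4 * i + 2))) :
    Nt (rn (inverse (nest 0 m)) G) 0 (2 * m) ∧ ∀ j < 2 * m, 0 ≤ j →
      (rn (inverse (nest 0 m)) G (2 * j)).tr = (rn (inverse (nest 0 m)) G (2 * j + 1)).tr := by
  rw [capT_iff] at h
  have h1 : Nt (fun p => G (ps (nest 0 m) p)) 0 (2 * m) := fun j hj => by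
    rw [zero_add]; exact (h j hj).1
  rw [(neu_nest m h1).inv]
  exact ⟨h1, fun j hj _ => (h j hj).2⟩

/-! ### The layout of the bands -/

theorem colr_val {n s j : ℕ} (hj : j < 4) (h1 : 2 * (n + 1) * j ≤ s)
    (h2 : s < 2 * (n + 1) * j + 2 * (n + 1)) : (colr (n + 1) s).val = 2 * j + s % 2 := by
  have : s / (2 * (n + 1)) = j :=
    Nat.div_eq_of_lt_le (by rw [mul_comm]; exact h1) (by rw [add_mul, mul_comm j]; omega)
  simp only [colr, this]
  omega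

theorem blk {n s : ℕ} (hs : s < 8 * (n + 1)) :
    ∃ j < 4, 2 * (n + 1) * j ≤ s ∧ s < 2 * (n + 1) * j + 2 * (n + 1) := by
  rcases (by omega : s < 2 * n + 2 ∨ (2 * n + 2 ≤ s ∧ s < 4 * n + 4) ∨
    (4 * n + 4 ≤ s ∧ s < 6 * n + 6) ∨ 6 * n + 6 ≤ s) with c | c | c | c
  exacts [⟨0, by omega⟩, ⟨1, by omega⟩, ⟨2, by omega⟩, ⟨3, by omega⟩]

theorem bar_val (c : Fin 8) : (bar c).val = if c.val % 2 = 0 then c.val + 1 else c.val - 1 := by
  fin_cases c <;> rfl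

theorem colr_even {n i : ℕ} (hi : i < 4 * (n + 1)) :
    colr (n + 1) (2 * i + 1) = bar (colr (n + 1) (2 * i)) := by
  obtain ⟨j, hj, h1, h2⟩ := blk (n := n) (s := 2 * i) (by omega)
  have e : 2 * (n + 1) * j = 2 * ((n + 1) * j) := by ring
  refine Fin.ext ?_
  rw [bar_val, colr_val hj h1 h2, colr_val hj (by omega) (by omega)]
  split_ifs <;> omega

theorem colr_in {n s : ℕ} (hs : In n s) : colr (n + 1) (s + 1) = bar (colr (n + 1) s) := by
  unfold In at hs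
  obtain ⟨j, hj, h1, h2⟩ := blk (n := n) (s := s) (by omega)
  have h3 : s + 1 < 2 * (n + 1) * j + 2 * (n + 1) := by
    obtain rfl | rfl | rfl | rfl : j = 0 ∨ j = 1 ∨ j = 2 ∨ j = 3 := by omega
    all_goals omega
  refine Fin.ext ?_
  rw [bar_val, colr_val hj h1 h2, colr_val hj (by omega) h3]
  split_ifs <;> omega

theorem colr_ends (n : ℕ) : colr (n + 1) 0 = 0 ∧ colr (n + 1) (2 * n + 1) = 1 ∧
    colr (n + 1) (2 * n + 2) = 2 ∧ colr (n + 1) (4 * n + 3) = 3 ∧ colr (n + 1) (4 * n + 4) = 4 ∧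
    colr (n + 1) (6 * n + 5) = 5 ∧ colr (n + 1) (6 * n + 6) = 6 ∧
    colr (n + 1) (8 * n + 7) = 7 := by
  refine ⟨Fin.ext ?_, Fin.ext ?_, Fin.ext ?_, Fin.ext ?_, Fin.ext ?_, Fin.ext ?_, Fin.ext ?_,
    Fin.ext ?_⟩
  · rw [colr_val (j := 0) (by omega) (by omega) (by omega)]; rfl
  · rw [colr_val (j := 0) (by omega) (by omega) (by omega)]; simp
  · rw [colr_val (j := 1) (by omega) (by omega) (by omega)]; simp
  · rw [colr_val (j := 1) (by omega) (by omega) (by omega)]; simp; omega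
  · rw [colr_val (j := 2) (by omega) (by omega) (by omega)]; simp; omega
  · rw [colr_val (j := 2) (by omega) (by omega) (by omega)]; simp; omega
  · rw [colr_val (j := 3) (by omega) (by omega) (by omega)]; simp; omega
  · rw [colr_val (j := 3) (by omega) (by omega) (by omega)]; simp; omega

theorem band_ind {n : ℕ} (p : ℕ → Prop) (h0 : p 0) (h1 : p (2 * n + 2)) (h2 : p (4 * n + 4))
    (h3 : p (6 * n + 6)) (he : ∀ i < 4 * (n + 1), p (2 * i) → p (2 * i + 1))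
    (ho : ∀ s, In n s → p s → p (s + 1)) : ∀ s < 8 * (n + 1), p s := by
  intro s
  induction s with
  | zero => exact fun _ => h0
  | succ s ih =>
    intro hs
    rcases (by omega : s % 2 = 0 ∨ s = 2 * n + 1 ∨ s = 4 * n + 3 ∨ s = 6 * n + 5 ∨
      (s % 2 = 1 ∧ s < 8 * n + 7 ∧ s ≠ 2 * n + 1 ∧ s ≠ 4 * n + 3 ∧ s ≠ 6 * n + 5)) with
      c | rfl | rfl | rfl | c
    · obtain ⟨i, rfl⟩ : ∃ i, s = 2 * i := ⟨s / 2, by omega⟩
      exact he i (by omega) (ih (by omega))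
    exacts [h1, h2, h3, ho s c (ih (by omega))]

/-- the conditions on the frames at the bottom -/
def CB (n : ℕ) (e F : ℕ → H) : Prop :=
  F 0 = 1 ∧ F (2 * n + 2) = 1 ∧ F (4 * n + 4) = 1 ∧ F (6 * n + 6) = 1 ∧
  F (2 * n + 1) = e 0 ∧ F (4 * n + 3) = e 1 ∧ F (6 * n + 5) = e 2 ∧ F (8 * n + 7) = e 3 ∧
  ∀ s, In n s → F s = F (s + 1)

theorem dm {n s j : ℕ} (h1 : 2 * (n + 1) * j ≤ s) (h2 : s < 2 * (n + 1) * j + 2 * (n + 1)) :
    s / (2 * (n + 1)) = j ∧ s % (2 * (n + 1)) + 2 * (n + 1) * j = s := by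
  have : s / (2 * (n + 1)) = j :=
    Nat.div_eq_of_lt_le (by rw [mul_comm]; exact h1) (by rw [add_mul, mul_comm j]; omega)
  refine ⟨this, ?_⟩
  have h3 := Nat.mod_add_div s (2 * (n + 1))
  rwa [this] at h3

theorem inB_iff (n : ℕ) (b : Fin 8 → H) (e : ℕ → H) (l : List (St 8 H)) :
    InB (n + 1) b e l ↔ ∃ F, l = row (n + 1) b F ∧ CB n e F := by
  constructor
  · rintro ⟨f, hf, rfl⟩
    refine ⟨_, rfl, ?_⟩
    have A : ∀ j s, s = 2 * (n + 1) * j → (if s % (2 * (n + 1)) = 2 * (n + 1) - 1 then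
        e (s / (2 * (n + 1))) else f ((s + 1) / 2)) = 1 := fun j s hs => by
      have e1 : 2 * (n + 1) * j = 2 * ((n + 1) * j) := by ring
      obtain ⟨-, d2⟩ := dm (n := n) (s := s) (j := j) (by omega) (by omega)
      rw [if_neg (by omega), show (s + 1) / 2 = (n + 1) * j by omega, hf]
    have B : ∀ j s, s = 2 * (n + 1) * j + 2 * n + 1 → (if s % (2 * (n + 1)) = 2 * (n + 1) - 1 then
        e (s / (2 * (n + 1))) else f ((s + 1) / 2)) = e j := fun j s hs => by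
      obtain ⟨d1, d2⟩ := dm (n := n) (s := s) (j := j) (by omega) (by omega)
      rw [if_pos (by omega), d1]
    refine ⟨A 0 _ (by omega), A 1 _ (by omega), A 2 _ (by omega), A 3 _ (by omega),
      B 0 _ (by omega), B 1 _ (by omega), B 2 _ (by omega), B 3 _ (by omega), fun s hs => ?_⟩
    unfold In at hs
    obtain ⟨j, hj, h1, h2⟩ := blk (n := n) (s := s) (by omega)
    have h3 : s + 2 < 2 * (n + 1) * j + 2 * (n + 1) := by
      obtain rfl | rfl | rfl | rfl : j = 0 ∨ j = 1 ∨ j = 2 ∨ j = 3 := by omega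
      all_goals omega
    obtain ⟨-, d2⟩ := dm h1 h2
    obtain ⟨-, d3⟩ := dm (n := n) (s := s + 1) (j := j) (by omega) (by omega)
    simp only
    rw [if_neg (by omega), if_neg (by omega), show (s + 1 + 1) / 2 = (s + 1) / 2 by omega]
  · rintro ⟨F, rfl, c0, c1, c2, c3, e0, e1, e2, e3, hi⟩
    refine ⟨fun i => if i < 4 * (n + 1) then F (2 * i) else 1, fun j => ?_,
      row_congr b fun s hs => ?_⟩
    · simp only
      split_ifs with c
      · have hj : j < 4 := by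
          by_contra hj
          have : (n + 1) * 4 ≤ (n + 1) * j := Nat.mul_le_mul_left _ (by omega)
          omega
        obtain rfl | rfl | rfl | rfl : j = 0 ∨ j = 1 ∨ j = 2 ∨ j = 3 := by omega
        exacts [c0, by rw [← c1]; congr 1; omega, by rw [← c2]; congr 1; omega,
          by rw [← c3]; congr 1; omega]
      · rfl
    · obtain ⟨j, hj, h1, h2⟩ := blk hs
      obtain ⟨d1, d2⟩ := dm h1 h2
      rw [d1]
      beta_reduce
      split_ifs with c c'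
      · obtain rfl | rfl | rfl | rfl : j = 0 ∨ j = 1 ∨ j = 2 ∨ j = 3 := by omega
        exacts [by rw [← e0]; congr 1; omega, by rw [← e1]; congr 1; omega,
          by rw [← e2]; congr 1; omega, by rw [← e3]; congr 1; omega]
      · rcases (by omega : s % 2 = 0 ∨ s % 2 = 1) with p | p
        · congr 1; omega
        · rw [hi s, show 2 * ((s + 1) / 2) = s + 1 by omega]
          unfold In
          obtain rfl | rfl | rfl | rfl : j = 0 ∨ j = 1 ∨ j = 2 ∨ j = 3 := by omega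
          all_goals omega
      · exfalso
        obtain rfl | rfl | rfl | rfl : j = 0 ∨ j = 1 ∨ j = 2 ∨ j = 3 := by omega
        all_goals omega

theorem inT_iff (k : ℕ) (b : Fin 8 → H) (U : ℕ → H) :
    InT k b (row k b U) ↔ ∀ i < 4 * k, U (2 * i) = U (2 * i + 1) := by
  constructor
  · rintro ⟨f, hf⟩ i hi
    rw [← frm_row b U (show 2 * i < 8 * k by omega), ← frm_row b U (show 2 * i + 1 < 8 * k by omega),
      hf, frm_row _ _ (by omega), frm_row _ _ (by omega), show (2 * i + 1) / 2 = 2 * i / 2 by omega]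
  · intro h
    refine ⟨fun i => U (2 * i), row_congr b fun s hs => ?_⟩
    beta_reduce
    rcases (by omega : s % 2 = 0 ∨ s % 2 = 1) with p | p
    · congr 1; omega
    · rw [h _ (by omega)]; congr 1; omega

/-! ### The edges of the bands -/

/-- the potential of the left edge of a band with frame one -/
def aL (m : Mk H) : Fin 8 → H :=
  ![1, m.2.1.1 * m.2.1.2⁻¹ * m.2.1.1⁻¹, m.2.1.1 * m.2.1.2⁻¹ * m.2.1.1⁻¹, m.2.1.1 * m.2.1.2⁻¹,
    cm m.2.1, cm m.2.1 * (m.2.2.1 * m.2.2.2⁻¹ * m.2.2.1⁻¹),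
    cm m.2.1 * (m.2.2.1 * m.2.2.2⁻¹ * m.2.2.1⁻¹), cm m.2.1 * (m.2.2.1 * m.2.2.2⁻¹)]

theorem bar_bar (c : Fin 8) : bar (bar c) = c := by fin_cases c <;> rfl

theorem bs_eq (m : Mk H) (c : Fin 8) :
    bs (ym m) c = (zz m (aL m (bar c)))⁻¹ * zz m (aL m c) := by
  fin_cases c <;> simp [bs, ym, aL, bar, zz]

/-- a strand that runs upwards -/
def up (m : Mk H) (a : H) : St 8 H := ⟨0, zz m a, a⟩

/-- a strand that runs downwards -/
def dn (m : Mk H) (a : H) : St 8 H := ⟨0, (zz m a)⁻¹, a⟩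

theorem cj_up (m : Mk H) (a h : H) : cj (up m a) h = up m (a * h) :=
  St.ext rfl (by simp only [cj, up, zz]; group) rfl

theorem cj_dn (m : Mk H) (a h : H) : cj (dn m a) h = dn m (a * h) :=
  St.ext rfl (by simp only [cj, dn, zz]; group) rfl

theorem R1_ud {m : Mk H} {a b : H} (h : a = b) : R1 (up m a) (dn m b) := by
  subst h; exact ⟨rfl, rfl⟩

theorem R1_du {m : Mk H} {a b : H} (h : a = b) : R1 (dn m a) (up m b) := by
  subst h; exact ⟨(inv_inv _).symm, rfl⟩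

/-- the row of bands -/
def vf (n : ℕ) (m : Mk H) (F : ℕ → H) (s : ℕ) : St 8 H := mk (bs (ym m)) (colr (n + 1) s) (F s)

/-- the row of the edges of the bands -/
def ex (n : ℕ) (m : Mk H) (F : ℕ → H) (q : ℕ) : St 8 H :=
  if q % 2 = 0 then up m (aL m (colr (n + 1) (q / 2)) * F (q / 2))
  else dn m (aL m (bar (colr (n + 1) (q / 2))) * F (q / 2))

theorem ex0 (n : ℕ) (m : Mk H) (F : ℕ → H) (s : ℕ) :
    ex n m F (2 * s) = up m (aL m (colr (n + 1) s) * F s) := by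
  rw [ex, if_pos (by omega), show 2 * s / 2 = s by omega]

theorem ex1 (n : ℕ) (m : Mk H) (F : ℕ → H) (s : ℕ) :
    ex n m F (2 * s + 1) = dn m (aL m (bar (colr (n + 1) s)) * F s) := by
  rw [ex, if_neg (by omega), show (2 * s + 1) / 2 = s by omega]

theorem vf_col (n : ℕ) (m : Mk H) (F : ℕ → H) (s : ℕ) : (vf n m F s).col = bd (ex n m F) s := by
  simp only [bd, ex0, ex1, vf, mk, up, dn, bs_eq, zz]
  group

/-- solutions in terms of frames -/
def Sol (n : ℕ) (w : Word) (m : Mk H) (F : ℕ → H) : Prop :=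
  CB n (em m) F ∧ ∀ i < 4 * (n + 1),
    F (2 * i) * tau w (vf n m F) (2 * i) = F (2 * i + 1) * tau w (vf n m F) (2 * i + 1)

variable {n : ℕ} {w : Word}

theorem isSol_iff (hw : ∀ x ∈ w, x.1 + 1 < 8 * (n + 1)) (hp : ∀ s, ps w s = s) (m : Mk H)
    (u : List (St 8 H)) : IsSol (n + 1) (toBraid (8 * (n + 1)) w) m u ↔
      ∃ F, bact H (8 * (n + 1)) (toBraid (8 * (n + 1)) w) u = row (n + 1) (bs (ym m)) F ∧
        Sol n w m F := by
  have key : ∀ F, bact H (8 * (n + 1)) (toBraid (8 * (n + 1)) w) u = row (n + 1) (bs (ym m)) F →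
      u = row (n + 1) (bs (ym m)) fun s => F s * tau w (vf n m F) s := fun F h => by
    have hl : u.length = 8 * (n + 1) := by rw [← bact_length (toBraid _ w) u, h, row_length]
    rw [bact_toBraid w hl] at h
    have h2 := run_inverse (inverse w) u
    rw [inverse_inverse, h] at h2
    rw [← h2]
    refine (run_rn w hw (vf n m F)).trans (List.map_congr_left fun s _ => ?_)
    have := rn_ps w (vf n m F) s
    rw [hp] at this
    rw [this, vf, cj_mk]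
  rw [IsSol, inB_iff]
  constructor
  · rintro ⟨h1, F, h2, h3⟩
    rw [key F h2, inT_iff] at h1
    exact ⟨F, h2, h3, h1⟩
  · rintro ⟨F, h2, h3, h1⟩
    refine ⟨?_, F, h2, h3⟩
    rw [key F h2, inT_iff]
    exact h1

theorem cap1_ex {m : Mk H} {F : ℕ → H} (h : CB n (em m) F) : Cap1 n R1 (ex n m F) := by
  obtain ⟨c0, c1, c2, c3, e0, e1, e2, e3, hi⟩ := h
  obtain ⟨k0, k1, k2, k3, k4, k5, k6, k7⟩ := colr_ends n
  have y1 : bd (ex n m F) (2 * n + 2) = ym m 1 := by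
    rw [← vf_col, vf, k2, c1]; simp [mk, bs]
  have y3 : bd (ex n m F) (6 * n + 6) = ym m 3 := by
    rw [← vf_col, vf, k6, c3]; simp [mk, bs]
  unfold Cap1
  rw [y1, y3]
  simp only [ex0, ex1, cj_up, cj_dn, k0, k1, k2, k3, k4, k5, k6, k7, c0, c1, c2, c3, e0, e1, e2, e3]
  refine ⟨R1_du ?_, R1_du ?_, R1_du ?_, R1_du ?_, R1_du ?_, R1_du ?_, R1_du ?_, fun s hs => ?_⟩
  iterate 7 simp [aL, bar, em, cm, mul_assoc]
  rw [colr_in hs, bar_bar, hi s hs]
  exact ⟨R1_ud rfl, R1_du rfl⟩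

theorem cab_pure (hp : ∀ s, ps w s = s) (G g : ℕ → St 8 H) (h : ∀ s, (g s).col = bd G s)
    (s : ℕ) : rn (cable w) G (2 * s) = cj (G (2 * s)) (tau w g s) ∧
      rn (cable w) G (2 * s + 1) = cj (G (2 * s + 1)) (tau w g s) := by
  have h0 := cab w G g h s 0 (by omega)
  have h1 := cab w G g h s 1 (by omega)
  rw [hp] at h0 h1
  exact ⟨h0, h1⟩

/-- the strands at the bottom -/
def gc {N : ℕ} (c : Fin N → H) (q : ℕ) : St 8 H := ⟨0, (Pc c (q + 1))⁻¹ * Pc c q, 1⟩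

/-- the colouring `c` of the knot belongs to the marking `m` and the frames `F` -/
def Rel (n : ℕ) (c : Fin (2 * (8 * (n + 1))) → H) (m : Mk H) (F : ℕ → H) : Prop :=
  ∀ q < 2 * (8 * (n + 1)), (rn (B1 n) (gc c) q).col = (ex n m F q).col

theorem Rel.col {c : Fin (2 * (8 * (n + 1))) → H} {m : Mk H} {F : ℕ → H} (h : Rel n c m F) :
    ∀ q < 2 * (8 * (n + 1)),
      (rn (inverse (B1 n)) (ex n m F) q).col = (Pc c (q + 1))⁻¹ * Pc c q := fun q hq => by
  have := (col_congr _ (inverse_rng (B1_rng n)) _ _ h).1 q hq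
  rw [rn_inv] at this
  exact this.symm

theorem exists_rel (n : ℕ) (m : Mk H) (F : ℕ → H) : ∃ c, Rel n c m F := by
  refine ⟨fun q => (rn (inverse (B1 n)) (ex n m F) q).col, fun q hq => ?_⟩
  conv_rhs => rw [← rn_inv' (B1 n) (ex n m F)]
  exact (col_congr _ (B1_rng n) _ _ fun q hq =>
    (A_Pc_col (fun q : Fin _ => (rn (inverse (B1 n)) (ex n m F) q).col) ⟨q, hq⟩).symm).1 q hq

theorem Rel.inj {c c' : Fin (2 * (8 * (n + 1))) → H} {m : Mk H} {F F' : ℕ → H} (h : Rel n c m F)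
    (h' : Rel n c' m F') (e : ∀ s < 8 * (n + 1), F s = F' s) : c = c' := by
  have h2 : Rel n c' m F := fun q hq => by
    rw [h' q hq, ex, ex, e _ (by omega)]
  funext q
  rw [A_Pc_col c q, A_Pc_col c' q, ← h.col q q.2, ← h2.col q q.2]

theorem mem_of_sol {m : Mk H} {F : ℕ → H} (hw : ∀ x ∈ w, x.1 + 1 < 8 * (n + 1)) (h : Sol n w m F)
    (K : Subgroup H) (hK : ∀ s < 8 * (n + 1), (vf n m F s).col ∈ K) :
    (∀ s < 8 * (n + 1), F s ∈ K) ∧ ∀ c, aL m c ∈ K := by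
  obtain ⟨⟨c0, c1, c2, c3, e0, e1, e2, e3, hi⟩, ht⟩ := h
  obtain ⟨k0, k1, k2, k3, k4, k5, k6, k7⟩ := colr_ends n
  have hτ := (col_mem K w hw _ hK).2
  have hF : ∀ s < 8 * (n + 1), F s ∈ K := by
    refine band_ind _ (c0 ▸ K.one_mem) (c1 ▸ K.one_mem) (c2 ▸ K.one_mem) (c3 ▸ K.one_mem)
      (fun i hi h => ?_) fun s hs h => hi s hs ▸ h
    rw [← mul_inv_eq_iff_eq_mul.2 (ht i hi)]
    exact K.mul_mem (K.mul_mem h (hτ _)) (K.inv_mem (hτ _))
  have y1 : ym m 1 ∈ K := by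
    have := hK (2 * n + 2) (by omega)
    rw [vf, k2, c1] at this
    simpa [mk, bs] using this
  have y3 : ym m 3 ∈ K := by
    have := hK (6 * n + 6) (by omega)
    rw [vf, k6, c3] at this
    simpa [mk, bs] using this
  have l0 : m.2.1.1 ∈ K := (K.mul_mem_cancel_right y1).1 (show em m 0 ∈ K from
    e0 ▸ hF _ (by omega))
  have l1 : m.2.1.2 ∈ K := show em m 1 ∈ K from e1 ▸ hF _ (by omega)
  have l2 : m.2.2.1 ∈ K := (K.mul_mem_cancel_right y3).1 (show em m 2 ∈ K from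
    e2 ▸ hF _ (by omega))
  have l3 : m.2.2.2 ∈ K := show em m 3 ∈ K from e3 ▸ hF _ (by omega)
  have a1 := K.mul_mem l0 (K.inv_mem l1)
  have a2 := K.mul_mem a1 (K.inv_mem l0)
  have a3 : cm m.2.1 ∈ K := K.mul_mem a2 l1
  have a4 := K.mul_mem l2 (K.inv_mem l3)
  have a5 := K.mul_mem a4 (K.inv_mem l2)
  refine ⟨hF, fun c => ?_⟩
  fin_cases c
  exacts [K.one_mem, a2, a2, a1, a3, K.mul_mem a3 a5, K.mul_mem a3 a5, K.mul_mem a3 a4]

theorem props {c : Fin (2 * (8 * (n + 1))) → H} {m : Mk H} {F : ℕ → H}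
    (hw : ∀ x ∈ w, x.1 + 1 < 8 * (n + 1)) (hp : ∀ s, ps w s = s) (hc : Commute m.1 (lam m))
    (hs : Sol n w m F) (h : Rel n c m F) :
    Capd (8 * (n + 1)) (surf (n + 1) w) (Pc c) ∧ m.1 = (Pc c 1)⁻¹ ∧
      lam m = Raw (surf (n + 1) w) (Pc c) ∧
      ((∀ i j, Commute (c i) (c j)) → ∀ j, ym m j = 1) ∧
      ((∀ j, ym m j = 1) → ∀ i, c i ∈ Subgroup.zpowers m.1) := by
  obtain ⟨k0, k1, k2, k3, k4, k5, k6, k7⟩ := colr_ends n
  have x0 : ex n m F (2 * 0) = up m 1 := by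
    rw [ex0, k0, hs.1.1]; simp [aL]
  have x1 : ex n m F (2 * (8 * n + 7) + 1) = dn m (lam m) := by
    rw [ex1, k7, hs.1.2.2.2.2.2.2.2.1]; simp [aL, bar, em, lam, cm, mul_assoc]
  obtain ⟨b1, b2, b3, b4⟩ := bot_dn (cap1_ex hs.1) (by
    rw [x0, x1]
    simp only [up, dn, zz]
    rw [mul_assoc, hc.eq]
    group)
  rw [x0] at b3
  rw [x1] at b4
  obtain ⟨t1, t2⟩ := top_up (m := 4 * (n + 1)) (G := rn (cable w) (ex n m F)) fun i hi => by
    obtain ⟨p0, p1⟩ := cab_pure hp _ _ (vf_col n m F) (2 * i)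
    obtain ⟨p2, p3⟩ := cab_pure hp _ _ (vf_col n m F) (2 * i + 1)
    rw [show 4 * i = 2 * (2 * i) by omega, show 2 * (2 * i) + 3 = 2 * (2 * i + 1) + 1 by omega,
      show 2 * (2 * i) + 2 = 2 * (2 * i + 1) by omega, p0, p1, p2, p3, ex0, ex0, ex1, ex1,
      colr_even hi, bar_bar, cj_up, cj_up, cj_dn, cj_dn]
    simp only [mul_assoc, hs.2 i hi]
    exact ⟨R1_ud rfl, R1_du rfl⟩
  have e : rn (surf (n + 1) w) (rn (inverse (B1 n)) (ex n m F)) =
      rn (inverse (nest 0 (4 * (n + 1)))) (rn (cable w) (ex n m F)) := by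
    rw [surf_eq, rn_append, rn_append, rn_inv']
  rw [← e, show 2 * (4 * (n + 1)) = 8 * (n + 1) by omega] at t1 t2
  have hm : m.1 = c ⟨0, by omega⟩ := by
    rw [A_Pc_col c, ← h.col 0 (by omega), b3]
    simp [up, zz]
  have cc : ∀ i : Fin (2 * (8 * (n + 1))), c i = (rn (inverse (B1 n)) (ex n m F) i).col :=
    fun i => by rw [h.col i i.2, ← A_Pc_col]
  refine ⟨(capd_iff (surf_rng hw) (Pc_zero c) h.col).2 ⟨b1, t1⟩, ?_, ?_, fun ha j => ?_,
    fun hy i => ?_⟩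
  · rw [hm, A_Pc_col c, Pc_zero, mul_one]
  · rw [raw_eq (by omega) (surf_rng hw) h.col b2 t2, b3, b4]
    simp [up, dn]
  · have h1 : ∀ q < 2 * (8 * (n + 1)), (ex n m F q).col ∈ Subgroup.centralizer {m.1} := by
      rw [← rn_inv' (B1 n) (ex n m F)]
      refine (col_mem _ _ (B1_rng n) _ fun q hq => ?_).1
      rw [← cc ⟨q, hq⟩, Subgroup.mem_centralizer_singleton_iff, hm]
      exact ha _ _
    have h2 := (mem_of_sol hw hs (Subgroup.centralizer {m.1}) fun s hs => by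
      rw [vf_col]
      exact Subgroup.mul_mem _ (h1 _ (by omega)) (h1 _ (by omega))).2
    have h3 : ∀ c, bs (ym m) c = 1 := fun c => by
      have z : ∀ c, zz m (aL m c) = m.1 := fun c => by
        rw [zz, mul_assoc, ← Subgroup.mem_centralizer_singleton_iff.1 (h2 c), inv_mul_cancel_left]
      rw [bs_eq, z, z, inv_mul_cancel]
    fin_cases j
    exacts [h3 0, h3 2, h3 4, h3 6]
  · have h1 : ∀ c, bs (ym m) c = 1 := fun c => by
      fin_cases c <;> simp [bs, hy]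
    obtain ⟨h2, h3⟩ := mem_of_sol hw hs ⊥ fun s _ => by simp [vf, mk, h1]
    simp only [Subgroup.mem_bot] at h2 h3
    rw [cc]
    refine (col_mem _ _ (inverse_rng (B1_rng n)) _ fun q hq => ?_).1 i i.2
    rw [ex, h2 _ (by omega), h3, h3]
    split_ifs <;> simp [up, dn, zz]

theorem uniq {c : Fin (2 * (8 * (n + 1))) → H} {m m' : Mk H} {F F' : ℕ → H}
    (hw : ∀ x ∈ w, x.1 + 1 < 8 * (n + 1)) (hs : Sol n w m F) (hs' : Sol n w m' F')
    (h : Rel n c m F) (h' : Rel n c m' F') : m = m' ∧ ∀ s < 8 * (n + 1), F s = F' s := by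
  obtain ⟨⟨c0, c1, c2, c3, e0, e1, e2, e3, hi⟩, ht⟩ := hs
  obtain ⟨⟨c0', c1', c2', c3', e0', e1', e2', e3', hi'⟩, ht'⟩ := hs'
  obtain ⟨k0, k1, k2, k3, k4, k5, k6, k7⟩ := colr_ends n
  have hx : ∀ q < 2 * (8 * (n + 1)), (ex n m F q).col = (ex n m' F' q).col :=
    fun q hq => (h q hq).symm.trans (h' q hq)
  have hv : ∀ s < 8 * (n + 1), (vf n m F s).col = (vf n m' F' s).col := fun s hs => by
    rw [vf_col, vf_col, bd, bd, hx _ (by omega), hx _ (by omega)]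
  have hτ := (col_congr w hw _ _ hv).2
  have hF : ∀ s < 8 * (n + 1), F s = F' s := by
    refine band_ind _ (c0.trans c0'.symm) (c1.trans c1'.symm) (c2.trans c2'.symm)
      (c3.trans c3'.symm) (fun i hi h => ?_) fun s hs h => by rw [← hi s hs, ← hi' s hs, h]
    rw [← mul_inv_eq_iff_eq_mul.2 (ht i hi), ← mul_inv_eq_iff_eq_mul.2 (ht' i hi), h, hτ, hτ]
  have y1 : ym m 1 = ym m' 1 := by
    have := hv (2 * n + 2) (by omega)
    rw [vf, vf, k2, c1, c1'] at this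
    simpa [mk, bs] using this
  have y3 : ym m 3 = ym m' 3 := by
    have := hv (6 * n + 6) (by omega)
    rw [vf, vf, k6, c3, c3'] at this
    simpa [mk, bs] using this
  have t : m.1 = m'.1 := by
    have := hx (2 * 0) (by omega)
    rw [ex0, ex0, k0, c0, c0'] at this
    simpa [up, zz, aL] using this
  have l0 : em m 0 = em m' 0 := by rw [← e0, ← e0', hF _ (by omega)]
  have l1 : em m 1 = em m' 1 := by rw [← e1, ← e1', hF _ (by omega)]
  have l2 : em m 2 = em m' 2 := by rw [← e2, ← e2', hF _ (by omega)]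
  have l3 : em m 3 = em m' 3 := by rw [← e3, ← e3', hF _ (by omega)]
  simp only [em, y1, y3, mul_left_inj] at l0 l1 l2 l3
  exact ⟨Prod.ext t (Prod.ext (Prod.ext l0 l1) (Prod.ext l2 l3)), hF⟩

theorem handle {t a b c d l l' : H} (h1 : c = b⁻¹) (h2 : l⁻¹ * b⁻¹ * l = d⁻¹)
    (h3 : l'⁻¹ * d⁻¹ * l' = (l⁻¹ * (a⁻¹ * t * a)⁻¹ * l)⁻¹) :
    d⁻¹ = (a * (l * l'⁻¹))⁻¹ * t * (a * (l * l'⁻¹)) ∧
      b⁻¹ = (a * (l * l'⁻¹ * l⁻¹))⁻¹ * t * (a * (l * l'⁻¹ * l⁻¹)) ∧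
      c = (a * (l * l'⁻¹ * l⁻¹))⁻¹ * t * (a * (l * l'⁻¹ * l⁻¹)) := by
  have e1 : d⁻¹ = (a * (l * l'⁻¹))⁻¹ * t * (a * (l * l'⁻¹)) := by
    calc d⁻¹ = l' * (l'⁻¹ * d⁻¹ * l') * l'⁻¹ := by group
      _ = _ := by rw [h3]; group
  have e2 : b⁻¹ = (a * (l * l'⁻¹ * l⁻¹))⁻¹ * t * (a * (l * l'⁻¹ * l⁻¹)) := by
    calc b⁻¹ = l * (l⁻¹ * b⁻¹ * l) * l⁻¹ := by group
      _ = _ := by rw [h2, e1]; group
  exact ⟨e1, e2, h1.trans e2⟩

theorem exists_sol {c : Fin (2 * (8 * (n + 1))) → H} (hw : ∀ x ∈ w, x.1 + 1 < 8 * (n + 1))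
    (hp : ∀ s, ps w s = s) (hc : Capd (8 * (n + 1)) (surf (n + 1) w) (Pc c)) :
    ∃ m F, Commute m.1 (lam m) ∧ Sol n w m F ∧ Rel n c m F := by
  classical
  obtain ⟨b0, t0⟩ := (capd_iff (g := gc c) (surf_rng hw) (Pc_zero c) fun _ _ => rfl).1 hc
  obtain ⟨⟨d1, d2, d3, d4, d5, d6, d7, di⟩, d0⟩ := bot_up b0
  rw [surf_eq, rn_append, rn_append] at t0
  have t1 := top_dn (t0.sub (i := 0) rfl (by omega))
  unfold Rel
  generalize rn (B1 n) (gc c) = G at *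
  clear b0 t0 hc c
  obtain ⟨τ, hτ⟩ : ∃ τ, τ = tau w fun s => (⟨0, bd G s, 1⟩ : St 8 H) := ⟨_, rfl⟩
  have hcab := cab_pure hp G (fun s => (⟨0, bd G s, 1⟩ : St 8 H)) fun _ => rfl
  rw [← hτ] at hcab
  obtain ⟨F, F0, Fs⟩ : ∃ F : ℕ → H, F 0 = 1 ∧ ∀ s, F (s + 1) =
      if s % 2 = 0 then F s * τ s * (τ (s + 1))⁻¹ else if In n s then F s else 1 :=
    ⟨fun s => Nat.rec 1 (fun s a => if s % 2 = 0 then a * τ s * (τ (s + 1))⁻¹ else
      if In n s then a else 1) s, rfl, fun _ => rfl⟩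
  have F1 : F (2 * n + 2) = 1 := by rw [Fs, if_neg (by omega), if_neg (by unfold In; omega)]
  have F2 : F (4 * n + 4) = 1 := by rw [Fs, if_neg (by omega), if_neg (by unfold In; omega)]
  have F3 : F (6 * n + 6) = 1 := by rw [Fs, if_neg (by omega), if_neg (by unfold In; omega)]
  have Fi : ∀ s, In n s → F s = F (s + 1) := fun s hs => by
    rw [Fs, if_neg (by unfold In at hs; omega), if_pos hs]
  have Fe : ∀ i, F (2 * i + 1) = F (2 * i) * τ (2 * i) * (τ (2 * i + 1))⁻¹ := fun i => by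
    rw [Fs, if_pos (by omega)]
  obtain ⟨k0, k1, k2, k3, k4, k5, k6, k7⟩ := colr_ends n
  obtain ⟨A, A0, A1, A2, A3, A4, A5, A6, A7⟩ : ∃ A : Fin 8 → H, A 0 = (G (2 * 0)).col ∧
      A 1 = (G (2 * 0 + 1)).col⁻¹ ∧ A 2 = (G (2 * (2 * n + 2))).col ∧
      A 3 = (G (2 * (2 * n + 2) + 1)).col⁻¹ ∧ A 4 = (G (2 * (4 * n + 4))).col ∧
      A 5 = (G (2 * (4 * n + 4) + 1)).col⁻¹ ∧ A 6 = (G (2 * (6 * n + 6))).col ∧
      A 7 = (G (2 * (6 * n + 6) + 1)).col⁻¹ :=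
    ⟨![_, _, _, _, _, _, _, _], rfl, rfl, rfl, rfl, rfl, rfl, rfl, rfl⟩
  obtain ⟨r0, r1, r2, r3, r4, r5, r6, r7⟩ : bar 0 = 1 ∧ bar 1 = 0 ∧ bar 2 = 3 ∧ bar 3 = 2 ∧
    bar 4 = 5 ∧ bar 5 = 4 ∧ bar 6 = 7 ∧ bar 7 = 6 := ⟨rfl, rfl, rfl, rfl, rfl, rfl, rfl, rfl⟩
  have hG : ∀ s < 8 * (n + 1), (G (2 * s)).col = (F s)⁻¹ * A (colr (n + 1) s) * F s ∧
      (G (2 * s + 1)).col = (F s)⁻¹ * (A (bar (colr (n + 1) s)))⁻¹ * F s := by
    refine band_ind _ ?_ ?_ ?_ ?_ (fun i hi h => ?_) fun s hs h => ?_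
    · rw [F0, k0, r0, A0, A1]; simp
    · rw [F1, k2, r2, A2, A3]; simp
    · rw [F2, k4, r4, A4, A5]; simp
    · rw [F3, k6, r6, A6, A7]; simp
    · obtain ⟨u1, u2⟩ := t1 i hi
      rw [R0, show 4 * i = 2 * (2 * i) by omega] at u1 u2
      rw [show 2 * (2 * i) + 3 = 2 * (2 * i + 1) + 1 by omega, (hcab _).1, (hcab _).2, cj_col,
        cj_col, h.1] at u1
      rw [show 2 * (2 * i) + 2 = 2 * (2 * i + 1) by omega, (hcab _).1, (hcab _).2, cj_col,
        cj_col, h.2] at u2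
      rw [colr_even hi, bar_bar, Fe]
      constructor
      · calc _ = τ (2 * i + 1) * ((τ (2 * i + 1))⁻¹ * (G (2 * (2 * i + 1))).col * τ (2 * i + 1)) *
              (τ (2 * i + 1))⁻¹ := by group
          _ = _ := by rw [u2]; group
      · calc _ = τ (2 * i + 1) * ((τ (2 * i + 1))⁻¹ * (G (2 * (2 * i + 1) + 1)).col *
              τ (2 * i + 1)) * (τ (2 * i + 1))⁻¹ := by group
          _ = _ := by rw [u1]; group
    · obtain ⟨u1, u2⟩ := di s hs
      rw [R0] at u1 u2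
      rw [colr_in hs, bar_bar, ← Fi s hs, u1, u2, h.1, h.2]
      constructor <;> group
  obtain ⟨g1, g1'⟩ := hG (2 * n + 1) (by omega)
  obtain ⟨g3, g3'⟩ := hG (4 * n + 3) (by omega)
  obtain ⟨g5, g5'⟩ := hG (6 * n + 5) (by omega)
  obtain ⟨g7, g7'⟩ := hG (8 * n + 7) (by omega)
  rw [k1] at g1 g1'
  rw [k3] at g3 g3'
  rw [k5] at g5 g5'
  rw [k7] at g7 g7'
  simp only [R0, cj_col, g1, g1', g3, g3', g5, g5', g7, g7', r1, r3, r5, r7, ← A0, ← A2, ← A4,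
    ← A6] at d0 d1 d2 d3 d4 d5 d6 d7
  rw [← A1] at d1
  rw [← A3] at d2
  rw [← A5] at d5
  rw [← A7] at d6
  have y1 : bd G (2 * n + 2) = (A 3)⁻¹ * A 2 := by rw [bd, A2, A3, inv_inv]
  have y3 : bd G (6 * n + 6) = (A 7)⁻¹ * A 6 := by rw [bd, A6, A7, inv_inv]
  obtain ⟨m, m0, m1, m2, m3, m4⟩ : ∃ m : Mk H, m.1 = A 0 ∧
      m.2.1.1 = F (2 * n + 1) * (bd G (2 * n + 2))⁻¹ ∧ m.2.1.2 = F (4 * n + 3) ∧
      m.2.2.1 = F (6 * n + 5) * (bd G (6 * n + 6))⁻¹ ∧ m.2.2.2 = F (8 * n + 7) :=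
    ⟨⟨_, ⟨_, _⟩, _, _⟩, rfl, rfl, rfl, rfl, rfl⟩
  obtain ⟨p3, p1, p2⟩ := handle (t := m.1) (a := 1) (b := (A 1)⁻¹) (c := A 2) (d := (A 3)⁻¹)
    (l := m.2.1.1) (l' := m.2.1.2) (by rw [d1, inv_inv]) (by rw [m1, inv_inv, inv_inv, ← d2]; group)
    (by rw [m0, m1, m2, inv_inv, d3]; group)
  have p4 : A 4 = (cm m.2.1)⁻¹ * m.1 * cm m.2.1 := by rw [d4, p2, ← m2, cm]; group
  obtain ⟨p7, p5, p6⟩ := handle (t := m.1) (a := cm m.2.1) (b := (A 5)⁻¹) (c := A 6)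
    (d := (A 7)⁻¹) (l := m.2.2.1) (l' := m.2.2.2) (by rw [d5, inv_inv])
    (by rw [m3, inv_inv, inv_inv, ← d6]; group) (by rw [← p4, m3, m4, inv_inv, d7]; group)
  rw [inv_inv] at p1 p3 p5 p7
  rw [one_mul] at p1 p2 p3
  have hA : ∀ c, A c = zz m (aL m c) := fun c => by
    fin_cases c
    exacts [by simp [zz, aL, m0], p1, p2, p3, p4, p5, p6, p7]
  have hR : ∀ q < 2 * (8 * (n + 1)), (G q).col = (ex n m F q).col := fun q hq => by
    obtain ⟨u1, u2⟩ := hG (q / 2) (by omega)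
    rw [ex]
    split_ifs with c
    · rw [show 2 * (q / 2) = q by omega] at u1
      rw [u1, hA]
      simp only [up, zz]
      group
    · rw [show 2 * (q / 2) + 1 = q by omega] at u2
      rw [u2, hA]
      simp only [dn, zz]
      group
  have z1 : ym m 1 = bd G (2 * n + 2) := by rw [y1, hA, hA]; exact bs_eq m 2
  have z3 : ym m 3 = bd G (6 * n + 6) := by rw [y3, hA, hA]; exact bs_eq m 6
  refine ⟨m, F, ?_, ⟨⟨F0, F1, F2, F3, ?_, m2.symm, ?_, m4.symm, Fi⟩, fun i hi => ?_⟩, hR⟩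
  · have e : (lam m)⁻¹ * m.1 * lam m = m.1 := by
      rw [p6, ← m0, ← m4] at d0
      calc _ = (m.2.2.2⁻¹ * ((cm m.2.1 * (m.2.2.1 * m.2.2.2⁻¹ * m.2.2.1⁻¹))⁻¹ * m.1 *
            (cm m.2.1 * (m.2.2.1 * m.2.2.2⁻¹ * m.2.2.1⁻¹)))⁻¹ * m.2.2.2)⁻¹ := by
            rw [lam, show cm m.2.2 = _ * m.2.2.2 from rfl]; group
        _ = _ := by rw [d0, inv_inv]
    calc m.1 * lam m = lam m * ((lam m)⁻¹ * m.1 * lam m) := by group
      _ = _ := by rw [e]
  · rw [em, z1, m1, inv_mul_cancel_right]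
  · rw [em, z3, m3, inv_mul_cancel_right]
  · have := (col_congr w hw (vf n m F) (fun s => (⟨0, bd G s, 1⟩ : St 8 H)) fun s hs => by
      rw [vf_col, bd, bd, hR _ (by omega), hR _ (by omega)]).2
    rw [this, this, ← hτ, Fe, inv_mul_cancel_right]

end E1

open E1 in
theorem rowE1 : RowE1 := by
  intro k hk w hw hT
  obtain ⟨n, rfl⟩ : ∃ n, k = n + 1 := ⟨k - 1, by omega⟩
  have hp := ps_pure hw hT
  refine ⟨surf_rng hw, fun p => ?_, fun H _ => ?_⟩
  · rw [ps_pos, ps_pos, surf_eq, surf_eq]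
    simp only [ps_append]
    congr 1
    generalize ps (B1 n) p = q
    have := ps_cable w (q / 2) (q % 2) (by omega)
    rwa [hp, Nat.div_add_mod] at this
  have ex1 : ∀ c : {c : Fin (2 * (8 * (n + 1))) → H // Capd (8 * (n + 1)) (surf (n + 1) w) (Pc c)},
      ∃ x : {x : Mk H × List (St 8 H) //
        Commute x.1.1 (lam x.1) ∧ IsSol (n + 1) (toBraid (8 * (n + 1)) w) x.1 x.2},
        ∃ F, bact H (8 * (n + 1)) (toBraid (8 * (n + 1)) w) x.1.2 = row (n + 1) (bs (ym x.1.1)) F ∧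
          Sol n w x.1.1 F ∧ Rel n c.1 x.1.1 F := fun c => by
    obtain ⟨m, F, h1, h2, h3⟩ := exists_sol hw hp c.2
    have e := (bact H (8 * (n + 1)) (toBraid (8 * (n + 1)) w)).apply_symm_apply
      (row (n + 1) (bs (ym m)) F)
    exact ⟨⟨(m, _), h1, (isSol_iff hw hp m _).2 ⟨F, e, h2⟩⟩, F, e, h2, h3⟩
  choose Φ F h1 h2 h3 using ex1
  refine ⟨Equiv.ofBijective Φ ⟨fun c c' e => ?_, fun x => ?_⟩, fun c =>
    (props hw hp (Φ c).2.1 (h2 c) (h3 c)).2⟩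
  · have a1 := h1 c
    have a3 := h3 c
    rw [e] at a1 a3
    refine Subtype.ext (a3.inj (h3 c') fun s hs => ?_)
    rw [← frm_row _ (F c) hs, ← a1, h1 c', frm_row _ _ hs]
  · obtain ⟨F', a1, a2⟩ := (isSol_iff hw hp _ _).1 x.2.2
    obtain ⟨c, a3⟩ := exists_rel n x.1.1 F'
    have hc := (props hw hp x.2.1 a2 a3).1
    obtain ⟨e1, e2⟩ := uniq hw (h2 ⟨c, hc⟩) a2 (h3 ⟨c, hc⟩) a3
    refine ⟨⟨c, hc⟩, Subtype.ext (Prod.ext e1 ?_)⟩
    apply (bact H (8 * (n + 1)) (toBraid (8 * (n + 1)) w)).injective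
    rw [h1, a1, e1, row_congr _ e2]

end Vale.Agent.Q258D
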