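import Vale.Agent.Q258D.RowsT

/-!
# Infinite rows of strands, cables, neutral moves
-/

set_option linter.all false

namespace Vale.Agent.Q258D.E1

open Vale.Agent.P258.Braid Vale.Agent.N258B

variable {H : Type} [Group H]

/-- the strand `s` after it has passed under strands with product `h` -/
def cj (s : St 8 H) (h : H) : St 8 H := ⟨s.lab, h⁻¹ * s.col * h, s.tr * h⟩

/-- the colour of the strand above the strand at the position `q` -/
def und (x : ℕ × Bool) (g : ℕ → St 8 H) (q : ℕ) : H :=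
  if x.2 then (if q = x.1 + 1 then (g x.1).col else 1)
  else (if q = x.1 then (g (x.1 + 1)).col⁻¹ else 1)

/-- one crossing -/
def stp (x : ℕ × Bool) (g : ℕ → St 8 H) : ℕ → St 8 H :=
  fun q => cj (g (sw x q)) (und x g (sw x q))

/-- the final position -/
def ps (w : Word) (q : ℕ) : ℕ := w.foldl (fun q x => sw x q) q

/-- the final row -/
def rn (w : Word) (g : ℕ → St 8 H) : ℕ → St 8 H := w.foldl (fun g x => stp x g) g

/-- the product of the colours above a strand -/
def tau : Word → (ℕ → St 8 H) → ℕ → H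
  | [], _, _ => 1
  | x :: w, g, q => und x g q * tau w (stp x g) (sw x q)

theorem cj_one (s : St 8 H) : cj s 1 = s := St.ext rfl (by simp [cj]) (by simp [cj])

theorem cj_cj (s : St 8 H) (a b : H) : cj (cj s a) b = cj s (a * b) :=
  St.ext rfl (by simp only [cj]; group) (by simp only [cj]; group)

theorem cj_col (s : St 8 H) (a : H) : (cj s a).col = a⁻¹ * s.col * a := rfl

theorem cj_tr (s : St 8 H) (a : H) : (cj s a).tr = s.tr * a := rfl

theorem cj_mk (b : Fin 8 → H) (c : Fin 8) (h a : H) : cj (mk b c h) a = mk b c (h * a) :=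
  St.ext rfl (by simp only [cj, mk]; group) rfl

theorem ps_pos (w : Word) (q : ℕ) : pos w w.length q = ps w q := by
  rw [pos, List.take_length, ps]

theorem ps_cons (x : ℕ × Bool) (w : Word) (q : ℕ) : ps (x :: w) q = ps w (sw x q) := rfl

theorem rn_cons (x : ℕ × Bool) (w : Word) (g : ℕ → St 8 H) : rn (x :: w) g = rn w (stp x g) := rfl

theorem ps_append (u v : Word) (q : ℕ) : ps (u ++ v) q = ps v (ps u q) := by
  simp [ps, List.foldl_append]

theorem rn_append (u v : Word) (g : ℕ → St 8 H) : rn (u ++ v) g = rn v (rn u g) := by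
  simp [rn, List.foldl_append]

theorem stp_sw (x : ℕ × Bool) (g : ℕ → St 8 H) (q : ℕ) :
    stp x g (sw x q) = cj (g q) (und x g q) := by
  simp only [stp, C_sw_sw]

theorem rn_ps (w : Word) : ∀ (g : ℕ → St 8 H) (q : ℕ), rn w g (ps w q) = cj (g q) (tau w g q) := by
  induction w with
  | nil => intro g q; exact (cj_one _).symm
  | cons x w ih => intro g q; rw [rn_cons, ps_cons, ih, stp_sw, cj_cj]; rfl

theorem ps_surj (w : Word) (q : ℕ) : ∃ p, ps w p = q := ⟨lab w q, by rw [← ps_pos, pos_lab]⟩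

theorem stp_inv (x : ℕ × Bool) (g : ℕ → St 8 H) : stp (x.1, !x.2) (stp x g) = g := by
  obtain ⟨i, e⟩ := x
  funext q
  have h1 : sw (i, e) i = i + 1 := by simp [sw]
  have h2 : sw (i, e) (i + 1) = i := by simp [sw]
  have h3 : sw (i, !e) q = sw (i, e) q := rfl
  have h4 := stp_sw (i, e) g i
  have h5 := stp_sw (i, e) g (i + 1)
  rw [h1] at h4
  rw [h2] at h5
  rw [stp, h3, stp_sw, cj_cj]
  convert cj_one (g q)
  simp only [und, h4, h5]
  by_cases a : q = i
  · subst a
    cases e <;> simp [h1, cj]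
  · by_cases b : q = i + 1
    · subst b
      cases e <;> simp [h2, cj]
    · have : sw (i, e) q = q := by simp [sw, a, b]
      cases e <;> simp [this, a, b]

theorem inverse_cons (x : ℕ × Bool) (w : Word) :
    inverse (x :: w) = inverse w ++ [(x.1, !x.2)] := by simp [inverse]

theorem rn_inv (w : Word) : ∀ g : ℕ → St 8 H, rn (inverse w) (rn w g) = g := by
  induction w with
  | nil => intro g; rfl
  | cons x w ih =>
    intro g
    rw [inverse_cons, rn_append, rn_cons x, ih]
    exact stp_inv x g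

theorem rn_inv' (w : Word) (g : ℕ → St 8 H) : rn w (rn (inverse w) g) = g := by
  have := rn_inv (inverse w) g
  rwa [inverse_inverse] at this

theorem sw_lt {N : ℕ} {x : ℕ × Bool} (hx : x.1 + 1 < N) {q : ℕ} (hq : q < N) : sw x q < N := by
  unfold sw; split_ifs <;> omega

theorem ps_lt {N : ℕ} {w : Word} (hw : ∀ x ∈ w, x.1 + 1 < N) {q : ℕ} (hq : q < N) :
    ps w q < N := by
  rw [← ps_pos]; exact (pos_lt hw _ _).2 hq

theorem ps_ge {N : ℕ} {w : Word} (hw : ∀ x ∈ w, x.1 + 1 < N) {q : ℕ} (hq : N ≤ q) :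
    ps w q = q := by
  rw [← ps_pos]; exact A_pos_ge hw hq _ le_rfl

theorem inverse_rng {N : ℕ} {w : Word} (hw : ∀ x ∈ w, x.1 + 1 < N) :
    ∀ x ∈ inverse w, x.1 + 1 < N := fun x hx => by
  simp only [inverse, List.mem_reverse, List.mem_map] at hx
  obtain ⟨y, hy, rfl⟩ := hx
  exact hw y hy

/-- only the colours in range matter -/
theorem col_congr {N : ℕ} (w : Word) : (∀ x ∈ w, x.1 + 1 < N) → ∀ g g' : ℕ → St 8 H,
    (∀ q < N, (g q).col = (g' q).col) →
      (∀ q < N, (rn w g q).col = (rn w g' q).col) ∧ ∀ q, tau w g q = tau w g' q := by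
  induction w with
  | nil => intro _ g g' h; exact ⟨h, fun _ => rfl⟩
  | cons x w ih =>
    intro hw g g' h
    have hx := hw x (by simp)
    have hu : ∀ q, und x g q = und x g' q := fun q => by
      simp only [und, h x.1 (by omega), h (x.1 + 1) hx]
    have := ih (fun y hy => hw y (by simp [hy])) (stp x g) (stp x g') fun q hq => by
      simp only [stp, cj_col, hu, h _ (sw_lt hx hq)]
    exact ⟨this.1, fun q => by simp only [tau, hu, this.2]⟩

/-- colours in a subgroup -/
theorem col_mem {N : ℕ} (K : Subgroup H) (w : Word) : (∀ x ∈ w, x.1 + 1 < N) →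
    ∀ g : ℕ → St 8 H, (∀ q < N, (g q).col ∈ K) →
      (∀ q < N, (rn w g q).col ∈ K) ∧ ∀ q, tau w g q ∈ K := by
  induction w with
  | nil => intro _ g h; exact ⟨h, fun _ => K.one_mem⟩
  | cons x w ih =>
    intro hw g h
    have hx := hw x (by simp)
    have hu : ∀ q, und x g q ∈ K := fun q => by
      unfold und
      split_ifs
      exacts [h _ (by omega), K.one_mem, K.inv_mem (h _ hx), K.one_mem]
    have := ih (fun y hy => hw y (by simp [hy])) (stp x g) fun q hq =>
      K.mul_mem (K.mul_mem (K.inv_mem (hu _)) (h _ (sw_lt hx hq))) (hu _)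
    exact ⟨this.1, fun q => K.mul_mem (hu q) (this.2 _)⟩

theorem run_rn {N : ℕ} (w : Word) : (∀ x ∈ w, x.1 + 1 < N) → ∀ g : ℕ → St 8 H,
    run w ((List.range N).map g) = (List.range N).map (rn w g) := by
  induction w with
  | nil => intro _ g; rfl
  | cons x w ih =>
    intro hw g
    have hx := hw x (by simp)
    rw [rn_cons, ← ih (fun y hy => hw y (by simp [hy]))]
    change run w (cross x.1 x.2 _) = _
    congr 1
    obtain ⟨i, e⟩ := x
    simp only at hx
    refine List.ext_getElem? fun j => ?_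
    rw [A_cross_get e i _ (g i) (g (i + 1)) (by simp [show i < N by omega]) (by simp [hx])]
    by_cases a : j = i
    · subst a
      rw [if_pos rfl, List.getElem?_map, List.getElem?_range (by omega)]
      cases e <;> simp [stp, sw, und, half, cj]
    · rw [if_neg a]
      by_cases b : j = i + 1
      · subst b
        rw [if_pos rfl, List.getElem?_map, List.getElem?_range hx]
        cases e <;> simp [stp, sw, und, half, cj]
      · rw [if_neg b]
        rcases lt_or_ge j N with c | c
        · simp only [List.getElem?_map, List.getElem?_range c, Option.map_some]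
          cases e <;> simp [stp, sw, und, a, b, cj_one]
        · simp [c]

/-- pure braids fix the positions -/
theorem ps_pure {N : ℕ} {w : Word} (hw : ∀ x ∈ w, x.1 + 1 < N) (hp : toBraid N w ∈ Tw N 1)
    (s : ℕ) : ps w s = s := by
  rcases lt_or_ge s N with hs | hs
  · let g : ℕ → St 8 Unit := fun q => ⟨if q = s then 1 else 0, 1, 1⟩
    have h1 := run_eq_bact w ((List.range N).map g)
    rw [run_rn w hw, List.length_map, List.length_range] at h1
    have h2 := labs_pure ((Tw N 1).inv_mem hp) ((List.range N).map g)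
    rw [← h1] at h2
    have h3 := congrArg (fun L => L[ps w s]?) h2
    simp only [labs, List.getElem?_map, List.getElem?_range (ps_lt hw hs), Option.map_some,
      rn_ps, Option.some.injEq] at h3
    by_contra h
    simp [cj, g, h] at h3
  · exact ps_ge hw hs

/-- the relation with the labels of the regions -/
theorem reg_rn {N : ℕ} {w : Word} (hw : ∀ x ∈ w, x.1 + 1 < N) (P : ℕ → H) (g : ℕ → St 8 H)
    (h : ∀ q < N, (g q).col = (P (q + 1))⁻¹ * P q) : ∀ k ≤ w.length,
    (∀ q < N, (rn (w.take k) g q).col = (reg w P k (q + 1))⁻¹ * reg w P k q) ∧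
      ∀ p, (rn (w.take k) g (pos w k p)).tr = (g p).tr * trP w P p k := by
  intro k
  induction k with
  | zero => intro _; exact ⟨h, fun p => (mul_one _).symm⟩
  | succ k ih =>
    intro hk
    have hx : w[k]? = some w[k] := List.getElem?_eq_getElem hk
    have hr := hw _ (List.getElem_mem hk)
    obtain ⟨h1, h2⟩ := ih (by omega)
    have e1 : rn (w.take (k + 1)) g = stp w[k] (rn (w.take k) g) := by
      rw [List.take_add_one, hx, rn_append]; rfl
    rw [e1, reg_succ hx]
    simp only [pos_succ hx, trP, hx, stp_sw, cj_tr, h2]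
    generalize w[k] = x at hr
    generalize rn (w.take k) g = G at h1
    generalize reg w P k = R at h1
    obtain ⟨i, e⟩ := x
    simp only at hr
    have c1 := h1 i (by omega)
    have c2 := h1 (i + 1) hr
    refine ⟨fun q hq => ?_, fun p => ?_⟩
    · by_cases a : q = i
      · subst a
        cases e <;> simp [stp, sw, und, cj, stepP, c1, c2] <;> group
      · by_cases b : q = i + 1
        · subst b
          cases e <;> simp [stp, sw, und, cj, stepP, c1, c2] <;> group
        · cases e <;> simp [stp, sw, und, cj, stepP, a, b, h1 q hq]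
    · rw [mul_assoc]
      congr 2
      cases e <;> simp [und, under, c1, c2]

/-- a row of `n` caps from the position `a` on -/
def Nt (g : ℕ → St 8 H) (a n : ℕ) : Prop :=
  ∀ j < n, (g (a + 2 * j + 1)).col = (g (a + 2 * j)).col⁻¹

theorem capd_iff {b : ℕ} {w : Word} (hw : ∀ x ∈ w, x.1 + 1 < 2 * b) {P : ℕ → H} (h0 : P 0 = 1)
    {g : ℕ → St 8 H} (h : ∀ q < 2 * b, (g q).col = (P (q + 1))⁻¹ * P q) :
    Capd b w P ↔ Nt g 0 b ∧ Nt (rn w g) 0 b := by
  have h1 := (reg_rn hw P g h _ le_rfl).1
  rw [List.take_length] at h1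
  have key : ∀ (R : ℕ → H) (G : ℕ → St 8 H), R 0 = 1 →
      (∀ q < 2 * b, (G q).col = (R (q + 1))⁻¹ * R q) → ((∀ j ≤ b, R (2 * j) = 1) ↔ Nt G 0 b) := by
    intro R G r0 r
    refine ⟨fun hR j hj => ?_, fun hG => A_even R r0 b fun j hj => ?_⟩
    · have := hR (j + 1) hj
      rw [zero_add, r _ (by omega), r _ (by omega), hR j hj.le,
        show 2 * j + 1 + 1 = 2 * (j + 1) by ring, this]
      group
    · have := hG j hj
      rw [zero_add] at this
      rw [← r _ (by omega), ← r _ (by omega), this, mul_inv_cancel]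
  rw [← key P g h0 h, ← key _ _ ((reg_left w P _).trans h0) h1]
  exact ⟨fun hc => ⟨fun j hj => (hc j hj).1, fun j hj => (hc j hj).2⟩,
    fun hc j hj => ⟨hc.1 j hj, hc.2 j hj⟩⟩

theorem tr_mate {b : ℕ} {g : ℕ → St 8 H} {a : ℕ}
    (h : ∀ j < b, a ≤ j → (g (2 * j)).tr = (g (2 * j + 1)).tr) {q : ℕ} (hq : q < 2 * b)
    (ha : 2 * a ≤ q) : (g (mate q)).tr = (g q).tr := by
  have := h (q / 2) (by omega) (by omega)
  unfold mate
  split_ifs with c
  · rw [show 2 * (q / 2) = q by omega] at this
    exact this.symm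
  · rwa [show 2 * (q / 2) + 1 = q by omega, show 2 * (q / 2) = q - 1 by omega] at this

/-- the product along the knot is the jump of a potential -/
theorem raw_eq {b : ℕ} (hb : 0 < b) {w : Word} (hw : ∀ x ∈ w, x.1 + 1 < 2 * b) {P : ℕ → H}
    {g : ℕ → St 8 H} (h : ∀ q < 2 * b, (g q).col = (P (q + 1))⁻¹ * P q)
    (h1 : ∀ j < b, 1 ≤ j → (g (2 * j)).tr = (g (2 * j + 1)).tr)
    (h2 : ∀ j < b, 0 ≤ j → (rn w g (2 * j)).tr = (rn w g (2 * j + 1)).tr) :
    Raw w P = (g 0).tr⁻¹ * (g 1).tr := by
  have ok := ok_of_small hb hw 0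
  have h3 := (reg_rn hw P g h _ le_rfl).2
  rw [List.take_length] at h3
  have top : ∀ p < 2 * b, trP w P p w.length * (trP w P (down w p) w.length)⁻¹ =
      (g p).tr⁻¹ * (g (down w p)).tr := fun p hp => by
    have e := tr_mate h2 ((ok.top_lt p).2 hp) (by omega)
    rw [← C_pos_down, h3, h3] at e
    calc _ = (g p).tr⁻¹ * ((g p).tr * trP w P p w.length) * (trP w P (down w p) w.length)⁻¹ := by
          group
      _ = _ := by rw [← e]; group
  have key : ∀ i < per w, ((List.range (i + 1)).map fun i =>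
      trP w P (walk w i) w.length * (trP w P (down w (walk w i)) w.length)⁻¹).prod =
      (g 0).tr⁻¹ * (g (down w (walk w i))).tr := by
    intro i
    induction i with
    | zero => intro _; simpa [walk_zero] using top 0 (by omega)
    | succ i ih =>
      intro hi
      have d0 : down w (walk w i) ≠ 0 := down_ne_walk w i 0
      have d1 : down w (walk w i) ≠ 1 := fun e => by
        have : walk w (i + 1) = walk w 0 := by rw [walk_succ, e]; rfl
        exact absurd (walk_inj hi (by omega) this) (by omega)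
      have e := tr_mate h1 ((down_lt ok _).2 (walk_lt ok i)) (by omega)
      rw [← walk_succ] at e
      rw [List.range_succ, List.map_append, List.prod_append, ih (by omega), List.map_singleton,
        List.prod_singleton, top _ (walk_lt ok _), e]
      group
  have hp := per_pos ok
  have e := key (per w - 1) (by omega)
  have e2 : down w (walk w (per w - 1)) = 1 := by
    have := walk_succ w (per w - 1)
    rw [show per w - 1 + 1 = per w by omega, walk_per] at this
    rw [← mate_mate (down _ _), ← this]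
    rfl
  rwa [show per w - 1 + 1 = per w by omega, e2] at e

/-! ### Cables -/

/-- the label of the band `s` -/
def bd (G : ℕ → St 8 H) (s : ℕ) : H := (G (2 * s + 1)).col * (G (2 * s)).col

theorem cable_cons (x : ℕ × Bool) (w : Word) : cable (x :: w) =
    [(2 * x.1 + 1, x.2), (2 * x.1, x.2), (2 * x.1 + 2, x.2), (2 * x.1 + 1, x.2)] ++ cable w := rfl

theorem cable_append (u v : Word) : cable (u ++ v) = cable u ++ cable v := List.flatMap_append

theorem cable_rng {N : ℕ} {w : Word} (hw : ∀ x ∈ w, x.1 + 1 < N) :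
    ∀ x ∈ cable w, x.1 + 1 < 2 * N := fun x hx => by
  simp only [cable, List.mem_flatMap, List.mem_cons, List.not_mem_nil, or_false] at hx
  obtain ⟨y, hy, h⟩ := hx
  have := hw y hy
  rcases h with rfl | rfl | rfl | rfl <;> simp only <;> omega

theorem ps_cab1 (x : ℕ × Bool) (s e : ℕ) (he : e < 2) :
    ps [(2 * x.1 + 1, x.2), (2 * x.1, x.2), (2 * x.1 + 2, x.2), (2 * x.1 + 1, x.2)] (2 * s + e) =
      2 * sw x s + e := by
  simp only [ps, List.foldl_cons, List.foldl_nil, sw]
  split_ifs <;> omega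

theorem ps_cable (w : Word) : ∀ s e, e < 2 → ps (cable w) (2 * s + e) = 2 * ps w s + e := by
  induction w with
  | nil => intro s e _; rfl
  | cons x w ih => intro s e he; rw [cable_cons, ps_append, ps_cab1 x s e he, ih _ _ he, ps_cons]

theorem tau_cab1 (x : ℕ × Bool) (G g : ℕ → St 8 H) (h : ∀ s, (g s).col = bd G s) (s e : ℕ)
    (he : e < 2) :
    tau [(2 * x.1 + 1, x.2), (2 * x.1, x.2), (2 * x.1 + 2, x.2), (2 * x.1 + 1, x.2)] G (2 * s + e) =
      und x g s := by
  obtain ⟨i, b⟩ := x
  have h1 := h i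
  have h2 := h (i + 1)
  rw [bd, show 2 * (i + 1) = 2 * i + 2 by ring] at h2
  rw [bd] at h1
  by_cases a : s = i
  · subst a
    obtain rfl | rfl : e = 0 ∨ e = 1 := by omega
    all_goals cases b <;> simp [tau, und, sw, stp, cj, h1, h2, add_assoc]
  · by_cases c : s = i + 1
    · subst c
      rw [show 2 * (i + 1) = 2 * i + 2 by ring]
      obtain rfl | rfl : e = 0 ∨ e = 1 := by omega
      all_goals cases b <;> simp [tau, und, sw, stp, cj, h1, h2, add_assoc]
    · have a0 : 2 * s + e ≠ 2 * i := by omega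
      have a1 : 2 * s + e ≠ 2 * i + 1 := by omega
      have a2 : 2 * s + e ≠ 2 * i + 2 := by omega
      have a3 : 2 * s + e ≠ 2 * i + 3 := by omega
      cases b <;> simp [tau, und, sw, a, c, a0, a1, a2, a3]

/-- the two edges of a band are conjugated by the product of the labels above the band -/
theorem cab (w : Word) : ∀ (G g : ℕ → St 8 H), (∀ s, (g s).col = bd G s) → ∀ s e, e < 2 →
    rn (cable w) G (2 * ps w s + e) = cj (G (2 * s + e)) (tau w g s) := by
  induction w with
  | nil => intro G g _ s e _; exact (cj_one _).symm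
  | cons x w ih =>
    intro G g h s e he
    have key : ∀ s e, e < 2 → rn [(2 * x.1 + 1, x.2), (2 * x.1, x.2), (2 * x.1 + 2, x.2),
        (2 * x.1 + 1, x.2)] G (2 * sw x s + e) = cj (G (2 * s + e)) (und x g s) := fun s e he => by
      rw [← ps_cab1 x s e he, rn_ps, tau_cab1 x G g h s e he]
    rw [cable_cons, rn_append, ps_cons, ih _ (stp x g) _ _ _ he, key s e he, cj_cj]
    · rfl
    · intro q
      have k0 := key (sw x q) 0 (by omega)
      have k1 := key (sw x q) 1 (by omega)
      rw [C_sw_sw] at k0 k1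
      rw [add_zero, add_zero] at k0
      rw [bd, k0, k1, stp, cj_col, h, bd, cj_col, cj_col]
      group

/-! ### Neutral moves -/

/-- the word only permutes the row -/
def Neu (w : Word) (g : ℕ → St 8 H) : Prop := ∀ p, rn w g (ps w p) = g p

theorem Neu.append {u v : Word} {g : ℕ → St 8 H} (h : Neu u g) (h' : Neu v (rn u g)) :
    Neu (u ++ v) g := fun p => by rw [rn_append, ps_append, h', h]

theorem Neu.inv {w : Word} {G : ℕ → St 8 H} (h : Neu w fun p => G (ps w p)) :
    rn (inverse w) G = fun p => G (ps w p) := by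
  have : rn w (fun p => G (ps w p)) = G := funext fun q => by
    obtain ⟨p, rfl⟩ := ps_surj w q
    exact h p
  conv_lhs => rw [← this]
  exact rn_inv _ _

theorem Neu.nt {w : Word} {g : ℕ → St 8 H} (h : Neu w g) {a a' n : ℕ} (hn : Nt g a n)
    (e : ∀ r < 2 * n, ps w (a + r) = a' + r) : Nt (rn w g) a' n := fun j hj => by
  rw [add_assoc, ← e _ (by omega), ← e _ (by omega), h, h, ← add_assoc]
  exact hn j hj

theorem Nt.sub {g : ℕ → St 8 H} {a n : ℕ} (h : Nt g a n) {i m a' : ℕ} (e : a' = a + 2 * i)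
    (hm : i + m ≤ n) : Nt g a' m := fun j hj => by
  have := h (i + j) (by omega)
  rwa [show a + 2 * (i + j) = a' + 2 * j by omega] at this

theorem slide_succ (i d : ℕ) : slide i (d + 1) = slide i d ++ [(i + d, false)] := by
  simp [slide, List.range_succ]

theorem ps_slide (i d p : ℕ) :
    ps (slide i d) p = if p = i then i + d else if i < p ∧ p ≤ i + d then p - 1 else p := by
  induction d with
  | zero => simp only [slide, ps, List.range_zero, List.map_nil, List.foldl_nil]; split_ifs <;> omega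
  | succ d ih =>
    rw [slide_succ, ps_append, ih]
    simp only [ps, List.foldl_cons, List.foldl_nil, sw]
    split_ifs <;> omega

theorem rn_slide (i : ℕ) (g : ℕ → St 8 H) : ∀ d p, p ≠ i → rn (slide i d) g (ps (slide i d) p) = g p
  | 0, _, _ => rfl
  | d + 1, p, hp => by
    rw [slide_succ, rn_append, ps_append, rn_ps, rn_slide i g d p hp]
    convert cj_one _
    have : ps (slide i d) p ≠ i + d := by rw [ps_slide]; split_ifs <;> omega
    simp [tau, und, this]

theorem slide_step (i d : ℕ) (g : ℕ → St 8 H) : rn (slide i (d + 1)) g (i + (d + 1)) =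
    cj (rn (slide i d) g (i + d)) (g (i + d + 1)).col⁻¹ := by
  have h1 := rn_slide i g d (i + d + 1) (by omega)
  rw [ps_slide, if_neg (by omega), if_neg (by omega)] at h1
  have h2 : i + (d + 1) = sw (i + d, false) (i + d) := by simp [sw, add_assoc]
  rw [slide_succ, rn_append, h2]
  change stp _ _ _ = _
  rw [stp_sw]
  simp [und, h1]

theorem neu_slide {i n : ℕ} {g : ℕ → St 8 H} (h : Nt g (i + 1) n) : Neu (slide i (2 * n)) g := by
  intro p
  by_cases hp : p = i
  · subst hp
    rw [ps_slide, if_pos rfl]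
    induction n with
    | zero => rfl
    | succ n ih =>
      have := h n (by omega)
      rw [show 2 * (n + 1) = 2 * n + 1 + 1 by ring, slide_step, slide_step,
        ih fun j hj => h j (by omega), cj_cj,
        show p + (2 * n + 1) + 1 = p + 1 + 2 * n + 1 by ring, this,
        show p + 2 * n + 1 = p + 1 + 2 * n by ring, inv_inv, inv_mul_cancel, cj_one]
  · exact rn_slide i g _ p hp

theorem nest_succ (q n : ℕ) : nest q (n + 1) = nest q n ++ slide (q + 4 * n + 1) (2 * 1) := by
  simp [nest, List.range_succ]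

theorem ps_nest (q n p : ℕ) : ps (nest q n) p = if q ≤ p ∧ p < q + 4 * n then
    (if (p - q) % 4 = 1 then p + 2 else if 2 ≤ (p - q) % 4 then p - 1 else p) else p := by
  induction n with
  | zero => simp only [nest, ps, List.range_zero, List.flatMap_nil, List.foldl_nil]; split_ifs <;> omega
  | succ n ih =>
    rw [nest_succ, ps_append, ih, ps_slide]
    split_ifs <;> omega

theorem neu_nest {q : ℕ} {g : ℕ → St 8 H} : ∀ n, Nt g q (2 * n) → Neu (nest q n) g
  | 0, _ => fun _ => rfl
  | n + 1, h => by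
    have ih := neu_nest n (h.sub (i := 0) rfl (by omega))
    rw [nest_succ]
    refine ih.append (neu_slide (ih.nt (h.sub (i := 2 * n + 1) (a' := q + 4 * n + 2) (by ring)
      (by omega)) fun r hr => ?_))
    rw [ps_nest, if_neg (by omega)]

/-- one block of the bottom -/
def bl (a n : ℕ) : Word := slide (a + 2) (2 * (2 * n)) ++ nest (a + 2) n

theorem neu_bl {a n : ℕ} {g : ℕ → St 8 H} (h : Nt g (a + 3) (2 * n)) : Neu (bl a n) g := by
  have h1 : Neu (slide (a + 2) (2 * (2 * n))) g := neu_slide h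
  refine h1.append (neu_nest n (h1.nt h fun r hr => ?_))
  rw [ps_slide, if_neg (by omega), if_pos (by omega)]
  omega

theorem ps_bl_out {a n p : ℕ} (h : p ≤ a + 1 ∨ a + 4 * n + 3 ≤ p) : ps (bl a n) p = p := by
  rw [bl, ps_append, ps_nest, ps_slide]
  split_ifs <;> omega

theorem ps_bl_two {a n p : ℕ} (h : p = a + 2) : ps (bl a n) p = a + 4 * n + 2 := by
  rw [bl, ps_append, ps_nest, ps_slide]
  split_ifs <;> omega

theorem ps_bl_in {a n p i r : ℕ} (hi : i < n) (hr : r < 4) (h : p = a + 3 + 4 * i + r) :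
    ps (bl a n) p = a + 2 + 4 * i + (if r = 1 then 3 else if r = 0 then 0 else r - 1) := by
  rw [bl, ps_append, ps_nest, ps_slide]
  split_ifs <;> omega

theorem bottom_eq (n : ℕ) : bottom (n + 1) = slide 1 (2 * (8 * n + 7)) ++
    (bl 0 n ++ (bl (4 * n + 4) n ++ (bl (8 * n + 8) n ++ bl (12 * n + 12) n))) := by
  simp only [bottom, bl, List.range_succ, List.range_zero, List.flatMap_append, List.flatMap_nil,
    List.nil_append, List.flatMap_singleton, List.append_assoc, Nat.add_sub_cancel,
    show 16 * (n + 1) - 2 = 2 * (8 * n + 7) by omega, show 4 * (n + 1) - 4 = 2 * (2 * n) by omega,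
    show 4 * (n + 1) * 0 = 0 by omega, show 4 * (n + 1) * (0 + 1) = 4 * n + 4 by omega,
    show 4 * (n + 1) * (0 + 1 + 1) = 8 * n + 8 by omega,
    show 4 * (n + 1) * (0 + 1 + 1 + 1) = 12 * n + 12 by omega]

theorem neu_bottom {n : ℕ} {g : ℕ → St 8 H} (h : Nt g 0 (8 * (n + 1))) :
    Neu (bottom (n + 1)) g := by
  have h0 : Nt g (1 + 1) (8 * n + 7) := h.sub (i := 1) rfl (by omega)
  have s0 := neu_slide h0
  have t0 : Nt (rn (slide 1 (2 * (8 * n + 7))) g) 1 (8 * n + 7) := s0.nt h0 fun r hr => by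
    rw [ps_slide, if_neg (by omega), if_pos (by omega)]
    omega
  rw [bottom_eq]
  refine s0.append ?_
  generalize rn (slide 1 (2 * (8 * n + 7))) g = g0 at t0
  have s1 : Neu (bl 0 n) g0 := neu_bl (t0.sub (i := 1) rfl (by omega))
  have t1 : Nt (rn (bl 0 n) g0) (4 * n + 3) (6 * n + 6) :=
    s1.nt (t0.sub (i := 2 * n + 1) (by omega) (by omega)) fun r hr => ps_bl_out (by omega)
  refine s1.append ?_
  generalize rn (bl 0 n) g0 = g1 at t1
  have s2 : Neu (bl (4 * n + 4) n) g1 := neu_bl (t1.sub (i := 2) (by omega) (by omega))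
  have t2 : Nt (rn (bl (4 * n + 4) n) g1) (8 * n + 7) (4 * n + 4) :=
    s2.nt (t1.sub (i := 2 * n + 2) (by omega) (by omega)) fun r hr => ps_bl_out (by omega)
  refine s2.append ?_
  generalize rn (bl (4 * n + 4) n) g1 = g2 at t2
  have s3 : Neu (bl (8 * n + 8) n) g2 := neu_bl (t2.sub (i := 2) (by omega) (by omega))
  have t3 : Nt (rn (bl (8 * n + 8) n) g2) (12 * n + 11) (2 * n + 2) :=
    s3.nt (t2.sub (i := 2 * n + 2) (by omega) (by omega)) fun r hr => ps_bl_out (by omega)
  exact s3.append (neu_bl (t3.sub (i := 2) (by omega) (by omega)))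

theorem ps_blocks {n j p : ℕ} (hj : j < 4) (h1 : 4 * (n + 1) * j ≤ p)
    (h2 : p < 4 * (n + 1) * j + 4 * (n + 1))
    (h3 : 4 * (n + 1) * j ≤ ps (bl (4 * (n + 1) * j) n) p)
    (h4 : ps (bl (4 * (n + 1) * j) n) p < 4 * (n + 1) * j + 4 * (n + 1)) :
    ps (bl 0 n ++ (bl (4 * n + 4) n ++ (bl (8 * n + 8) n ++ bl (12 * n + 12) n))) p =
      ps (bl (4 * (n + 1) * j) n) p := by
  simp only [ps_append]
  obtain rfl | rfl | rfl | rfl : j = 0 ∨ j = 1 ∨ j = 2 ∨ j = 3 := by omega
  · rw [show 4 * (n + 1) * 0 = 0 by omega] at *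
    rw [ps_bl_out (a := 4 * n + 4) (by omega), ps_bl_out (a := 8 * n + 8) (by omega),
      ps_bl_out (a := 12 * n + 12) (by omega)]
  · rw [show 4 * (n + 1) * 1 = 4 * n + 4 by omega] at *
    rw [ps_bl_out (a := 0) (by omega), ps_bl_out (a := 8 * n + 8) (by omega),
      ps_bl_out (a := 12 * n + 12) (by omega)]
  · rw [show 4 * (n + 1) * 2 = 8 * n + 8 by omega] at *
    rw [ps_bl_out (a := 0) (by omega), ps_bl_out (a := 4 * n + 4) (by omega),
      ps_bl_out (a := 12 * n + 12) (by omega)]
  · rw [show 4 * (n + 1) * 3 = 12 * n + 12 by omega] at *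
    rw [ps_bl_out (a := 0) (by omega), ps_bl_out (a := 4 * n + 4) (by omega),
      ps_bl_out (a := 8 * n + 8) (by omega)]

theorem ps_bot0 (n : ℕ) : ps (bottom (n + 1)) 0 = 0 := by
  rw [bottom_eq]
  simp only [ps_append]
  rw [ps_slide, if_neg (by omega), if_neg (by omega), ps_bl_out (a := 0) (by omega),
    ps_bl_out (a := 4 * n + 4) (by omega), ps_bl_out (a := 8 * n + 8) (by omega),
    ps_bl_out (by omega)]

theorem ps_bot1 (n : ℕ) : ps (bottom (n + 1)) 1 = 16 * n + 15 := by
  rw [bottom_eq]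
  simp only [ps_append]
  rw [ps_slide, if_pos rfl, ps_bl_out (a := 0) (by omega), ps_bl_out (a := 4 * n + 4) (by omega),
    ps_bl_out (a := 8 * n + 8) (by omega), ps_bl_out (by omega)]
  omega

theorem ps_bot {n j p v : ℕ} (hj : j < 4) (h0 : 2 ≤ p) (h1 : 4 * (n + 1) * j + 1 ≤ p)
    (h2 : p ≤ 4 * (n + 1) * j + 4 * (n + 1)) (h5 : p < 16 * (n + 1))
    (h : ps (bl (4 * (n + 1) * j) n) (p - 1) = v) (h3 : 4 * (n + 1) * j ≤ v)
    (h4 : v < 4 * (n + 1) * j + 4 * (n + 1)) : ps (bottom (n + 1)) p = v := by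
  rw [bottom_eq, ps_append, ps_slide, if_neg (by omega), if_pos (by omega),
    ps_blocks hj (by omega) (by omega) (h ▸ h3) (h ▸ h4), h]

/-- the caps after the bottom, except the outermost -/
def Cap0 (n : ℕ) (R : St 8 H → St 8 H → Prop) (G : ℕ → St 8 H) : Prop :=
  ∀ j < 4, (j ≠ 0 → R (G (4 * (n + 1) * j - 1)) (G (4 * (n + 1) * j))) ∧
    R (G (4 * (n + 1) * j + 1)) (G (4 * (n + 1) * j + 4 * n + 2)) ∧
    ∀ i < n, R (G (4 * (n + 1) * j + 4 * i + 2)) (G (4 * (n + 1) * j + 4 * i + 5)) ∧
      R (G (4 * (n + 1) * j + 4 * i + 3)) (G (4 * (n + 1) * j + 4 * i + 4))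

theorem cap0_iff (n : ℕ) (R : St 8 H → St 8 H → Prop) (G : ℕ → St 8 H) :
    Cap0 n R G ↔ ∀ c < 8 * (n + 1), 1 ≤ c →
      R (G (ps (bottom (n + 1)) (2 * c))) (G (ps (bottom (n + 1)) (2 * c + 1))) := by
  have A : ∀ j < 4, j ≠ 0 → ∀ c, 2 * c = 4 * (n + 1) * j →
      ps (bottom (n + 1)) (2 * c) = 4 * (n + 1) * j - 1 ∧
        ps (bottom (n + 1)) (2 * c + 1) = 4 * (n + 1) * j := by
    intro j hj h0 c hc
    obtain ⟨j, rfl⟩ := Nat.exists_eq_succ_of_ne_zero h0
    have e : 4 * (n + 1) * j.succ = 4 * (n + 1) * j + 4 * (n + 1) := Nat.mul_succ _ _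
    have e2 : 4 * (n + 1) * j.succ ≤ 4 * (n + 1) * 3 := Nat.mul_le_mul_left _ (by omega)
    exact ⟨ps_bot (j := j) (by omega) (by omega) (by omega) (by omega) (by omega)
        ((ps_bl_out (by omega)).trans (by omega)) (by omega) (by omega),
      ps_bot hj (by omega) (by omega) (by omega) (by omega)
        ((ps_bl_out (by omega)).trans (by omega)) (by omega) (by omega)⟩
  have B : ∀ j < 4, ∀ c, 2 * c = 4 * (n + 1) * j + 2 →
      ps (bottom (n + 1)) (2 * c) = 4 * (n + 1) * j + 1 ∧
        ps (bottom (n + 1)) (2 * c + 1) = 4 * (n + 1) * j + 4 * n + 2 := by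
    intro j hj c hc
    have e2 : 4 * (n + 1) * j ≤ 4 * (n + 1) * 3 := Nat.mul_le_mul_left _ (by omega)
    exact ⟨ps_bot hj (by omega) (by omega) (by omega) (by omega)
        ((ps_bl_out (by omega)).trans (by omega)) (by omega) (by omega),
      ps_bot hj (by omega) (by omega) (by omega) (by omega) (ps_bl_two (by omega)) (by omega)
        (by omega)⟩
  have C : ∀ j < 4, ∀ i < n, ∀ r < 4, ∀ p, p = 4 * (n + 1) * j + 4 * i + 4 + r →
      ps (bottom (n + 1)) p =
        4 * (n + 1) * j + 4 * i + (if r = 1 then 5 else if r = 0 then 2 else r + 1) := by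
    intro j hj i hi r hr p hp
    have e2 : 4 * (n + 1) * j ≤ 4 * (n + 1) * 3 := Nat.mul_le_mul_left _ (by omega)
    exact ps_bot hj (by omega) (by omega) (by omega) (by omega)
      ((ps_bl_in hi hr (by omega)).trans (by split_ifs <;> omega)) (by omega)
      (by split_ifs <;> omega)
  constructor
  · intro h c hc h1
    obtain ⟨j, r, hr, rfl⟩ : ∃ j r, r < 2 * (n + 1) ∧ c = 2 * (n + 1) * j + r :=
      ⟨c / (2 * (n + 1)), c % (2 * (n + 1)), Nat.mod_lt _ (by omega), (Nat.div_add_mod _ _).symm⟩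
    have hj : j < 4 := by
      by_contra hj
      have : 2 * (n + 1) * 4 ≤ 2 * (n + 1) * j := Nat.mul_le_mul_left _ (by omega)
      omega
    have e : 4 * (n + 1) * j = 2 * (2 * (n + 1) * j) := by ring
    obtain ⟨k1, k2, k3⟩ := h j hj
    rcases (by omega : r = 0 ∨ r = 1 ∨ (2 ≤ r ∧ r % 2 = 0) ∨ (2 ≤ r ∧ r % 2 = 1)) with
      rfl | rfl | c0 | c0
    · have j0 : j ≠ 0 := by rintro rfl; omega
      obtain ⟨a1, a2⟩ := A j hj j0 (2 * (n + 1) * j + 0) (by omega)
      rw [a1, a2]
      exact k1 j0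
    · obtain ⟨a1, a2⟩ := B j hj (2 * (n + 1) * j + 1) (by omega)
      rw [a1, a2]
      exact k2
    · rw [C j hj (r / 2 - 1) (by omega) 0 (by omega) _ (by omega),
        C j hj (r / 2 - 1) (by omega) 1 (by omega) _ (by omega)]
      exact (k3 _ (by omega)).1
    · rw [C j hj (r / 2 - 1) (by omega) 2 (by omega) _ (by omega),
        C j hj (r / 2 - 1) (by omega) 3 (by omega) _ (by omega)]
      exact (k3 _ (by omega)).2
  · intro h j hj
    have e : 4 * (n + 1) * j = 2 * (2 * (n + 1) * j) := by ring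
    have e2 : 4 * (n + 1) * j ≤ 4 * (n + 1) * 3 := Nat.mul_le_mul_left _ (by omega)
    refine ⟨fun j0 => ?_, ?_, fun i hi => ⟨?_, ?_⟩⟩
    · have e3 : 4 * (n + 1) * 1 ≤ 4 * (n + 1) * j := Nat.mul_le_mul_left _ (by omega)
      obtain ⟨a1, a2⟩ := A j hj j0 (2 * (n + 1) * j) (by omega)
      have := h (2 * (n + 1) * j) (by omega) (by omega)
      rwa [a1, a2] at this
    · obtain ⟨a1, a2⟩ := B j hj (2 * (n + 1) * j + 1) (by omega)
      have := h (2 * (n + 1) * j + 1) (by omega) (by omega)
      rwa [a1, a2] at this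
    · have := h (2 * (n + 1) * j + 2 * i + 2) (by omega) (by omega)
      rwa [C j hj i hi 0 (by omega) _ (by omega), C j hj i hi 1 (by omega) _ (by omega)] at this
    · have := h (2 * (n + 1) * j + 2 * i + 3) (by omega) (by omega)
      rwa [C j hj i hi 2 (by omega) _ (by omega), C j hj i hi 3 (by omega) _ (by omega)] at this

/-- the caps before the top -/
theorem capT_iff (m : ℕ) (R : St 8 H → St 8 H → Prop) (G : ℕ → St 8 H) :
    (∀ i < m, R (G (4 * i)) (G (4 * i + 3)) ∧ R (G (4 * i + 1)) (G (4 * i + 2))) ↔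
      ∀ c < 2 * m, R (G (ps (nest 0 m) (2 * c))) (G (ps (nest 0 m) (2 * c + 1))) := by
  have C : ∀ i < m, ∀ r < 4, ∀ p, p = 4 * i + r →
      ps (nest 0 m) p = 4 * i + (if r = 1 then 3 else if r = 0 then 0 else r - 1) := by
    intro i hi r hr p hp
    rw [ps_nest]
    split_ifs <;> omega
  constructor
  · intro h c hc
    rcases (by omega : c % 2 = 0 ∨ c % 2 = 1) with c0 | c0
    · rw [C (c / 2) (by omega) 0 (by omega) _ (by omega),
        C (c / 2) (by omega) 1 (by omega) _ (by omega)]
      exact (h _ (by omega)).1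
    · rw [C (c / 2) (by omega) 2 (by omega) _ (by omega),
        C (c / 2) (by omega) 3 (by omega) _ (by omega)]
      exact (h _ (by omega)).2
  · intro h i hi
    have h1 := h (2 * i) (by omega)
    have h2 := h (2 * i + 1) (by omega)
    rw [C i hi 0 (by omega) _ (by omega), C i hi 1 (by omega) _ (by omega)] at h1
    rw [C i hi 2 (by omega) _ (by omega), C i hi 3 (by omega) _ (by omega)] at h2
    exact ⟨h1, h2⟩

theorem slide_rng {i d N : ℕ} (h : i + d < N) : ∀ x ∈ slide i d, x.1 + 1 < N := fun x hx => by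
  simp only [slide, List.mem_map, List.mem_range] at hx
  obtain ⟨a, ha, rfl⟩ := hx
  simp only
  omega

theorem nest_rng {q n N : ℕ} (h : q + 4 * n ≤ N) : ∀ x ∈ nest q n, x.1 + 1 < N := fun x hx => by
  simp only [nest, List.mem_flatMap, List.mem_range] at hx
  obtain ⟨a, ha, hx⟩ := hx
  exact slide_rng (by omega) x hx

theorem app_rng {u v : Word} {N : ℕ} (hu : ∀ x ∈ u, x.1 + 1 < N) (hv : ∀ x ∈ v, x.1 + 1 < N) :
    ∀ x ∈ u ++ v, x.1 + 1 < N := fun x hx => (List.mem_append.1 hx).elim (hu x) (hv x)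

theorem bl_rng {a n N : ℕ} (h : a + 4 * n + 2 < N) : ∀ x ∈ bl a n, x.1 + 1 < N :=
  app_rng (slide_rng (by omega)) (nest_rng (by omega))

theorem bottom_rng (n : ℕ) : ∀ x ∈ bottom (n + 1), x.1 + 1 < 2 * (8 * (n + 1)) := by
  rw [bottom_eq]
  exact app_rng (slide_rng (by omega)) (app_rng (bl_rng (by omega)) (app_rng (bl_rng (by omega))
    (app_rng (bl_rng (by omega)) (bl_rng (by omega)))))

end Vale.Agent.Q258D.E1
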