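import Vale.Agent.Q258D.RowsT

/-!
# The topological meaning of the colourings of the surface
-/

namespace Vale.Agent.Q258D

open Set Filter Topology
open Vale.Agent.P258.Braid Vale.Agent.N258B
open Vale.Agent.P002Z

namespace E2

section plats

variable {nb o : ℕ} {w : Word}

/-- abelian colourings that are opposite at the two ends of every cap -/
theorem capd_of_col (ok : Ok nb o w) {A : Type} [CommGroup A] (col : ℕ → A)
    (k1 : ∀ p, col p * col (mate p) = 1) (k2 : ∀ p, col p * col (down w p) = 1) :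
    Capd nb w (Pc fun i : Fin (2 * nb) => col i) := by
  have hm : ∀ j, mate (2 * j) = 2 * j + 1 := fun j => if_pos (by omega)
  have hc : ∀ p < 2 * nb, (Pc (fun i : Fin (2 * nb) => col i) (p + 1))⁻¹ *
      Pc (fun i : Fin (2 * nb) => col i) p = col p :=
    fun p hp => (A_Pc_col (fun i : Fin (2 * nb) => col i) ⟨p, hp⟩).symm
  refine fun j hj => ⟨A_even _ (Pc_zero _) nb (fun j hj => ?_) j hj,
    A_even _ ((reg_left _ _ _).trans (Pc_zero _)) nb (fun j hj => ?_) j hj⟩
  · rw [hc _ (by omega), hc _ (by omega), ← hm]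
    exact k1 _
  · have hr : ∀ q < 2 * nb, (reg w (Pc fun i : Fin (2 * nb) => col i) w.length (q + 1))⁻¹ *
        reg w (Pc fun i : Fin (2 * nb) => col i) w.length q = col (lab w q) := fun q hq => by
      have := A_comm w (Pc fun i : Fin (2 * nb) => col i) (lab w q) w.length le_rfl
      rw [pos_lab] at this
      rw [this, hc _ ((ok.top_lt _).1 (by rw [pos_lab]; exact hq))]
    have := k2 (lab w (2 * j))
    rw [down, pos_lab, hm] at this
    rw [hr _ (by omega), hr _ (by omega)]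
    exact this

/-- if the walk covers all strands then it has `nb` steps -/
theorem per_of_all (ok : Ok nb o w)
    (h : ∀ p < 2 * nb, ∃ i, p = walk w i ∨ p = down w (walk w i)) : per w = nb := by
  have i1 : Set.InjOn (walk w) (Finset.range (per w) : Set ℕ) := fun i hi j hj e =>
    walk_inj (by simpa using hi) (by simpa using hj) e
  have i2 : Set.InjOn (fun i => down w (walk w i)) (Finset.range (per w) : Set ℕ) :=
    fun i hi j hj e => i1 hi hj (by simpa only [down_down] using congrArg (down w) e)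
  have hd : Disjoint ((Finset.range (per w)).image (walk w))
      ((Finset.range (per w)).image fun i => down w (walk w i)) := by
    rw [Finset.disjoint_left]
    intro a ha hb
    obtain ⟨i, -, rfl⟩ := Finset.mem_image.1 ha
    obtain ⟨j, -, e⟩ := Finset.mem_image.1 hb
    exact down_ne_walk w j i e
  have he : (Finset.range (per w)).image (walk w) ∪
      ((Finset.range (per w)).image fun i => down w (walk w i)) = Finset.range (2 * nb) := by
    ext a
    simp only [Finset.mem_union, Finset.mem_image, Finset.mem_range]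
    constructor
    · rintro (⟨i, -, rfl⟩ | ⟨i, -, rfl⟩)
      · exact walk_lt ok i
      · exact (down_lt ok _).2 (walk_lt ok i)
    · intro ha
      obtain ⟨i, hi⟩ := h a ha
      rw [← walk_mod] at hi
      have := Nat.mod_lt i (per_pos ok)
      exact hi.imp (fun e => ⟨_, this, e.symm⟩) fun e => ⟨_, this, e.symm⟩
  have := congrArg Finset.card he
  rw [Finset.card_union_of_disjoint hd, Finset.card_image_of_injOn i1,
    Finset.card_image_of_injOn i2, Finset.card_range, Finset.card_range] at this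
  omega

/-- if the colourings by two colours are determined by the first colour, the plat is a knot -/
theorem per_of_col (ok : Ok nb o w)
    (h : ∀ c : Fin (2 * nb) → Multiplicative (ZMod 2), Capd nb w (Pc c) → (Pc c 1)⁻¹ = 1 →
      ∀ i, c i = 1) : per w = nb := by
  classical
  refine per_of_all ok fun p hp => ?_
  obtain ⟨col, hcol⟩ : ∃ col : ℕ → Multiplicative (ZMod 2), ∀ p, col p =
    if ∃ i, p = walk w i ∨ p = down w (walk w i) then 1 else Multiplicative.ofAdd 1 :=
    ⟨_, fun _ => rfl⟩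
  have key : ∀ p q, (q = mate p ∨ q = down w p) → (p = mate q ∨ p = down w q) →
      col p * col q = 1 := by
    intro p q h1 h2
    rw [hcol, hcol]
    by_cases h3 : ∃ i, p = walk w i ∨ p = down w (walk w i)
    · rw [if_pos h3, if_pos (K3a_step ok h3 (Or.inr h1)), mul_one]
    · rw [if_neg h3, if_neg fun h4 => h3 (K3a_step ok h4 (Or.inr h2))]
      decide
  have hC := capd_of_col ok col (fun p => key p _ (Or.inl rfl) (Or.inl (mate_mate p).symm))
    fun p => key p _ (Or.inr rfl) (Or.inr (down_down w p).symm)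
  have hb := ok.pos0
  have h0 := A_Pc_col (fun i : Fin (2 * nb) => col i) ⟨0, by omega⟩
  simp only [Pc_zero, mul_one, zero_add] at h0
  have h1 := h _ hC (by rw [← h0, hcol, if_pos ⟨0, Or.inl (walk_zero w).symm⟩]) ⟨p, hp⟩
  by_contra h2
  simp only [hcol, if_neg h2] at h1
  exact absurd h1 (by decide)

end plats

/-- the trivial braid has Alexander polynomial one -/
theorem am_one {k : ℕ} (hk : 0 < k) : AM k 1 := by
  intro H _ _ m u _ ⟨⟨f, hf⟩, f', hf0, hf'⟩
  rw [map_one, Equiv.Perm.one_apply, hf] at hf'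
  have hs : ∀ s < 8 * k, f (s / 2) =
      if s % (2 * k) = 2 * k - 1 then em m (s / (2 * k)) else f' ((s + 1) / 2) := by
    intro s hs
    have := congrArg (fun l => frm l s) hf'
    simpa only [frm_row _ _ hs] using this
  have hmod : ∀ j r, r < 2 * k → (2 * k * j + r) % (2 * k) = r := fun j r hr => by
    rw [Nat.mul_add_mod, Nat.mod_eq_of_lt hr]
  have hdiv : ∀ j r, r < 2 * k → (2 * k * j + r) / (2 * k) = j := fun j r hr => by
    rw [Nat.mul_add_div (by omega), Nat.div_eq_of_lt hr, add_zero]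
  have hlt : ∀ j r, j < 4 → r < 2 * k → 2 * k * j + r < 8 * k := fun j r hj hr => by
    have : 2 * k * j ≤ 2 * k * 3 := Nat.mul_le_mul_left _ (by omega)
    omega
  have hev : ∀ j < 4, ∀ i < k, f (k * j + i) = f' (k * j + i) := fun j hj i hi => by
    have := hs _ (hlt j (2 * i) hj (by omega))
    rw [hmod j _ (by omega), if_neg (by omega)] at this
    rwa [show (2 * k * j + 2 * i) / 2 = k * j + i by rw [mul_assoc]; omega,
      show (2 * k * j + 2 * i + 1) / 2 = k * j + i by rw [mul_assoc]; omega] at this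
  have hone : ∀ j < 4, ∀ i < k, f (k * j + i) = 1 := fun j hj i => by
    induction i with
    | zero => exact fun hi => (hev j hj 0 hi).trans (hf0 j)
    | succ i ih =>
      intro hi
      have := hs _ (hlt j (2 * i + 1) hj (by omega))
      rw [hmod j _ (by omega), if_neg (by omega),
        show (2 * k * j + (2 * i + 1)) / 2 = k * j + i by rw [mul_assoc]; omega,
        show (2 * k * j + (2 * i + 1) + 1) / 2 = k * j + (i + 1) by rw [mul_assoc]; omega] at this
      rw [hev j hj _ hi, ← this, ih (by omega)]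
  have he : ∀ j < 4, em m j = 1 := fun j hj => by
    have := hs _ (hlt j (2 * k - 1) hj (by omega))
    rw [hmod j _ (by omega), if_pos rfl, hdiv j _ (by omega),
      show (2 * k * j + (2 * k - 1)) / 2 = k * j + (k - 1) by rw [mul_assoc]; omega] at this
    rw [← this, hone j hj _ (by omega)]
  obtain ⟨t, ⟨a, b⟩, c, d⟩ := m
  have e0 := he 0 (by omega)
  have e1 := he 1 (by omega)
  have e2 := he 2 (by omega)
  have e3 := he 3 (by omega)
  obtain rfl : b = 1 := e1
  obtain rfl : d = 1 := e3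
  have e4 : t⁻¹ * a * t = 1 := by
    rw [← e0]
    simp only [em, ym, zz, Matrix.cons_val_one, Matrix.cons_val_zero]
    group
  obtain rfl : a = 1 := by
    calc a = t * (t⁻¹ * a * t) * t⁻¹ := by group
      _ = 1 := by rw [e4]; group
  have e5 : t⁻¹ * c * t = 1 := by
    rw [← e2]
    simp only [em, ym, zz, cm, Matrix.cons_val]
    group
  obtain rfl : c = 1 := by
    calc c = t * (t⁻¹ * c * t) * t⁻¹ := by group
      _ = 1 := by rw [e5]; group
  intro j
  fin_cases j <;> simp [ym, zz, cm]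

theorem lam_comm {A : Type} [CommGroup A] (m : Mk A) : lam m = 1 := by
  simp [lam, cm]

/-- metabelian images of a group with perfect commutator subgroup are abelian -/
theorem comm_of_perfect {Γ H : Type} [Group Γ] [Group H]
    (h : ⁅commutator Γ, commutator Γ⁆ = commutator Γ)
    (hH : ∀ a ∈ commutator H, ∀ b ∈ commutator H, Commute a b) (f : Γ →* H) (a b : Γ) :
    Commute (f a) (f b) := by
  have h1 : ∀ g ∈ commutator Γ, f g ∈ commutator H := fun g hg => by
    have h2 : (commutator Γ).map f ≤ commutator H := by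
      rw [map_commutator_eq]
      exact Subgroup.commutator_mono le_top le_top
    exact h2 ⟨g, hg, rfl⟩
  have h2 : commutator Γ ≤ f.ker := by
    rw [← h, Subgroup.commutator_le]
    intro g1 hg1 g2 hg2
    rw [MonoidHom.mem_ker, map_commutatorElement, commutatorElement_eq_one_iff_commute]
    exact hH _ (h1 _ hg1) _ (h1 _ hg2)
  rw [← commutatorElement_eq_one_iff_commute, ← map_commutatorElement]
  exact h2 (Subgroup.commutator_mem_commutator (Subgroup.mem_top a) (Subgroup.mem_top b))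

section knots

variable {nb : ℕ} {w : Word} {ν : Circle × ℂ → S3} {e : ↥(pattern nb 0 w) → S3}
  {eX : C(XX nb 0 w, ↥(core ν)ᶜ)}

/-- functions of paths on the complement of the knot come from colourings -/
theorem exists_c (hw : ∀ x ∈ w, x.1 + 1 < 2 * nb) (E : Emb nb 0 w ν e eX) {G : Type} [Group G]
    {x0 : XX nb 0 w} (hx : x0 ∈ Up nb 0 w 1) (β : PF (↥(core ν)ᶜ) G) :
    ∃ c : Fin (2 * nb) → G, Capd nb w (Pc c) ∧ HasReg (β.comap eX) x0 (Pc c) := by
  obtain ⟨P, p1, p2, p3⟩ := exists_flat E (exists_int E.ok) (split_of_small hw 0 G) hx β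
  obtain ⟨c, hc⟩ := Pc_surj (capd_zero p1) p2
  exact ⟨c, capd_congr E.ok p1 hc, hasReg_congr E.ok p3 hc⟩

theorem two_comm (hw : ∀ x ∈ w, x.1 + 1 < 2 * nb) (E : Emb nb 0 w ν e eX) (hpref : Preferred ν)
    (hj : ∀ (G : Type) [Group G] (c : Fin (2 * nb) → G), Capd nb w (Pc c) →
      ∃ m : Mk G, Raw w (Pc c) = lam m)
    (x : ↥(core ν)ᶜ) (l : Path x x) (hl : ∀ t, (l t).1 = ν (ex t, 1)) :
    ∃ a b c d : FundamentalGroup (↥(core ν)ᶜ) x,
      FundamentalGroup.fromPath (Path.Homotopic.Quotient.mk l) =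
        a * b * a⁻¹ * b⁻¹ * (c * d * c⁻¹ * d⁻¹) := by
  have := pathConnected_compl E.hν
  obtain ⟨κ, hκ, -⟩ := exists_univ x
  obtain ⟨x0, hx⟩ := exists_mem_up nb 0 w
  obtain ⟨b, mu, lm, sl, hmu, hlam, -, hv⟩ := exists_loops E.hν 0
  obtain ⟨i, d, k, hi, hd, hper⟩ := peripheral E (exists_int E.ok) mu lm hmu hlam
  obtain ⟨c0, c1, c2⟩ := exists_col E.ok (Multiplicative.ofAdd (1 : ZMod 0))
  have hk : k = 0 := by
    have h1 := expo_dvd E hpref (N := 0) (split_of_small hw 0 _) c1 c2 (x := 0) (by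
      obtain ⟨m, h⟩ := hj _ _ c1
      rw [h, lam_comm]
      rfl) hlam hi (hper _)
    rw [Nat.cast_zero, zero_dvd_iff] at h1
    rcases hi with rfl | rfl <;> omega
  obtain ⟨c, hP, h⟩ := exists_c hw E hx κ
  obtain ⟨g, -, g2⟩ := hper _ κ _ x0 hP h
  obtain ⟨⟨t, ⟨a, b⟩, c, d'⟩, h3⟩ := hj _ _ hP
  have h4 : κ.v lm = FundamentalGroup.fromPath (Path.Homotopic.Quotient.mk l) := by
    rw [κ.congr (p := lm) (q := l) fun t => Subtype.ext ((hlam t).trans (hl t).symm),
      ← PF.toHom_mk, hκ]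
  have h6 : κ.v lm ^ d = g * (a * b⁻¹ * a⁻¹ * b * (c * d'⁻¹ * c⁻¹ * d'))⁻¹ * g⁻¹ := by
    rw [h3, hk, zpow_zero, one_mul] at g2
    change (a * b⁻¹ * a⁻¹ * b * (c * d'⁻¹ * c⁻¹ * d'))⁻¹ = _ at g2
    rw [g2]
    group
  rw [← h4]
  rcases hd with rfl | rfl
  · refine ⟨g * d'⁻¹ * g⁻¹, g * c * g⁻¹, g * b⁻¹ * g⁻¹, g * a * g⁻¹, ?_⟩
    rw [← zpow_one (κ.v lm), h6]
    group
  · refine ⟨g * a * g⁻¹, g * b⁻¹ * g⁻¹, g * c * g⁻¹, g * d'⁻¹ * g⁻¹, ?_⟩
    rw [← inv_inv (κ.v lm), ← zpow_neg_one (κ.v lm), h6]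
    group

/-- if all colours are powers of one element, the representation is abelian -/
theorem comm_of_zpowers (hw : ∀ x ∈ w, x.1 + 1 < 2 * nb) (E : Emb nb 0 w ν e eX) {G : Type}
    [Group G] (hG : ∀ c : Fin (2 * nb) → G, Capd nb w (Pc c) →
      ∃ t, ∀ i, c i ∈ Subgroup.zpowers t) (β : PF (↥(core ν)ᶜ) G)
    {x : ↥(core ν)ᶜ} (p q : Path x x) : Commute (β.v p) (β.v q) := by
  have := pathConnected_compl E.hν
  have hZ := exists_int E.ok
  obtain ⟨x0, hx⟩ := exists_mem_up nb 0 w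
  obtain ⟨c, hP, h⟩ := exists_c hw E hx β
  obtain ⟨t, ht⟩ := hG c hP
  let f := (Subgroup.zpowers t).subtype
  let c' : Fin (2 * nb) → Subgroup.zpowers t := fun i => ⟨c i, ht i⟩
  have hcc : (fun j => f (Pc c' j)) = Pc c := funext fun j => Pc_map f c' j
  have hP' : Capd nb w (Pc c') := fun j hj =>
    ⟨Subtype.ext ((congrFun hcc _).trans (hP j hj).1), Subtype.ext (by
      change f _ = 1
      rw [← reg_map, hcc]
      exact (hP j hj).2)⟩
  obtain ⟨β', hβ'⟩ := exists_ext E x0 (split_of_small hw 0 _ _ (Pc_zero c')).1 hP' (Pc_flat hP')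
  have h2 : HasReg ((β'.post f).comap eX) x0 (Pc c) := hcc ▸ hasReg_post hβ' f
  obtain ⟨s, -, hs⟩ := par_of_toHom (toHom_eq_of_flat E hZ hx
    (split_of_small hw 0 _ _ (Pc_zero c)).1 hP (Pc_flat hP) h2 h)
  rw [hs _ _ p fun _ => mem_univ _, hs _ _ q fun _ => mem_univ _]
  have h3 : Commute (f (β'.v p)) (f (β'.v q)) := by
    obtain ⟨n1, h1⟩ := (β'.v p).2
    obtain ⟨n2, h2⟩ := (β'.v q).2
    change Commute (β'.v p).1 (β'.v q).1
    rw [← h1, ← h2]
    exact Commute.zpow_zpow_self t n1 n2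
  change _ * f (β'.v p) * _ * (_ * f (β'.v q) * _) = _ * f (β'.v q) * _ * (_ * f (β'.v p) * _)
  calc (s x)⁻¹ * f (β'.v p) * s x * ((s x)⁻¹ * f (β'.v q) * s x)
      = (s x)⁻¹ * (f (β'.v p) * f (β'.v q)) * s x := by group
    _ = _ := by rw [h3.eq]; group

theorem perfect_of (hw : ∀ x ∈ w, x.1 + 1 < 2 * nb) (E : Emb nb 0 w ν e eX)
    (hG : ∀ (G : Type) [Group G], (∀ a ∈ commutator G, ∀ b ∈ commutator G, Commute a b) →
      ∀ c : Fin (2 * nb) → G, Capd nb w (Pc c) → ∃ t, ∀ i, c i ∈ Subgroup.zpowers t)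
    (x : ↥(core ν)ᶜ) :
    ⁅commutator (FundamentalGroup (↥(core ν)ᶜ) x), commutator (FundamentalGroup (↥(core ν)ᶜ) x)⁆ =
      commutator (FundamentalGroup (↥(core ν)ᶜ) x) := by
  have := pathConnected_compl E.hν
  obtain ⟨κ, hκ, -⟩ := exists_univ x
  generalize hD : ⁅commutator (FundamentalGroup (↥(core ν)ᶜ) x),
    commutator (FundamentalGroup (↥(core ν)ᶜ) x)⁆ = D
  have hDn : D.Normal := hD ▸ inferInstance
  refine le_antisymm (hD ▸ Subgroup.commutator_le_left _ _) ?_
  have hM : ∀ a ∈ commutator (_ ⧸ D), ∀ b ∈ commutator (_ ⧸ D), Commute a b := by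
    have h1 : commutator (_ ⧸ D) = (commutator _).map (QuotientGroup.mk' D) := by
      rw [map_commutator_eq, MonoidHom.range_eq_top.2 (QuotientGroup.mk'_surjective D)]
      rfl
    rw [h1]
    rintro _ ⟨a, ha, rfl⟩ _ ⟨b, hb, rfl⟩
    rw [← commutatorElement_eq_one_iff_commute, ← map_commutatorElement,
      ← MonoidHom.mem_ker, QuotientGroup.ker_mk', ← hD]
    exact Subgroup.commutator_mem_commutator ha hb
  rw [commutator_def, Subgroup.commutator_le]
  intro a _ b _
  obtain ⟨p, rfl⟩ := Path.Homotopic.Quotient.mk_surjective a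
  obtain ⟨q, rfl⟩ := Path.Homotopic.Quotient.mk_surjective b
  have h := comm_of_zpowers hw E (hG _ hM) (κ.post (QuotientGroup.mk' D)) p q
  change Commute (QuotientGroup.mk' D (κ.v p)) (QuotientGroup.mk' D (κ.v q)) at h
  rw [← PF.toHom_mk, ← PF.toHom_mk, hκ, hκ, ← commutatorElement_eq_one_iff_commute,
    ← map_commutatorElement, ← MonoidHom.mem_ker, QuotientGroup.ker_mk'] at h
  exact h

/-- for Alexander polynomial one the metabelian colourings are abelian -/
theorem col_comm (hw : ∀ x ∈ w, x.1 + 1 < 2 * nb) (E : Emb nb 0 w ν e eX)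
    (hA : GenusTwoAlexOne ν) {H : Type} [Group H]
    (hH : ∀ a ∈ commutator H, ∀ b ∈ commutator H, Commute a b) (c : Fin (2 * nb) → H)
    (hc : Capd nb w (Pc c)) (i j : Fin (2 * nb)) : Commute (c i) (c j) := by
  have := pathConnected_compl E.hν
  obtain ⟨x0, hx⟩ := exists_mem_up nb 0 w
  obtain ⟨a, mu, lm, sl, -, hlam, -, -⟩ := exists_loops E.hν 0
  have hperf := (hA a lm hlam).2
  obtain ⟨β, hβ⟩ := exists_ext E x0 (split_of_small hw 0 _ _ (Pc_zero c)).1 hc (Pc_flat hc)
  have hf : ∀ g g', Commute (β.toHom (eX x0) g) (β.toHom (eX x0) g') := fun g g' => by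
    let θ := FundamentalGroup.fundamentalGroupMulEquivOfPathConnected (eX x0) a
    have := comm_of_perfect hperf hH ((β.toHom (eX x0)).comp θ.symm.toMonoidHom) (θ g) (θ g')
    simpa using this
  obtain ⟨β', hβ'⟩ := exists_pf (eX x0) (β.toHom (eX x0)).rangeRestrict
  obtain ⟨c', h1, h2⟩ := exists_c hw E hx β'
  let f := (β.toHom (eX x0)).range.subtype
  have h3 : HasReg ((β'.post f).comap eX) x0 fun j => f (Pc c' j) := hasReg_post h2 f
  have h4 := lab_unique E.ok hx hβ h3 (Pc_zero c) (by simp only [Pc_zero, map_one])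
    (toHom_comap eX x0 (MonoidHom.ext fun g => by
      obtain ⟨p, rfl⟩ := Path.Homotopic.Quotient.mk_surjective g
      rw [PF.toHom_mk, PF.toHom_mk]
      change β.v p = f (β'.v p)
      rw [← PF.toHom_mk β', hβ']
      rfl))
  have h5 : ∀ i, c i = f (c' i) := fun i => by
    rw [A_Pc_col c i, A_Pc_col c' i, map_mul, map_inv, h4 _ (by omega), h4 _ (by omega)]
  rw [h5, h5]
  obtain ⟨g, hg⟩ := (c' i).2
  obtain ⟨g', hg'⟩ := (c' j).2
  change Commute (c' i).1 (c' j).1
  rw [← hg, ← hg']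
  exact hf g g'

end knots

end E2

open E2 in
theorem rowE3 (h1 : RowE1) : RowE3 := by
  intro k hk
  refine ⟨?_, am_one hk⟩
  obtain ⟨hr, -, hΦ⟩ := h1 k hk [] (by simp) (Subgroup.one_mem _)
  refine per_of_col (ok_of_small (by omega) hr 0) fun c hc h0 i => ?_
  obtain ⟨Φ, hΦ⟩ := hΦ (Multiplicative (ZMod 2))
  obtain ⟨a1, -, a3, a4⟩ := hΦ ⟨c, hc⟩
  have := a4 (a3 fun _ _ => Commute.all _ _) i
  rw [a1, h0, Subgroup.zpowers_one_eq_bot, Subgroup.mem_bot] at this
  exact this

open E2 in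
theorem rowE2 (h1 : RowE1) (h3 : RowE3) : RowE2 := by
  intro k hk w hw hp e
  obtain ⟨hr, hpos, hΦ⟩ := h1 k hk w hw hp
  have ok := ok_of_small (by omega : 0 < 8 * k) hr 0
  refine ⟨exists_framed ok ((per_congr hpos).trans (h3 k hk).1), ?_⟩
  rintro ν ⟨he, hν, hcore, hpref⟩
  obtain ⟨eX, E⟩ := exists_emb ok he hν hcore
  have hj : ∀ (G : Type) [Group G] (c : Fin (2 * (8 * k)) → G), Capd (8 * k) (surf k w) (Pc c) →
      ∃ m : Mk G, Raw (surf k w) (Pc c) = lam m := fun G _ c hc => by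
    obtain ⟨Φ, hΦ⟩ := hΦ G
    exact ⟨_, (hΦ ⟨c, hc⟩).2.1.symm⟩
  refine ⟨⟨fun hA H _ hH m u h2 h4 => ?_, fun hA x l hl =>
    ⟨two_comm hr E hpref hj x l hl, perfect_of hr E (fun G _ hG c hc => ?_) x⟩⟩,
    fun G _ _ hne => ?_⟩
  · obtain ⟨Φ, hΦ⟩ := hΦ H
    have := (hΦ (Φ.symm ⟨(m, u), h2, h4⟩)).2.2.1 (col_comm hr E hA hH _ (Φ.symm _).2)
    rwa [Equiv.apply_symm_apply] at this
  · obtain ⟨Φ, hΦ⟩ := hΦ G
    exact ⟨_, (hΦ ⟨c, hc⟩).2.2.2 (hA G hG _ _ (Φ ⟨c, hc⟩).2.1 (Φ ⟨c, hc⟩).2.2)⟩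
  · have hN : ∀ g : G, g ^ Nat.card G = 1 := fun _ => pow_card_eq_one'
    obtain ⟨c0, c1, c2⟩ := exists_col ok (Multiplicative.ofAdd (1 : ZMod (Nat.card G)))
    obtain ⟨ε, hε, h⟩ := count E hpref hN (split_of_small hr 0 _) (split_of_small hr 0 _) c1 c2
      (x := 0) (by
        obtain ⟨m, h⟩ := hj _ _ c1
        rw [h, lam_comm, Int.cast_zero]
        rfl)
    have hS : ∀ s, Nat.card (Sol (8 * k) (surf k w) G 0 s) = NS k G (toBraid (8 * k) w) s := by
      intro s
      obtain ⟨Φ, hΦ⟩ := hΦ G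
      have hc : ∀ m : Mk G, m.1 ^ s * lam m = 1 → Commute m.1 (lam m) := fun m hm => by
        rw [eq_inv_of_mul_eq_one_right hm]
        exact ((Commute.refl m.1).zpow_right s).inv_right
      have hq : ∀ c, (Pc c.1 1)⁻¹ ^ s * (Raw (surf k w) (Pc c.1) * (Pc c.1 1)⁻¹ ^ (-(0 : ℤ))) ^
          (1 : ℤ) = (Φ c).1.1.1 ^ s * lam (Φ c).1.1 := fun c => by
        rw [(hΦ c).1, (hΦ c).2.1, neg_zero, zpow_zero, mul_one, zpow_one]
      refine Nat.card_congr
        { toFun := fun c => ⟨(Φ ⟨c.1, c.2.1⟩).1, (hq ⟨c.1, c.2.1⟩).symm.trans c.2.2,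
            (Φ ⟨c.1, c.2.1⟩).2.2⟩
          invFun := fun x => ⟨(Φ.symm ⟨x.1, hc _ x.2.1, x.2.2⟩).1, (Φ.symm _).2, by
            rw [hq, Equiv.apply_symm_apply]
            exact x.2.1⟩
          left_inv := fun c => Subtype.ext ?_
          right_inv := fun x => Subtype.ext ?_ }
      · have := congrArg Subtype.val (Φ.symm_apply_apply ⟨c.1, c.2.1⟩)
        exact this
      · have := congrArg Subtype.val (Φ.apply_symm_apply ⟨x.1, hc _ x.2.1, x.2.2⟩)
        exact this
    refine distinct_of (fun hc => hne ?_) (pathConnected_surgery hν 2)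
      (pathConnected_surgery hν (-2))
    obtain ⟨z⟩ := nonempty_surgery ν 2
    obtain ⟨z'⟩ := nonempty_surgery ν (-2)
    have h5 := hc G z z'
    rw [h 2 z, h (-2) z', hS, hS] at h5
    rcases hε with rfl | rfl
    · exact h5
    · exact h5.symm

end Vale.Agent.Q258D
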