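import Vale.Agent.Q258D.Rows
import Mathlib.GroupTheory.Abelianization.Defs

/-!
# Row F1: products of capped rows, commuting labels, trivial twists
-/

set_option linter.all false

namespace Vale.Agent.Q258D

open Vale.Agent.P258.Braid

namespace F1

variable {H : Type} [Group H]

/-! ### Products of capped rows -/

/-- the product over the first `n` positions -/
def pp (k : ℕ) (b : Fin 8 → H) (F : ℕ → H) (n : ℕ) : H :=
  pr ((List.range n).map fun s => mk b (colr k s) (F s))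

theorem pp_zero (k : ℕ) (b : Fin 8 → H) (F : ℕ → H) : pp k b F 0 = 1 := by simp [pp, pr]

theorem pp_succ (k : ℕ) (b : Fin 8 → H) (F : ℕ → H) (n : ℕ) :
    pp k b F (n + 1) = pp k b F n * ((F n)⁻¹ * (b (colr k n))⁻¹ * F n) := by
  unfold pp
  rw [List.range_succ, List.map_append, pr_append]
  congr 1
  simp only [List.map_cons, List.map_nil, pr, mk, List.prod_cons, List.prod_nil, mul_one]
  group

theorem pr_row (k : ℕ) (b : Fin 8 → H) (F : ℕ → H) : pr (row k b F) = pp k b F (8 * k) := rfl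

theorem bar_val (c d : Fin 8) (h : c.val % 2 = 0) (h' : d.val = c.val + 1) : d = bar c := by
  revert c d
  decide

theorem colr_odd (k i : ℕ) : colr k (2 * i + 1) = bar (colr k (2 * i)) := by
  have h : (2 * i + 1) / (2 * k) = 2 * i / (2 * k) := by
    rw [← Nat.div_div_eq_div_mul, ← Nat.div_div_eq_div_mul]
    congr 1
    omega
  apply bar_val
  · simp only [colr]
    omega
  · simp only [colr, h]
    omega

theorem pp_top (k : ℕ) {b : Fin 8 → H} (hb : OddB b) (f : ℕ → H) (i : ℕ) :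
    pp k b (fun s => f (s / 2)) (2 * i) = 1 := by
  induction i with
  | zero => exact pp_zero _ _ _
  | succ i ih =>
    have h1 : (2 * i + 1) / 2 = i := by omega
    have h2 : 2 * i / 2 = i := by omega
    rw [show 2 * (i + 1) = 2 * i + 1 + 1 by ring, pp_succ, pp_succ, ih, colr_odd, hb]
    simp only [h1, h2]
    group

theorem part1 (k : ℕ) (b : Fin 8 → H) (hb : OddB b) (u : List (St 8 H)) (hu : InT k b u) :
    pr u = 1 := by
  obtain ⟨f, rfl⟩ := hu
  rw [pr_row, show 8 * k = 2 * (4 * k) by ring]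
  exact pp_top k hb f _

theorem div_blk {k s : ℕ} (j : ℕ) (hs : s < 2 * k) : (2 * k * j + s) / (2 * k) = j := by
  rw [Nat.mul_add_div (by omega), Nat.div_eq_of_lt hs, add_zero]

theorem mod_blk {k s : ℕ} (j : ℕ) (hs : s < 2 * k) : (2 * k * j + s) % (2 * k) = s := by
  rw [Nat.mul_add_mod, Nat.mod_eq_of_lt hs]

theorem colr_even {k i : ℕ} (j : ℕ) (hi : i < k) :
    colr k (2 * k * j + 2 * i) = colr k (2 * k * j) := by
  have h1 := div_blk (k := k) (s := 2 * i) j (by omega)
  have h2 := div_blk (k := k) (s := 0) j (by omega)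
  rw [add_zero] at h2
  apply Fin.ext
  simp only [colr, h1, h2]
  have h3 : 2 * k * j = 2 * (k * j) := by ring
  omega

theorem colr_odd' {k i : ℕ} (j : ℕ) (hi : i < k) :
    colr k (2 * k * j + 2 * i + 1) = bar (colr k (2 * k * j)) := by
  rw [← colr_even j hi, show 2 * k * j + 2 * i = 2 * (k * j + i) by ring, colr_odd]

/-- the frames of a row that fits the caps at the bottom -/
def fb (k : ℕ) (e f : ℕ → H) (s : ℕ) : H :=
  if s % (2 * k) = 2 * k - 1 then e (s / (2 * k)) else f ((s + 1) / 2)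

theorem fb_even {k i : ℕ} (e f : ℕ → H) (j : ℕ) (hi : i < k) :
    fb k e f (2 * k * j + 2 * i) = f (k * j + i) := by
  unfold fb
  rw [mod_blk j (by omega), if_neg (by omega)]
  congr 1
  have h3 : 2 * k * j = 2 * (k * j) := by ring
  omega

theorem fb_odd {k i : ℕ} (e f : ℕ → H) (j : ℕ) (hi : i + 1 < k) :
    fb k e f (2 * k * j + 2 * i + 1) = f (k * j + (i + 1)) := by
  unfold fb
  rw [add_assoc, mod_blk j (by omega), if_neg (by omega)]
  congr 1
  have h3 : 2 * k * j = 2 * (k * j) := by ring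
  omega

theorem fb_last {i : ℕ} (e f : ℕ → H) (j : ℕ) :
    fb (i + 1) e f (2 * (i + 1) * j + 2 * i + 1) = e j := by
  unfold fb
  rw [add_assoc, mod_blk j (by omega), if_pos (by omega), div_blk j (by omega)]

theorem pp_in {k : ℕ} {b : Fin 8 → H} (hb : OddB b) (e f : ℕ → H) (hf : ∀ j, f (k * j) = 1)
    (j : ℕ) : ∀ i < k, pp k b (fb k e f) (2 * k * j + 2 * i + 1) =
      pp k b (fb k e f) (2 * k * j) * (b (colr k (2 * k * j)))⁻¹
  | 0, hi => by
    have h := fb_even e f j hi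
    simp only [mul_zero, add_zero, hf] at h ⊢
    rw [pp_succ, h]
    group
  | i + 1, hi => by
    have h := fb_even e f j hi
    have h' := colr_even j hi
    rw [pp_succ, h, h', show 2 * k * j + 2 * (i + 1) = 2 * k * j + 2 * i + 1 + 1 by ring, pp_succ,
      pp_in hb e f hf j i (by omega), fb_odd e f j hi, colr_odd' j (by omega : i < k), hb]
    group

theorem pp_blk {k : ℕ} (hk : 0 < k) {b : Fin 8 → H} (hb : OddB b) (e f : ℕ → H)
    (hf : ∀ j, f (k * j) = 1) (j : ℕ) : pp k b (fb k e f) (2 * k * (j + 1)) =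
      pp k b (fb k e f) (2 * k * j) * (b (colr k (2 * k * j)))⁻¹ *
        ((e j)⁻¹ * b (colr k (2 * k * j)) * e j) := by
  obtain ⟨i, rfl⟩ : ∃ i, k = i + 1 := ⟨k - 1, by omega⟩
  rw [show 2 * (i + 1) * (j + 1) = 2 * (i + 1) * j + 2 * i + 1 + 1 by ring, pp_succ,
    pp_in hb e f hf j i (by omega), fb_last, colr_odd' j (by omega : i < i + 1), hb, inv_inv]

theorem colr_start {k : ℕ} (hk : 0 < k) (j : ℕ) (c : Fin 8) (hc : c.val = 2 * j) :
    colr k (2 * k * j) = c := by
  have h2 := div_blk (k := k) (s := 0) j (by omega)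
  rw [add_zero] at h2
  apply Fin.ext
  simp only [colr, h2]
  have h3 : 2 * k * j = 2 * (k * j) := by ring
  have := c.2
  omega

theorem part2 (k : ℕ) (hk : 0 < k) (m : Mk H) (hm : Commute m.1 (lam m)) (v : List (St 8 H))
    (hv : InB k (bs (ym m)) (em m) v) : pr v = 1 := by
  obtain ⟨f, hf, rfl⟩ := hv
  have hb := oddB_bs (ym m)
  change pp k (bs (ym m)) (fb k (em m) f) (8 * k) = 1
  rw [show 8 * k = 2 * k * (0 + 1 + 1 + 1 + 1) by ring, pp_blk hk hb _ _ hf, pp_blk hk hb _ _ hf,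
    pp_blk hk hb _ _ hf, pp_blk hk hb _ _ hf, colr_start hk (0 + 1 + 1 + 1) 6 rfl,
    colr_start hk (0 + 1 + 1) 4 rfl, colr_start hk (0 + 1) 2 rfl, colr_start hk 0 0 rfl,
    mul_zero, pp_zero]
  have h : m.1⁻¹ * ((lam m)⁻¹ * m.1 * lam m) = 1 := by
    rw [mul_assoc, hm.eq]
    group
  refine Eq.trans ?_ h
  obtain ⟨t, ⟨a, b⟩, ⟨c, d⟩⟩ := m
  have e0 : ∀ y : Fin 4 → H, bs y 0 = y 0 := fun _ => rfl
  have e2 : ∀ y : Fin 4 → H, bs y 2 = y 1 := fun _ => rfl
  have e4 : ∀ y : Fin 4 → H, bs y 4 = y 2 := fun _ => rfl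
  have e6 : ∀ y : Fin 4 → H, bs y 6 = y 3 := fun _ => rfl
  have y0 : ym (t, (a, b), (c, d)) 0 = ((a * b⁻¹ * a⁻¹)⁻¹ * t * (a * b⁻¹ * a⁻¹))⁻¹ * t := rfl
  have y1 : ym (t, (a, b), (c, d)) 1 = ((a * b⁻¹)⁻¹ * t * (a * b⁻¹))⁻¹ *
      ((a * b⁻¹ * a⁻¹)⁻¹ * t * (a * b⁻¹ * a⁻¹)) := rfl
  have y2 : ym (t, (a, b), (c, d)) 2 =
      ((a * b⁻¹ * a⁻¹ * b * (c * d⁻¹ * c⁻¹))⁻¹ * t * (a * b⁻¹ * a⁻¹ * b * (c * d⁻¹ * c⁻¹)))⁻¹ *
        ((a * b⁻¹ * a⁻¹ * b)⁻¹ * t * (a * b⁻¹ * a⁻¹ * b)) := rfl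
  have y3 : ym (t, (a, b), (c, d)) 3 =
      ((a * b⁻¹ * a⁻¹ * b * (c * d⁻¹))⁻¹ * t * (a * b⁻¹ * a⁻¹ * b * (c * d⁻¹)))⁻¹ *
        ((a * b⁻¹ * a⁻¹ * b * (c * d⁻¹ * c⁻¹))⁻¹ * t *
          (a * b⁻¹ * a⁻¹ * b * (c * d⁻¹ * c⁻¹))) := rfl
  have f0 : em (t, (a, b), (c, d)) 0 = a * ym (t, (a, b), (c, d)) 1 := rfl
  have f1 : em (t, (a, b), (c, d)) (0 + 1) = b := rfl
  have f2 : em (t, (a, b), (c, d)) (0 + 1 + 1) = c * ym (t, (a, b), (c, d)) 3 := rfl
  have f3 : em (t, (a, b), (c, d)) (0 + 1 + 1 + 1) = d := rfl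
  have l0 : lam (t, (a, b), (c, d)) = a * b⁻¹ * a⁻¹ * b * (c * d⁻¹ * c⁻¹ * d) := rfl
  rw [e0, e2, e4, e6, f0, f1, f2, f3, l0, y0, y1, y2, y3]
  group

/-! ### Commuting labels -/

/-- the labels -/
def cols (l : List (St 8 H)) : List H := l.map St.col

/-- the frames are multiplied on the right, position by position -/
def sh : (ℕ → H) → List (St 8 H) → List (St 8 H)
  | _, [] => []
  | v, s :: l => ⟨s.lab, s.col, s.tr * v 0⟩ :: sh (fun i => v (i + 1)) l

theorem cols_sh : ∀ (v : ℕ → H) (l : List (St 8 H)), cols (sh v l) = cols l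
  | _, [] => rfl
  | v, s :: l => by
    have := cols_sh (fun i => v (i + 1)) l
    simp only [cols] at this
    simp only [cols, sh, List.map_cons, this]

theorem sh_sh : ∀ (v w : ℕ → H) (l : List (St 8 H)), sh w (sh v l) = sh (fun i => v i * w i) l
  | _, _, [] => rfl
  | v, w, s :: l => by
    simp only [sh, sh_sh _ _ l, mul_assoc]

theorem sh_one : ∀ l : List (St 8 H), sh (fun _ => 1) l = l
  | [] => rfl
  | s :: l => by
    simp only [sh, sh_one l, mul_one]

theorem in_of_cols {A : Subgroup H} {l : List (St 8 H)} :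
    (∀ s ∈ l, s.col ∈ A) ↔ ∀ a ∈ cols l, a ∈ A := by
  simp [cols]

theorem cols_length (l : List (St 8 H)) : (cols l).length = l.length := List.length_map _

theorem cross_cols_congr (e : Bool) : ∀ (i : ℕ) (l l' : List (St 8 H)),
    cols l = cols l' → cols (cross i e l) = cols (cross i e l')
  | 0, [], [], _ => rfl
  | 0, [], _ :: _, h => by simp [cols] at h
  | 0, _ :: _, [], h => by simp [cols] at h
  | 0, [_], [_], h => h
  | 0, [_], _ :: _ :: _, h => by simp [cols] at h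
  | 0, _ :: _ :: _, [_], h => by simp [cols] at h
  | 0, s :: t :: l, s' :: t' :: l', h => by
    simp only [cols, List.map_cons, List.cons.injEq] at h
    cases e <;> simp [cols, cross, half, h]
  | _ + 1, [], [], _ => rfl
  | _ + 1, [], _ :: _, h => by simp [cols] at h
  | _ + 1, _ :: _, [], h => by simp [cols] at h
  | i + 1, s :: l, s' :: l', h => by
    simp only [cols, List.map_cons, List.cons.injEq] at h
    have := cross_cols_congr e i l l' h.2
    simp only [cols] at this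
    simp only [cols, cross, List.map_cons, this, h.1]

theorem cols_bact_congr {N : ℕ} (β : BraidGroup N) {l l' : List (St 8 H)}
    (h : cols l = cols l') : cols (bact H N β l) = cols (bact H N β l') := by
  have hl : l.length = l'.length := by rw [← cols_length, h, cols_length]
  by_cases h1 : l.length = N
  · obtain ⟨w, -, rfl⟩ := exists_word β
    rw [bact_toBraid w h1, bact_toBraid w (hl ▸ h1)]
    generalize inverse w = u
    clear hl h1
    induction u generalizing l l' with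
    | nil => exact h
    | cons x u ih => exact ih (cross_cols_congr _ _ _ _ h)
  · rwa [bact_of_ne β h1, bact_of_ne β (hl ▸ h1)]

theorem bact_in {N : ℕ} (β : BraidGroup N) {A : Subgroup H} {l : List (St 8 H)}
    (h : ∀ s ∈ l, s.col ∈ A) : ∀ s ∈ bact H N β l, s.col ∈ A :=
  bact_ind β l (fun l' => ∀ s ∈ l', s.col ∈ A) h fun i e l' => cross_cols e i l'

theorem cross_sh {A : Subgroup H} (hA : ∀ a ∈ A, ∀ b ∈ A, a * b = b * a) (e : Bool) :
    ∀ (i n : ℕ) (v : ℕ → H), (∀ j, v j ∈ A) → ∃ w : ℕ → H, (∀ j, w j ∈ A) ∧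
      ∀ l : List (St 8 H), l.length = n → (∀ s ∈ l, s.col ∈ A) →
        cross i e (sh v l) = sh w (cross i e l)
  | 0, 0, v, hv => ⟨v, hv, fun l hl _ => by
      obtain rfl := List.length_eq_zero_iff.1 hl
      rfl⟩
  | 0, 1, v, hv => ⟨v, hv, fun l hl _ => by
      obtain ⟨s, rfl⟩ := List.length_eq_one_iff.1 hl
      rfl⟩
  | 0, n + 2, v, hv => by
    refine ⟨fun j => match j with | 0 => v 1 | 1 => v 0 | j + 2 => v (j + 2), fun j => ?_,
      fun l hl h => ?_⟩
    · match j with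
      | 0 => exact hv _
      | 1 => exact hv _
      | j + 2 => exact hv _
    · match l, hl, h with
      | s :: t :: l, _, h =>
        have hs := h s (by simp)
        have ht := h t (by simp)
        cases e
        · simp only [sh, cross, half]
          rw [mul_assoc s.tr, mul_assoc s.tr, hA _ (hv 0) _ (A.inv_mem ht)]
        · simp only [sh, cross, half]
          rw [mul_assoc t.tr, mul_assoc t.tr, hA _ (hv _) _ hs]
  | i + 1, 0, v, hv => ⟨v, hv, fun l hl _ => by
      obtain rfl := List.length_eq_zero_iff.1 hl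
      rfl⟩
  | i + 1, n + 1, v, hv => by
    obtain ⟨w, hw, h⟩ := cross_sh hA e i n (fun j => v (j + 1)) fun j => hv _
    refine ⟨fun j => match j with | 0 => v 0 | j + 1 => w j, fun j => ?_, fun l hl hl' => ?_⟩
    · match j with
      | 0 => exact hv _
      | j + 1 => exact hw _
    · match l, hl, hl' with
      | s :: l, hl, hl' =>
        simp only [sh, cross]
        rw [h l (by simpa using hl) fun x hx => hl' x (by simp [hx])]

theorem run_sh {A : Subgroup H} (hA : ∀ a ∈ A, ∀ b ∈ A, a * b = b * a) (n : ℕ) :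
    ∀ (u : Word) (v : ℕ → H), (∀ j, v j ∈ A) → ∃ w : ℕ → H, (∀ j, w j ∈ A) ∧
      ∀ l : List (St 8 H), l.length = n → (∀ s ∈ l, s.col ∈ A) →
        run u (sh v l) = sh w (run u l)
  | [], v, hv => ⟨v, hv, fun _ _ _ => rfl⟩
  | x :: u, v, hv => by
    obtain ⟨w, hw, h⟩ := cross_sh hA x.2 x.1 n v hv
    obtain ⟨w', hw', h'⟩ := run_sh hA n u w hw
    refine ⟨w', hw', fun l hl hl' => ?_⟩
    change run u (cross x.1 x.2 (sh v l)) = sh w' (run u (cross x.1 x.2 l))
    rw [h l hl hl', h' _ (by rw [cross_length, hl]) (cross_cols _ _ _ hl')]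

theorem sh_length (v : ℕ → H) (l : List (St 8 H)) : (sh v l).length = l.length := by
  rw [← cols_length, cols_sh, cols_length]

theorem bact_sh {A : Subgroup H} (hA : ∀ a ∈ A, ∀ b ∈ A, a * b = b * a) {N : ℕ}
    (g : BraidGroup N) (n : ℕ) (v : ℕ → H) (hv : ∀ j, v j ∈ A) : ∃ w : ℕ → H, (∀ j, w j ∈ A) ∧
      ∀ l : List (St 8 H), l.length = n → (∀ s ∈ l, s.col ∈ A) →
        bact H N g (sh v l) = sh w (bact H N g l) := by
  by_cases hn : n = N
  · obtain ⟨u, -, rfl⟩ := exists_word g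
    obtain ⟨w, hw, h⟩ := run_sh hA n (inverse u) v hv
    refine ⟨w, hw, fun l hl hl' => ?_⟩
    rw [bact_toBraid u (hl.trans hn), bact_toBraid u ((sh_length _ _).trans (hl.trans hn)),
      h l hl hl']
  · refine ⟨v, hv, fun l hl _ => ?_⟩
    rw [bact_of_ne g (l := l) (by rwa [hl]), bact_of_ne g (by rwa [sh_length, hl])]

/-- two equal crossings -/
def tw2 (i : ℕ) (l : List (St 8 H)) : List (St 8 H) := cross i false (cross i false l)

theorem tw2_sh {A : Subgroup H} (hA : ∀ a ∈ A, ∀ b ∈ A, a * b = b * a) :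
    ∀ (i : ℕ) (c : List H), (∀ a ∈ c, a ∈ A) → ∃ v : ℕ → H, (∀ j, v j ∈ A) ∧
      ∀ l : List (St 8 H), cols l = c → tw2 i l = sh v l
  | _, [], _ => ⟨fun _ => 1, fun _ => A.one_mem, fun l hl => by
      obtain rfl : l = [] := by simpa [cols] using hl
      rw [sh_one, tw2, cross_out _ _ [] (by simp), cross_out _ _ [] (by simp)]⟩
  | 0, [a], _ => ⟨fun _ => 1, fun _ => A.one_mem, fun l hl => by
      have h1 : l.length = 1 := by rw [← cols_length, hl]; rfl
      rw [sh_one, tw2, cross_out _ _ l (by omega), cross_out _ _ l (by omega)]⟩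
  | 0, a :: b :: c, h => by
    have ha := h a (by simp)
    have hb := h b (by simp)
    refine ⟨fun j => match j with | 0 => b⁻¹ | 1 => a⁻¹ | _ + 2 => 1, fun j => ?_, fun l hl => ?_⟩
    · match j with
      | 0 => exact A.inv_mem hb
      | 1 => exact A.inv_mem ha
      | j + 2 => exact A.one_mem
    · match l, hl with
      | [], hl => simp [cols] at hl
      | [_], hl => simp [cols] at hl
      | s :: t :: l, hl =>
        simp only [cols, List.map_cons, List.cons.injEq] at hl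
        obtain ⟨rfl, rfl, -⟩ := hl
        have h1 : t.col * s.col * t.col⁻¹ = s.col := by rw [hA _ hb _ ha, mul_inv_cancel_right]
        have h2 : s.col * t.col * s.col⁻¹ = t.col := by rw [hA _ ha _ hb, mul_inv_cancel_right]
        simp only [tw2, sh, cross, half, h1, h2, sh_one]
  | i + 1, a :: c, h => by
    obtain ⟨v, hv, h'⟩ := tw2_sh hA i c fun x hx => h x (by simp [hx])
    refine ⟨fun j => match j with | 0 => 1 | j + 1 => v j, fun j => ?_, fun l hl => ?_⟩
    · match j with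
      | 0 => exact A.one_mem
      | j + 1 => exact hv _
    · match l, hl with
      | [], hl => simp [cols] at hl
      | s :: l, hl =>
        simp only [cols, List.map_cons, List.cons.injEq] at hl
        have := h' l hl.2
        simp only [tw2] at this
        simp only [tw2, sh, cross, this, mul_one]

theorem bact_sq {N : ℕ} (i : ℕ) {l : List (St 8 H)} (hl : l.length = N) :
    bact H N (letter N (i, true) ^ 2) l = tw2 i l := by
  have h1 : ∀ l : List (St 8 H), l.length = N → crossP N i true l = cross i false l :=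
    fun l h => if_pos h
  rw [pow_two, map_mul, Equiv.Perm.mul_apply, bact_letter, h1 l hl,
    h1 _ (by rw [cross_length, hl])]
  rfl

/-- braids that only shift the frames of the rows with labels in `A` -/
def shifts (N : ℕ) (A : Subgroup H) : Subgroup (BraidGroup N) where
  carrier := {β | ∀ c : List H, (∀ a ∈ c, a ∈ A) → ∃ v : ℕ → H, (∀ j, v j ∈ A) ∧
    ∀ l : List (St 8 H), cols l = c → bact H N β l = sh v l}
  one_mem' := fun c _ => ⟨fun _ => 1, fun _ => A.one_mem, fun l _ => by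
    rw [map_one, sh_one]; rfl⟩
  mul_mem' := fun {a b} ha hb c hc => by
    obtain ⟨v, hv, h⟩ := ha c hc
    obtain ⟨w, hw, h'⟩ := hb c hc
    refine ⟨fun j => w j * v j, fun j => A.mul_mem (hw j) (hv j), fun l hl => ?_⟩
    rw [map_mul, Equiv.Perm.mul_apply, h' l hl, h _ (by rw [cols_sh, hl]), sh_sh]
  inv_mem' := fun {a} ha c hc => by
    obtain ⟨v, hv, h⟩ := ha c hc
    refine ⟨fun j => (v j)⁻¹, fun j => A.inv_mem (hv j), fun l hl => ?_⟩
    rw [map_inv, Equiv.Perm.inv_eq_iff_eq, h _ (by rw [cols_sh, hl]), sh_sh]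
    simp only [inv_mul_cancel, sh_one]

theorem shifts_normal (N : ℕ) {A : Subgroup H} (hA : ∀ a ∈ A, ∀ b ∈ A, a * b = b * a) :
    (shifts N A).Normal := ⟨fun a ha g c hc => by
  have h0 : cols (c.map fun x => (⟨0, x, 1⟩ : St 8 H)) = c := by
    simp [cols, Function.comp_def]
  obtain ⟨v, hv, h⟩ := ha (cols (bact H N g⁻¹ (c.map fun x => (⟨0, x, 1⟩ : St 8 H))))
    (in_of_cols.1 (bact_in _ (in_of_cols.2 (by rwa [h0]))))
  obtain ⟨w, hw, h'⟩ := bact_sh hA g c.length v hv
  refine ⟨w, hw, fun l hl => ?_⟩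
  rw [map_mul, map_mul, Equiv.Perm.mul_apply, Equiv.Perm.mul_apply,
    h _ (cols_bact_congr _ (hl.trans h0.symm)),
    h' _ (by rw [bact_length, ← cols_length, hl]) (bact_in _ (in_of_cols.2 (by rwa [hl]))),
    ← Equiv.Perm.mul_apply, ← map_mul, mul_inv_cancel, map_one]
  rfl⟩

theorem tw_le_shifts (N : ℕ) {A : Subgroup H} (hA : ∀ a ∈ A, ∀ b ∈ A, a * b = b * a) :
    Tw N 1 ≤ shifts N A := by
  haveI := shifts_normal N hA
  refine Subgroup.normalClosure_le_normal ?_
  rintro _ ⟨i, rfl⟩ c hc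
  by_cases hN : c.length = N
  · obtain ⟨v, hv, h⟩ := tw2_sh hA i c hc
    refine ⟨v, hv, fun l hl => ?_⟩
    simp only [mul_one]
    rw [bact_sq i (by rw [← cols_length, hl, hN]), h l hl]
  · refine ⟨fun _ => 1, fun _ => A.one_mem, fun l hl => ?_⟩
    rw [bact_of_ne _ (by rwa [← cols_length, hl]), sh_one]

/-- braids that fix the rows with labels in `A` -/
def fixer (N : ℕ) (A : Subgroup H) : Subgroup (BraidGroup N) where
  carrier := {β | ∀ l : List (St 8 H), (∀ s ∈ l, s.col ∈ A) → bact H N β l = l}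
  one_mem' := fun l _ => by rw [map_one]; rfl
  mul_mem' := fun {a b} ha hb l hl => by rw [map_mul, Equiv.Perm.mul_apply, hb l hl, ha l hl]
  inv_mem' := fun {a} ha l hl => by rw [map_inv, Equiv.Perm.inv_eq_iff_eq, ha l hl]

theorem fixer_normal (N : ℕ) (A : Subgroup H) : (fixer N A).Normal := ⟨fun a ha g l hl => by
  rw [map_mul, map_mul, Equiv.Perm.mul_apply, Equiv.Perm.mul_apply, ha _ (bact_in _ hl),
    ← Equiv.Perm.mul_apply, ← map_mul, mul_inv_cancel, map_one]
  rfl⟩

theorem comm_le_fixer (N : ℕ) {A : Subgroup H} (hA : ∀ a ∈ A, ∀ b ∈ A, a * b = b * a) :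
    ⁅Tw N 1, Tw N 1⁆ ≤ fixer N A := by
  rw [Subgroup.commutator_le]
  intro a ha b hb l hl
  have h1 : a * b * a⁻¹ * b⁻¹ = a * b * (b * a)⁻¹ := by group
  have h2 : ∀ l' : List (St 8 H), (∀ s ∈ l', s.col ∈ A) →
      bact H N (a * b) l' = bact H N (b * a) l' := by
    intro l' hl'
    obtain ⟨v, hv, h⟩ := tw_le_shifts N hA ha (cols l') (in_of_cols.1 hl')
    obtain ⟨w, hw, h'⟩ := tw_le_shifts N hA hb (cols l') (in_of_cols.1 hl')
    rw [map_mul, map_mul, Equiv.Perm.mul_apply, Equiv.Perm.mul_apply, h l' rfl, h' l' rfl,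
      h _ (cols_sh _ _), h' _ (cols_sh _ _), sh_sh, sh_sh]
    congr 1
    funext j
    exact hA _ (hw j) _ (hv j)
  rw [commutatorElement_def, h1, map_mul, Equiv.Perm.mul_apply, h2 _ (bact_in _ hl), ← Equiv.Perm.mul_apply, ← map_mul,
    mul_inv_cancel, map_one]
  rfl

theorem span_comm {l : List (St 8 H)} (h : ∀ s ∈ l, ∀ t ∈ l, Commute s.col t.col) :
    ∀ a ∈ span l, ∀ b ∈ span l, a * b = b * a := by
  have h1 : ∀ s ∈ l, ∀ b ∈ span l, s.col * b = b * s.col := by
    intro s hs b hb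
    have : span l ≤ Subgroup.centralizer {s.col} :=
      span_le.2 fun t ht => Subgroup.mem_centralizer_singleton_iff.2 (h t ht s hs).eq
    exact (Subgroup.mem_centralizer_singleton_iff.1 (this hb)).symm
  intro a ha b hb
  have : span l ≤ Subgroup.centralizer {b} :=
    span_le.2 fun t ht => Subgroup.mem_centralizer_singleton_iff.2 (h1 t ht b hb)
  exact Subgroup.mem_centralizer_singleton_iff.1 (this ha)

theorem part3 (N : ℕ) (γ : BraidGroup N) (hγ : γ ∈ ⁅Tw N 1, Tw N 1⁆) (l : List (St 8 H))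
    (h : ∀ s ∈ l, ∀ t ∈ l, Commute s.col t.col) : bact H N γ l = l :=
  comm_le_fixer N (span_comm h) hγ l fun _ => mem_span

theorem zz_mem (m : Mk H) (g g' : H) : (zz m g)⁻¹ * zz m g' ∈ commutator H := by
  rw [← Abelianization.ker_of, MonoidHom.mem_ker]
  simp only [zz, map_mul, map_inv]
  rw [inv_mul_eq_one, mul_comm (Abelianization.of g)⁻¹, mul_comm (Abelianization.of g')⁻¹,
    inv_mul_cancel_right, inv_mul_cancel_right]

theorem ym_mem (m : Mk H) (j : Fin 4) : ym m j ∈ commutator H := by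
  fin_cases j
  · have h := zz_mem m (m.2.1.1 * m.2.1.2⁻¹ * m.2.1.1⁻¹) 1
    have h1 : zz m 1 = m.1 := by simp [zz]
    rw [h1] at h
    exact h
  · exact zz_mem m _ _
  · exact zz_mem m _ _
  · exact zz_mem m _ _

theorem bs_mem {K : Subgroup H} {y : Fin 4 → H} (h : ∀ j, y j ∈ K) (c : Fin 8) : bs y c ∈ K := by
  fin_cases c
  · exact h 0
  · exact K.inv_mem (h 0)
  · exact h 1
  · exact K.inv_mem (h 1)
  · exact h 2
  · exact K.inv_mem (h 2)
  · exact h 3
  · exact K.inv_mem (h 3)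

theorem part4 (k : ℕ) (β γ : BraidGroup (8 * k)) (hγ : γ ∈ ⁅Tw (8 * k) 1, Tw (8 * k) 1⁆)
    (h : AM k β) : AM k (β * γ) := by
  intro H _ hH m u hm hs
  refine h H hH m u hm ⟨hs.1, ?_⟩
  have h1 : ∀ s ∈ u, s.col ∈ commutator H := by
    obtain ⟨f, rfl⟩ := hs.1
    intro s hs'
    have h2 : s.col = s.tr⁻¹ * bs (ym m) s.lab * s.tr :=
      congrArg St.col ((inX_row _ _ _).1 s hs')
    rw [h2]
    exact (inferInstance : (commutator H).Normal).conj_mem' _ (bs_mem (ym_mem m) _) _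
  have h2 := hs.2
  rwa [map_mul, Equiv.Perm.mul_apply,
    part3 _ γ hγ u fun s hs t ht => hH _ (h1 s hs) _ (h1 t ht)] at h2

/-! ### Twists -/

theorem tw2_zero (s t : St 8 H) (l : List (St 8 H)) : ∀ n : ℕ, (tw2 0)^[n] (s :: t :: l) =
    ⟨s.lab, (t.col * s.col) ^ n * s.col * ((t.col * s.col) ^ n)⁻¹,
      s.tr * s.col ^ n * ((t.col * s.col) ^ n)⁻¹⟩ ::
    ⟨t.lab, (t.col * s.col) ^ n * t.col * ((t.col * s.col) ^ n)⁻¹,
      t.tr * t.col ^ n * ((t.col * s.col) ^ n)⁻¹⟩ :: l
  | 0 => by simp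
  | n + 1 => by
    rw [Function.iterate_succ_apply', tw2_zero s t l n]
    simp only [tw2, cross, half, pow_succ]
    generalize (t.col * s.col) ^ n = w
    generalize s.col ^ n = p
    generalize t.col ^ n = q
    refine congrArg₂ List.cons ?_ (congrArg₂ List.cons ?_ rfl)
    · refine St.ext rfl ?_ ?_ <;> simp only <;> group
    · refine St.ext rfl ?_ ?_ <;> simp only <;> group

theorem tw2_succ (i : ℕ) (s : St 8 H) : ∀ (n : ℕ) (l : List (St 8 H)),
    (tw2 (i + 1))^[n] (s :: l) = s :: (tw2 i)^[n] l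
  | 0, _ => rfl
  | n + 1, l => by
    rw [Function.iterate_succ_apply, Function.iterate_succ_apply, ← tw2_succ i s n]
    rfl

theorem tw2_fix {K : Subgroup H} {n : ℕ} (hK : ∀ a ∈ K, a ^ n = 1) :
    ∀ (i : ℕ) (l : List (St 8 H)), (∀ s ∈ l, s.col ∈ K) → (tw2 i)^[n] l = l
  | i, [], _ => Function.iterate_fixed (by
      rw [tw2, cross_out _ _ [] (by simp), cross_out _ _ [] (by simp)]) n
  | 0, [s], _ => Function.iterate_fixed rfl n
  | 0, s :: t :: l, h => by
    have hs := h s (by simp)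
    have ht := h t (by simp)
    rw [tw2_zero, hK _ hs, hK _ ht, hK _ (K.mul_mem ht hs)]
    simp
  | i + 1, s :: l, h => by
    rw [tw2_succ, tw2_fix hK i l fun x hx => h x (by simp [hx])]

theorem bact_pow {N : ℕ} (i : ℕ) : ∀ (n : ℕ) (l : List (St 8 H)), l.length = N →
    bact H N (letter N (i, true) ^ (2 * n)) l = (tw2 i)^[n] l
  | 0, l, _ => by rw [mul_zero, pow_zero, map_one]; rfl
  | n + 1, l, hl => by
    rw [mul_add, mul_one, pow_add, map_mul, Equiv.Perm.mul_apply, bact_sq i hl,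
      bact_pow i n _ (by rw [tw2, cross_length, cross_length, hl]), Function.iterate_succ_apply]

theorem part5 (N n : ℕ) (l : List (St 8 H)) (h : ∀ a ∈ span l, a ^ n = 1) (γ : BraidGroup N)
    (hγ : γ ∈ Tw N n) : bact H N γ l = l := by
  haveI := fixer_normal N (span l)
  refine Subgroup.normalClosure_le_normal (N := fixer N (span l)) ?_ hγ l fun _ => mem_span
  rintro _ ⟨i, rfl⟩ l' hl'
  by_cases hN : l'.length = N
  · simp only
    rw [bact_pow i n l' hN, tw2_fix h i l' hl']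
  · exact bact_of_ne _ hN

end F1

theorem rowF1 : RowF1 :=
  ⟨fun _ _ => F1.part1, fun _ _ => F1.part2, fun _ _ => F1.part3,
    fun k β γ hγ => F1.part4 k β γ hγ, fun _ _ => F1.part5⟩

end Vale.Agent.Q258D
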