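import Vale.Agent.Q258D.Rows

/-!
# Frames lie in the span of the labels; uniqueness; partners
-/

namespace Vale.Agent.Q258D

open Vale.Agent.P258.Braid

namespace F2

variable {H H' : Type} [Group H] [Group H'] {N : ℕ}

/-- data that are permuted by the crossings are kept by pure braids -/
theorem pure_gen {α : Type} (R : List (St 8 H) → Prop) (q : List (St 8 H) → α)
    (hR : ∀ i e l, R l → R (cross i e l))
    (hq : ∀ i e e' l l', R l → R l' → l.length = l'.length → q l = q l' →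
      q (cross i e l) = q (cross i e' l'))
    {β : BraidGroup N} (hβ : β ∈ Tw N 1) (l : List (St 8 H)) (hl : R l) :
    q (bact H N β l) = q l := by
  have hb : ∀ (g : BraidGroup N) l, R l → R (bact H N g l) := fun g l h => bact_ind g l R h hR
  have hc : ∀ (g : BraidGroup N) l l', R l → R l' → l.length = l'.length → q l = q l' →
      q (bact H N g l) = q (bact H N g l') := by
    intro g l l' h h' hl e
    by_cases h1 : l.length = N
    · obtain ⟨w, -, rfl⟩ := exists_word g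
      rw [bact_toBraid w h1, bact_toBraid w (hl ▸ h1)]
      generalize inverse w = u
      clear h1
      induction u generalizing l l' with
      | nil => exact e
      | cons x u ih =>
        exact ih _ _ (hR _ _ _ h) (hR _ _ _ h') (by rw [cross_length, cross_length, hl])
          (hq _ _ _ _ _ h h' hl e)
    · rwa [bact_of_ne g h1, bact_of_ne g (hl ▸ h1)]
  let P : Subgroup (BraidGroup N) :=
    { carrier := {β | ∀ l : List (St 8 H), R l → q (bact H N β l) = q l}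
      one_mem' := fun l _ => by rw [map_one]; rfl
      mul_mem' := fun {a b} ha hb' l h => by
        rw [map_mul, Equiv.Perm.mul_apply, ha _ (hb _ _ h), hb' _ h]
      inv_mem' := fun {a} ha l h => by
        rw [← ha (bact H N a⁻¹ l) (hb _ _ h), ← Equiv.Perm.mul_apply, ← map_mul, mul_inv_cancel,
          map_one]
        rfl }
  have hn : P.Normal := ⟨fun a ha g l h => by
    rw [map_mul, map_mul, Equiv.Perm.mul_apply, Equiv.Perm.mul_apply,
      hc g _ _ (hb _ _ (hb _ _ h)) (hb _ _ h) (bact_length _ _) (ha (bact H N g⁻¹ l) (hb _ _ h)),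
      ← Equiv.Perm.mul_apply, ← map_mul, mul_inv_cancel, map_one]
    rfl⟩
  refine (Subgroup.normalClosure_le_normal (N := P) ?_ hβ) l hl
  rintro _ ⟨i, rfl⟩ l h0
  simp only [mul_one]
  rw [pow_two, map_mul, Equiv.Perm.mul_apply, bact_letter]
  by_cases h : l.length = N
  · have h1 : (crossP N i true) l = cross i false l := if_pos h
    have h2 : (crossP N i true) (cross i false l) = cross i false (cross i false l) :=
      if_pos (by rw [cross_length, h])
    rw [h1, h2]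
    conv_rhs => rw [← cross_inv false i l]
    exact hq _ _ _ _ _ (hR _ _ _ h0) (hR _ _ _ h0) rfl rfl
  · have h1 : (crossP N i true) l = l := if_neg h
    rw [h1, h1]

/-- the cosets of the frames -/
def cos (K : Subgroup H) (l : List (St 8 H)) : List (H ⧸ K) := l.map fun s => (s.tr : H ⧸ K)

theorem cross_cos (K : Subgroup H) (e e' : Bool) : ∀ (i : ℕ) (l l' : List (St 8 H)),
    (∀ s ∈ l, s.col ∈ K) → (∀ s ∈ l', s.col ∈ K) → cos K l = cos K l' →
      cos K (cross i e l) = cos K (cross i e' l')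
  | 0, [], [], _, _, _ => rfl
  | 0, [], _ :: _, _, _, h => by simp [cos] at h
  | 0, _ :: _, [], _, _, h => by simp [cos] at h
  | 0, [_], [_], _, _, h => h
  | 0, [_], _ :: _ :: _, _, _, h => by simp [cos] at h
  | 0, _ :: _ :: _, [_], _, _, h => by simp [cos] at h
  | 0, s :: t :: l, s' :: t' :: l', h1, h2, h => by
    simp only [cos, List.map_cons, List.cons.injEq] at h
    have a1 := fun g => QuotientGroup.mk_mul_of_mem g (h1 s (by simp))
    have a2 := fun g => QuotientGroup.mk_mul_of_mem g (K.inv_mem (h1 t (by simp)))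
    have a3 := fun g => QuotientGroup.mk_mul_of_mem g (h2 s' (by simp))
    have a4 := fun g => QuotientGroup.mk_mul_of_mem g (K.inv_mem (h2 t' (by simp)))
    cases e <;> cases e' <;> simp only [cos, cross, half, List.map_cons, a1, a2, a3, a4, h]
  | _ + 1, [], [], _, _, _ => rfl
  | _ + 1, [], _ :: _, _, _, h => by simp [cos] at h
  | _ + 1, _ :: _, [], _, _, h => by simp [cos] at h
  | i + 1, s :: l, s' :: l', h1, h2, h => by
    simp only [cos, List.map_cons, List.cons.injEq] at h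
    have := cross_cos K e e' i l l' (fun y hy => h1 y (by simp [hy]))
      (fun y hy => h2 y (by simp [hy])) h.2
    simp only [cos] at this
    simp only [cos, cross, List.map_cons, this, h.1]

theorem frm_cos (K : Subgroup H) (l : List (St 8 H)) (s : ℕ) :
    ((frm l s : H) : H ⧸ K) = (cos K l).getD s ((1 : H) : H ⧸ K) := by
  unfold frm cos
  simp only [List.getD_eq_getElem?_getD, List.getElem?_map]
  cases l[s]? <;> rfl

/-- pure braids change the frames by elements of the span of the labels -/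
theorem frm_pure {β : BraidGroup N} (hβ : β ∈ Tw N 1) (l : List (St 8 H)) (s : ℕ) :
    frm (bact H N β l) s ∈ span l ↔ frm l s ∈ span l := by
  have h := pure_gen (fun l' => ∀ x ∈ l', x.col ∈ span l) (cos (span l))
    (fun i e l' h => cross_cols e i l' h)
    (fun i e e' l1 l2 h1 h2 _ h => cross_cos _ e e' i l1 l2 h1 h2 h) hβ l fun _ => mem_span
  have h1 : ((frm (bact H N β l) s : H) : H ⧸ span l) = (frm l s : H) := by
    rw [frm_cos, frm_cos, h]
  have h2 := QuotientGroup.eq.1 h1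
  exact ⟨fun h3 => by simpa using (span l).mul_mem h3 h2,
    fun h3 => by simpa using (span l).mul_mem h3 ((span l).inv_mem h2)⟩

theorem lbl_mem (l : List (St 8 H)) (s : ℕ) : lbl l s ∈ span l := by
  unfold lbl
  rw [List.getD_eq_getElem?_getD, List.getElem?_map]
  cases h : l[s]? with
  | none => exact (span l).one_mem
  | some x => exact mem_span (List.mem_of_getElem? h)

omit [Group H] in
/-- propagation along the four long bands -/
theorem propagate {k : ℕ} (hk : 0 < k) (Q : H → Prop) (f f' e : ℕ → H) (h0 : ∀ j, Q (f' (k * j)))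
    (hs : ∀ s < 8 * k, Q (f (s / 2)) ↔
      Q (if s % (2 * k) = 2 * k - 1 then e (s / (2 * k)) else f' ((s + 1) / 2))) :
    (∀ a < 4 * k, Q (f a)) ∧ ∀ j < 4, Q (e j) := by
  have hmod : ∀ j r, r < 2 * k → (2 * k * j + r) % (2 * k) = r := fun j r hr => by
    rw [Nat.mul_add_mod, Nat.mod_eq_of_lt hr]
  have hdiv : ∀ j r, r < 2 * k → (2 * k * j + r) / (2 * k) = j := fun j r hr => by
    rw [Nat.mul_add_div (by omega), Nat.div_eq_of_lt hr, add_zero]
  have hlt : ∀ j r, j < 4 → r < 2 * k → 2 * k * j + r < 8 * k := fun j r hj hr => by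
    have : 2 * k * j ≤ 2 * k * 3 := Nat.mul_le_mul_left _ (by omega)
    omega
  have hev : ∀ j < 4, ∀ i < k, Q (f (k * j + i)) ↔ Q (f' (k * j + i)) := fun j hj i hi => by
    have := hs _ (hlt j (2 * i) hj (by omega))
    rw [hmod j _ (by omega), if_neg (by omega)] at this
    rwa [show (2 * k * j + 2 * i) / 2 = k * j + i by rw [mul_assoc]; omega,
      show (2 * k * j + 2 * i + 1) / 2 = k * j + i by rw [mul_assoc]; omega] at this
  have hone : ∀ j < 4, ∀ i < k, Q (f (k * j + i)) := fun j hj i => by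
    induction i with
    | zero => exact fun hi => (hev j hj 0 hi).2 (h0 j)
    | succ i ih =>
      intro hi
      have := hs _ (hlt j (2 * i + 1) hj (by omega))
      rw [hmod j _ (by omega), if_neg (by omega),
        show (2 * k * j + (2 * i + 1)) / 2 = k * j + i by rw [mul_assoc]; omega,
        show (2 * k * j + (2 * i + 1) + 1) / 2 = k * j + (i + 1) by rw [mul_assoc]; omega] at this
      rw [hev j hj _ hi, ← this]
      exact ih (by omega)
  refine ⟨fun a ha => ?_, fun j hj => ?_⟩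
  · rw [← Nat.div_add_mod a k]
    exact hone _ ((Nat.div_lt_iff_lt_mul hk).2 ha) _ (Nat.mod_lt _ hk)
  · have := hs _ (hlt j (2 * k - 1) hj (by omega))
    rw [hmod j _ (by omega), if_pos rfl, hdiv j _ (by omega),
      show (2 * k * j + (2 * k - 1)) / 2 = k * j + (k - 1) by rw [mul_assoc]; omega] at this
    exact this.1 (hone j hj _ (by omega))

theorem frm_ge {k s : ℕ} (b : Fin 8 → H) (F : ℕ → H) (hs : 8 * k ≤ s) :
    frm (row k b F) s = 1 := by
  unfold frm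
  rw [List.getD_eq_getElem?_getD,
    List.getElem?_eq_none (by rw [List.length_map, row_length]; exact hs)]
  rfl

theorem lbl_ge {k s : ℕ} (b : Fin 8 → H) (F : ℕ → H) (hs : 8 * k ≤ s) :
    lbl (row k b F) s = 1 := by
  unfold lbl
  rw [List.getD_eq_getElem?_getD,
    List.getElem?_eq_none (by rw [List.length_map, row_length]; exact hs)]
  rfl

theorem bs_colr {k : ℕ} (hk : 0 < k) (y : Fin 4 → H) (j : Fin 4) :
    bs y (colr k (2 * k * j)) = y j := by
  have h : colr k (2 * k * j) = ⟨2 * j, by omega⟩ := by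
    apply Fin.ext
    simp only [colr]
    rw [Nat.mul_div_cancel_left _ (by omega), mul_assoc, Nat.mul_mod_right]
    omega
  rw [h]
  fin_cases j <;> rfl

theorem in_span {k : ℕ} (hk : 0 < k) {β : BraidGroup (8 * k)} (hβ : β ∈ Tw (8 * k) 1) (m : Mk H)
    (u : List (St 8 H)) (h : IsSol k β m u) : (∀ s, frm u s ∈ span u) ∧
      (∀ j, ym m j ∈ span u) ∧
      ∀ l ∈ [m.2.1.1, m.2.1.2, m.2.2.1, m.2.2.2], l ∈ span u ∧ m.1⁻¹ * l * m.1 ∈ span u := by
  obtain ⟨⟨f, hf⟩, f', hf0, hf'⟩ := h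
  obtain ⟨p1, p2⟩ := propagate hk (· ∈ span u) f f' (em m)
    (fun j => by rw [hf0]; exact (span u).one_mem) fun s hs => by
      have := frm_pure hβ u s
      rw [hf', frm_row _ _ hs] at this
      rw [this]
      conv_rhs => rw [hf, frm_row _ _ hs, ← hf]
  have h1 : ∀ s, frm u s ∈ span u := fun s => by
    by_cases hs : s < 8 * k
    · conv_rhs => rw [hf, frm_row _ _ hs]
      exact p1 _ (by omega)
    · conv_rhs => rw [hf, frm_ge _ _ (by omega)]
      exact (span u).one_mem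
  have h2 : ∀ j, ym m j ∈ span u := fun j => by
    have hs : 2 * k * j < 8 * k := by
      have : 2 * k * j ≤ 2 * k * 3 := Nat.mul_le_mul_left _ (by omega)
      omega
    have h3 := lbl_mem u (2 * k * j)
    conv_rhs at h3 => rw [hf, lbl_row _ _ hs, bs_colr hk]
    have h4 := p1 (2 * k * j / 2) (by omega)
    simpa [mul_assoc] using (span u).mul_mem ((span u).mul_mem h4 h3) ((span u).inv_mem h4)
  refine ⟨h1, h2, ?_⟩
  generalize span u = K at p2 h2
  obtain ⟨t, ⟨a, b⟩, c, d⟩ := m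
  have hb : b ∈ K := p2 1 (by omega)
  have hd : d ∈ K := p2 3 (by omega)
  have ha : a ∈ K := (K.mul_mem_cancel_right (h2 1)).1 (p2 0 (by omega))
  have hc : c ∈ K := (K.mul_mem_cancel_right (h2 3)).1 (p2 2 (by omega))
  let L : Subgroup H := K.comap (MulAut.conj t⁻¹).toMonoidHom
  have hL : ∀ g, g ∈ L ↔ t⁻¹ * g * t ∈ K := fun g => by
    change t⁻¹ * g * t⁻¹⁻¹ ∈ K ↔ _
    rw [inv_inv]
  have key : ∀ g ∈ K, (g⁻¹ * t * g)⁻¹ * t ∈ K ↔ g ∈ L := fun g hg => by
    rw [hL, show (g⁻¹ * t * g)⁻¹ * t = g⁻¹ * (t⁻¹ * g * t) by group,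
      K.mul_mem_cancel_left (K.inv_mem hg)]
  have step : ∀ g g', (g'⁻¹ * t * g')⁻¹ * (g⁻¹ * t * g) ∈ K → g ∈ K → g' ∈ K → g ∈ L → g' ∈ L := by
    intro g g' h hg hg' hl
    rw [← key _ hg']
    simpa [mul_assoc] using K.mul_mem h ((key _ hg).2 hl)
  have k1 : a * b⁻¹ ∈ K := K.mul_mem ha (K.inv_mem hb)
  have k2 : a * b⁻¹ * a⁻¹ ∈ K := K.mul_mem k1 (K.inv_mem ha)
  have k3 : a * b⁻¹ * a⁻¹ * b ∈ K := K.mul_mem k2 hb
  have k4 : c * d⁻¹ ∈ K := K.mul_mem hc (K.inv_mem hd)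
  have k5 : c * d⁻¹ * c⁻¹ ∈ K := K.mul_mem k4 (K.inv_mem hc)
  have l2 : a * b⁻¹ * a⁻¹ ∈ L := (key _ k2).1 (h2 0)
  have l1 : a * b⁻¹ ∈ L := step _ _ (h2 1) k2 k1 l2
  have la : a ∈ L := L.inv_mem_iff.1 ((L.mul_mem_cancel_left l1).1 l2)
  have lb : b ∈ L := L.inv_mem_iff.1 ((L.mul_mem_cancel_left la).1 l1)
  have l3 : a * b⁻¹ * a⁻¹ * b ∈ L := L.mul_mem l2 lb
  have l5 : a * b⁻¹ * a⁻¹ * b * (c * d⁻¹ * c⁻¹) ∈ L := step _ _ (h2 2) k3 (K.mul_mem k3 k5) l3
  have l4 : a * b⁻¹ * a⁻¹ * b * (c * d⁻¹) ∈ L :=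
    step _ _ (h2 3) (K.mul_mem k3 k5) (K.mul_mem k3 k4) l5
  have l6 := (L.mul_mem_cancel_left l3).1 l5
  have l7 := (L.mul_mem_cancel_left l3).1 l4
  have lc : c ∈ L := L.inv_mem_iff.1 ((L.mul_mem_cancel_left l7).1 l6)
  have ld : d ∈ L := L.inv_mem_iff.1 ((L.mul_mem_cancel_left lc).1 l7)
  intro l hl
  simp only [List.mem_cons, List.not_mem_nil, or_false] at hl
  rcases hl with rfl | rfl | rfl | rfl
  exacts [⟨ha, (hL _).1 la⟩, ⟨hb, (hL _).1 lb⟩, ⟨hc, (hL _).1 lc⟩, ⟨hd, (hL _).1 ld⟩]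

theorem ym_pair (m : Mk H) (m' : Mk H') (j : Fin 4) : ym (pm m m') j = (ym m j, ym m' j) := by
  fin_cases j <;> rfl

theorem bs_pair (m : Mk H) (m' : Mk H') :
    bs (ym (pm m m')) = fun c => (bs (ym m) c, bs (ym m') c) := by
  funext c
  fin_cases c <;> rfl

theorem em_pair (m : Mk H) (m' : Mk H') : ∀ j, em (pm m m') j = (em m j, em m' j)
  | 0 => rfl
  | 1 => rfl
  | 2 => rfl
  | _ + 3 => rfl

theorem lam_pair (m : Mk H) (m' : Mk H') : lam (pm m m') = (lam m, lam m') := rfl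

theorem isSol_zip {k : ℕ} {β : BraidGroup (8 * k)} {m : Mk H} {m' : Mk H'} {u : List (St 8 H)}
    {u' : List (St 8 H')} (h : IsSol k β m u) (h' : IsSol k β m' u') :
    IsSol k β (pm m m') (zip2 u u') := by
  obtain ⟨⟨f, hf⟩, g, hg0, hg⟩ := h
  obtain ⟨⟨f', hf'⟩, g', hg0', hg'⟩ := h'
  have hl : labs u = labs u' := by rw [hf, hf', (inX_row _ _ _).2, (inX_row _ _ _).2]
  refine ⟨⟨fun i => (f i, f' i), by rw [hf, hf', zip2_row, bs_pair]⟩,
    fun i => (g i, g' i), fun j => Prod.ext (hg0 j) (hg0' j), ?_⟩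
  rw [bact_zip2 β hl, hg, hg', zip2_row, bs_pair]
  refine row_congr _ fun s _ => ?_
  split_ifs
  · exact (em_pair m m' _).symm
  · rfl

theorem frm_zip {k : ℕ} {b : Fin 8 → H} {b' : Fin 8 → H'} {u : List (St 8 H)}
    {u' : List (St 8 H')} (h : InT k b u) (h' : InT k b' u') (s : ℕ) :
    frm (zip2 u u') s = (frm u s, frm u' s) := by
  obtain ⟨f, rfl⟩ := h
  obtain ⟨f', rfl⟩ := h'
  rw [zip2_row]
  by_cases hs : s < 8 * k
  · simp only [frm_row _ _ hs]
  · simp only [frm_ge _ _ (not_lt.1 hs)]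
    rfl

theorem span_zip_le {k : ℕ} {b : Fin 8 → H} {b' : Fin 8 → H'} {u : List (St 8 H)}
    {u' : List (St 8 H')} (h : InT k b u) (h' : InT k b' u') {K : Subgroup (H × H')}
    (hK : ∀ s < 8 * k, (lbl u s, lbl u' s) ∈ K) : span (zip2 u u') ≤ K := by
  obtain ⟨f, rfl⟩ := h
  obtain ⟨f', rfl⟩ := h'
  rw [zip2_row, span_le]
  intro x hx
  simp only [row, List.mem_map, List.mem_range] at hx
  obtain ⟨s, hs, rfl⟩ := hx
  have := hK s hs
  rwa [lbl_row _ _ hs, lbl_row _ _ hs] at this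

theorem unique {k : ℕ} (hk : 0 < k) {β : BraidGroup (8 * k)} (hβ : β ∈ Tw (8 * k) 1)
    (m m' : Mk H) (u u' : List (St 8 H)) (h : IsSol k β m u) (h' : IsSol k β m' u')
    (hy : ym m = ym m') (hl : ∀ s, lbl u s = lbl u' s) : u = u' ∧ m.2 = m'.2 := by
  obtain ⟨h1, -, h3⟩ := in_span hk hβ _ _ (isSol_zip h h')
  have hD := span_zip_le h.1 h'.1 (K := (MonoidHom.fst H H).eqLocus (MonoidHom.snd H H))
    fun s _ => hl s
  constructor
  · have h4 : ∀ s, frm u s = frm u' s := fun s => by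
      have := hD (h1 s)
      rwa [frm_zip h.1 h'.1] at this
    obtain ⟨f, hf⟩ := h.1
    obtain ⟨f', hf'⟩ := h'.1
    rw [hf, hf', hy]
    refine row_congr _ fun s hs => ?_
    have := h4 s
    rwa [hf, hf', frm_row _ _ hs, frm_row _ _ hs] at this
  · exact Prod.ext (Prod.ext (hD (h3 (pm m m').2.1.1 (by simp)).1) (hD (h3 (pm m m').2.1.2 (by simp)).1))
      (Prod.ext (hD (h3 (pm m m').2.2.1 (by simp)).1) (hD (h3 (pm m m').2.2.2 (by simp)).1))

theorem span_map (f : H →* H') (l : List (St 8 H)) :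
    span (l.map (St.map f)) = (span l).map f := by
  unfold span
  rw [MonoidHom.map_closure]
  congr 1
  ext g
  constructor
  · rintro ⟨s, hs, rfl⟩
    obtain ⟨t, ht, rfl⟩ := List.mem_map.1 hs
    exact ⟨_, ⟨t, ht, rfl⟩, rfl⟩
  · rintro ⟨_, ⟨t, ht, rfl⟩, rfl⟩
    exact ⟨_, List.mem_map.2 ⟨t, ht, rfl⟩, rfl⟩

theorem labs_of_inT {k : ℕ} {b : Fin 8 → H} {u : List (St 8 H)} (h : InT k b u) :
    labs u = cs k := by
  obtain ⟨f, rfl⟩ := h
  exact (inX_row _ _ _).2

/-- the span of a pair of generating rows is subdirect -/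
theorem subdirect {u : List (St 8 H)} {u' : List (St 8 H')} (hl : labs u = labs u') (h : Gen u)
    (h' : Gen u') : (∀ a, ∃ b, (a, b) ∈ span (zip2 u u')) ∧ ∀ b, ∃ a, (a, b) ∈ span (zip2 u u') := by
  have h1 := span_map (MonoidHom.fst H H') (zip2 u u')
  have h2 := span_map (MonoidHom.snd H H') (zip2 u u')
  rw [zip2_fst (by rw [← labs_length, hl, labs_length]), show span u = ⊤ from h] at h1
  rw [zip2_snd hl, show span u' = ⊤ from h'] at h2
  refine ⟨fun a => ?_, fun b => ?_⟩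
  · obtain ⟨x, hx, rfl⟩ : a ∈ (span (zip2 u u')).map (MonoidHom.fst H H') := h1 ▸ Subgroup.mem_top a
    exact ⟨x.2, hx⟩
  · obtain ⟨x, hx, rfl⟩ : b ∈ (span (zip2 u u')).map (MonoidHom.snd H H') := h2 ▸ Subgroup.mem_top b
    exact ⟨x.1, hx⟩

theorem conj_eq {g g' : H} (h : (g : H ⧸ Subgroup.center H) = g') (t : H) :
    g⁻¹ * t * g = g'⁻¹ * t * g' := by
  have h1 := Subgroup.mem_center_iff.1 (QuotientGroup.eq.1 h) (g⁻¹ * t * g)
  calc g⁻¹ * t * g = (g⁻¹ * g')⁻¹ * (g⁻¹ * g' * (g⁻¹ * t * g)) := by group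
    _ = _ := by rw [← h1]; group

section partners

variable {K : Subgroup (H × H)}
  (hZ : ∀ a b, (a, b) ∈ K → (a ∈ Subgroup.center H ↔ b ∈ Subgroup.center H))
include hZ

theorem mod_eq {a b b' : H} (h : (a, b) ∈ K) (h' : (a, b') ∈ K) :
    (b : H ⧸ Subgroup.center H) = b' := by
  have h1 := K.mul_mem (K.inv_mem h) h'
  rw [Prod.inv_mk, Prod.mk_mul_mk, inv_mul_cancel] at h1
  exact QuotientGroup.eq.2 ((hZ _ _ h1).1 (Subgroup.one_mem _))

variable {k : ℕ} (hk : 0 < k) {β : BraidGroup (8 * k)} (hβ : β ∈ Tw (8 * k) 1) {m : Mk H}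
  {u : List (St 8 H)} (h : IsSol k β m u)
include hk hβ h

/-- the meridian of a partner is determined up to the centre -/
theorem mer_central (hs : ∀ b, ∃ a, (a, b) ∈ K) (hg : Good m) {m' : Mk H} {u' : List (St 8 H)}
    (h' : IsSol k β m' u') (hK : span (zip2 u u') ≤ K) {t0 : H} (h0 : (m.1, t0) ∈ K) :
    m'.1 * t0⁻¹ ∈ Subgroup.center H := by
  obtain ⟨-, -, h3⟩ := in_span hk hβ _ _ (isSol_zip h h')
  obtain ⟨c0, hc⟩ := hs (m'.1 * t0⁻¹)
  have key : ∀ l l', (l, l') ∈ K → (m.1⁻¹ * l * m.1, m'.1⁻¹ * l' * m'.1) ∈ K →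
      c0⁻¹ * l * c0 * l⁻¹ ∈ Subgroup.center H := by
    intro l l' h1 h2
    have h4 := mod_eq hZ h2 (K.mul_mem (K.mul_mem (K.inv_mem h0) h1) h0)
    refine (hZ _ _ (K.mul_mem (K.mul_mem (K.mul_mem (K.inv_mem hc) h1) hc) (K.inv_mem h1))).2 ?_
    have h5 := (Subgroup.center H).inv_mem (QuotientGroup.eq.1 h4)
    have h6 := Subgroup.Normal.conj_mem inferInstance _ h5 (l' * t0)
    convert h6 using 1
    simp only [Prod.snd_mul, Prod.snd_inv]
    group
  refine (hZ _ _ hc).1 (hg.2 c0 fun l hl => ?_)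
  simp only [List.mem_cons, List.not_mem_nil, or_false] at hl
  rcases hl with rfl | rfl | rfl | rfl
  · exact key _ _ (hK (h3 (pm m m').2.1.1 (by simp)).1) (hK (h3 (pm m m').2.1.1 (by simp)).2)
  · exact key _ _ (hK (h3 (pm m m').2.1.2 (by simp)).1) (hK (h3 (pm m m').2.1.2 (by simp)).2)
  · exact key _ _ (hK (h3 (pm m m').2.2.1 (by simp)).1) (hK (h3 (pm m m').2.2.1 (by simp)).2)
  · exact key _ _ (hK (h3 (pm m m').2.2.2 (by simp)).1) (hK (h3 (pm m m').2.2.2 (by simp)).2)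

/-- a partner is determined by its meridian -/
theorem partner_eq {m' m'' : Mk H} {u' u'' : List (St 8 H)} (h' : IsSol k β m' u')
    (hK' : span (zip2 u u') ≤ K) (h'' : IsSol k β m'' u'') (hK'' : span (zip2 u u'') ≤ K)
    (ht : m'.1 = m''.1) : (m', u') = (m'', u'') := by
  obtain ⟨a1, -, a3⟩ := in_span hk hβ _ _ (isSol_zip h h')
  obtain ⟨b1, -, b3⟩ := in_span hk hβ _ _ (isSol_zip h h'')
  have e1 := mod_eq hZ (hK' (a3 (pm m m').2.1.1 (by simp)).1)
    (hK'' (b3 (pm m m'').2.1.1 (by simp)).1)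
  have e2 := mod_eq hZ (hK' (a3 (pm m m').2.1.2 (by simp)).1)
    (hK'' (b3 (pm m m'').2.1.2 (by simp)).1)
  have e3 := mod_eq hZ (hK' (a3 (pm m m').2.2.1 (by simp)).1)
    (hK'' (b3 (pm m m'').2.2.1 (by simp)).1)
  have e4 := mod_eq hZ (hK' (a3 (pm m m').2.2.2 (by simp)).1)
    (hK'' (b3 (pm m m'').2.2.2 (by simp)).1)
  have hz : ∀ g g' : H, (g : H ⧸ Subgroup.center H) = g' → zz m' g = zz m'' g' := fun g g' e => by
    rw [zz, zz, ht, conj_eq e]
  have hy : ym m' = ym m'' := by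
    unfold ym
    rw [ht, hz _ (m''.2.1.1 * m''.2.1.2⁻¹ * m''.2.1.1⁻¹), hz _ (m''.2.1.1 * m''.2.1.2⁻¹),
      hz _ (cm m''.2.1 * (m''.2.2.1 * m''.2.2.2⁻¹ * m''.2.2.1⁻¹)), hz _ (cm m''.2.1),
      hz _ (cm m''.2.1 * (m''.2.2.1 * m''.2.2.2⁻¹))] <;>
    simp only [cm, QuotientGroup.mk_mul, QuotientGroup.mk_inv, e1, e2, e3, e4]
  have hf : ∀ s, ((frm u' s : H) : H ⧸ Subgroup.center H) = (frm u'' s : H) := fun s =>
    mod_eq hZ (frm_zip h.1 h'.1 s ▸ hK' (a1 s)) (frm_zip h.1 h''.1 s ▸ hK'' (b1 s))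
  obtain ⟨c1, c2⟩ := unique hk hβ m' m'' u' u'' h' h'' hy fun s => by
    obtain ⟨f, hf'⟩ := h'.1
    obtain ⟨f', hf''⟩ := h''.1
    have := hf s
    rw [hf', hf''] at this ⊢
    by_cases hs : s < 8 * k
    · rw [frm_row _ _ hs, frm_row _ _ hs] at this
      rw [lbl_row _ _ hs, lbl_row _ _ hs, hy, conj_eq this]
    · rw [lbl_ge _ _ (not_lt.1 hs), lbl_ge _ _ (not_lt.1 hs)]
  exact Prod.ext (Prod.ext ht c2) c1

/-- a partner has the same slope -/
theorem slope_ne (hs : ∀ a, ∃ b, (a, b) ∈ K) (hs' : ∀ b, ∃ a, (a, b) ∈ K) (hg : Good m)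
    (hm : m.1 ^ (2 : ℤ) * lam m = 1) {m' : Mk H} {u' : List (St 8 H)} (h' : IsSol k β m' u')
    (hK : span (zip2 u u') ≤ K) : m'.1 ^ (-2 : ℤ) * lam m' ≠ 1 := by
  intro hm'
  obtain ⟨t0, h0⟩ := hs m.1
  have h1 := mer_central hZ hk hβ h hs' hg h' hK h0
  obtain ⟨-, -, a3⟩ := in_span hk hβ _ _ (isSol_zip h h')
  have e1 := hK (a3 (pm m m').2.1.1 (by simp)).1
  have e2 := hK (a3 (pm m m').2.1.2 (by simp)).1
  have e3 := hK (a3 (pm m m').2.2.1 (by simp)).1
  have e4 := hK (a3 (pm m m').2.2.2 (by simp)).1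
  have h2 : lam (pm m m') ∈ K :=
    K.mul_mem (K.mul_mem (K.mul_mem (K.mul_mem e1 (K.inv_mem e2)) (K.inv_mem e1)) e2)
      (K.mul_mem (K.mul_mem (K.mul_mem e3 (K.inv_mem e4)) (K.inv_mem e3)) e4)
  have h3 : (m.1 ^ (2 : ℤ) * lam m, t0 ^ (2 : ℤ) * lam m') ∈ K :=
    K.mul_mem (K.zpow_mem h0 2) h2
  have h4 := (hZ _ _ h3).1 (by rw [hm]; exact Subgroup.one_mem _)
  rw [zpow_neg, inv_mul_eq_one] at hm'
  have h5 : (m'.1 : H ⧸ Subgroup.center H) = t0 := by
    have := (QuotientGroup.eq_one_iff _).2 h1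
    rwa [QuotientGroup.mk_mul, QuotientGroup.mk_inv, mul_inv_eq_one] at this
  refine hg.1 ((hZ _ (t0 ^ 4) (K.pow_mem h0 4)).2 ((QuotientGroup.eq_one_iff _).1 ?_))
  have h6 := (QuotientGroup.eq_one_iff _).2 h4
  rw [← hm', QuotientGroup.mk_mul, QuotientGroup.mk_zpow, QuotientGroup.mk_zpow, h5,
    ← zpow_add] at h6
  rw [QuotientGroup.mk_pow, ← h6, ← zpow_natCast]
  rfl

end partners

end F2

theorem rowF2 : RowF2 := fun _ _ _ hk _ hβ => ⟨F2.in_span hk hβ, F2.unique hk hβ⟩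

open F2 in
theorem rowF3' : RowF3 := by
  intro H _ _ k hk hc F hF β hβ m u hg h hu
  have hK : ∀ (m' : Mk H) (u' : List (St 8 H)), IsSol k β m' u' → Gen u' → ¬ Gen (zip2 u u') →
      ∃ K ∈ F, span (zip2 u u') ≤ K := fun m' u' h' hu' hn => by
    obtain ⟨s1, s2⟩ := subdirect ((labs_of_inT h.1).trans (labs_of_inT h'.1).symm) hu hu'
    exact hF.2 _ hn s1 s2
  refine ⟨?_, fun hm m' u' h' hu' hn => ?_⟩
  · choose K hK1 hK2 using fun x : {x : Mk H × List (St 8 H) //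
      IsSol k β x.1 x.2 ∧ Gen x.2 ∧ ¬ Gen (zip2 u x.2)} => hK _ _ x.2.1 x.2.2.1 x.2.2.2
    choose t0 ht0 using fun L : F => (hF.1 L.1 L.2).1 m.1
    have hinj : Function.Injective fun x => ((⟨K x, hK1 x⟩, ⟨x.1.1.1 * (t0 ⟨K x, hK1 x⟩)⁻¹,
        mer_central (hF.1 _ (hK1 x)).2.2 hk hβ h (hF.1 _ (hK1 x)).2.1 hg x.2.1 (hK2 x)
          (ht0 ⟨K x, hK1 x⟩)⟩) : F × Subgroup.center H) := by
      intro x y e
      have e1 : (⟨K x, hK1 x⟩ : F) = ⟨K y, hK1 y⟩ := congrArg Prod.fst e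
      have e2 : x.1.1.1 * (t0 ⟨K x, hK1 x⟩)⁻¹ = y.1.1.1 * (t0 ⟨K y, hK1 y⟩)⁻¹ :=
        congrArg (fun z => z.2.1) e
      rw [e1] at e2
      have e3 : K x = K y := congrArg Subtype.val e1
      exact Subtype.ext (partner_eq (hF.1 _ (hK1 x)).2.2 hk hβ h x.2.1 (hK2 x) y.2.1
        (e3 ▸ hK2 y) (mul_right_cancel e2))
    refine (Nat.card_le_card_of_injective _ hinj).trans ?_
    rw [Nat.card_prod, Nat.card_eq_fintype_card, Fintype.card_coe, mul_comm]
    exact Nat.mul_le_mul_right _ hc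
  · obtain ⟨K, hK1, hK2⟩ := hK m' u' h' hu' hn
    exact slope_ne (hF.1 _ hK1).2.2 hk hβ h (hF.1 _ hK1).1 (hF.1 _ hK1).2.1 hg hm h' hK2

theorem rowF3 (_h2 : RowF2) : RowF3 := rowF3'

end Vale.Agent.Q258D
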