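import Vale.Agent.Q258D.Rows
import Mathlib.GroupTheory.SemidirectProduct
import Mathlib.GroupTheory.Abelianization.Defs

/-!
# Row F4: no colourings in a Borel subgroup
-/

set_option linter.all false

namespace Vale.Agent.Q258D

open Vale.Agent.P258.Braid

namespace F4

variable {H H' : Type} [Group H] [Group H']

/-- colourings with given base elements and end frames -/
def Sol (k : ℕ) (β : BraidGroup (8 * k)) (b : Fin 8 → H) (e : ℕ → H) (u : List (St 8 H)) : Prop :=
  InT k b u ∧ InB k b e (bact H (8 * k) β u)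

theorem sol_map {k : ℕ} {β : BraidGroup (8 * k)} {b : Fin 8 → H} {e : ℕ → H}
    {u : List (St 8 H)} (f : H →* H') (h : Sol k β b e u) :
    Sol k β (fun c => f (b c)) (fun j => f (e j)) (u.map (St.map f)) := by
  obtain ⟨⟨g, hg⟩, g', h1, h2⟩ := h
  refine ⟨⟨fun i => f (g i), ?_⟩, fun i => f (g' i), fun j => by simp only [h1, map_one], ?_⟩
  · rw [hg, row_map]
  · rw [bact_map, h2, row_map]
    refine row_congr _ fun s _ => ?_
    split_ifs <;> rfl

theorem frm_map (f : H →* H') (u : List (St 8 H)) (s : ℕ) :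
    frm (u.map (St.map f)) s = f (frm u s) := by
  unfold frm
  rw [List.getD_eq_getElem?_getD, List.getD_eq_getElem?_getD]
  simp only [List.map_map, List.getElem?_map]
  cases u[s]? <;> simp [St.map]

theorem sol_restrict {k : ℕ} {β : BraidGroup (8 * k)} (hβ : β ∈ Tw (8 * k) 1) (K : Subgroup H)
    {b : Fin 8 → K} {e : ℕ → K} {u : List (St 8 H)} (hf : ∀ s, frm u s ∈ K)
    (h : Sol k β (fun c => (b c : H)) (fun j => (e j : H)) u) : ∃ v, Sol k β b e v := by
  classical
  obtain ⟨⟨g, hg⟩, g', h1, h2⟩ := h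
  let r : H → K := fun a => if ha : a ∈ K then ⟨a, ha⟩ else 1
  have hr : ∀ a : K, r a = a := fun a => dif_pos a.2
  have hr' : ∀ a ∈ K, (r a : H) = a := fun a ha => congrArg Subtype.val (hr ⟨a, ha⟩)
  have hu : (row k b fun s => r (g (s / 2))).map (St.map K.subtype) = u := by
    rw [row_map, hg]
    refine row_congr _ fun s hs => hr' _ ?_
    have := hf s
    rwa [hg, frm_row _ _ hs] at this
  refine ⟨row k b fun s => r (g (s / 2)), ⟨fun i => r (g i), rfl⟩, fun i => r (g' i),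
    fun j => by simp only [h1]; exact hr 1, ?_⟩
  have h3 := ((inX_row k b fun s => r (g (s / 2))).bact hβ).eq_row
  rw [h3]
  refine row_congr _ fun s hs => ?_
  have h4 := frm_map K.subtype (bact K (8 * k) β (row k b fun s => r (g (s / 2)))) s
  rw [← bact_map, hu, h2, frm_row _ _ hs] at h4
  rw [← hr (frm _ s)]
  change r (K.subtype _) = _
  rw [← h4]
  split_ifs
  · exact hr _
  · rfl

/-- the image of a marking -/
def mmap (f : H →* H') (m : Mk H) : Mk H' :=
  (f m.1, (f m.2.1.1, f m.2.1.2), (f m.2.2.1, f m.2.2.2))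

theorem ym_map (f : H →* H') (m : Mk H) (j : Fin 4) : ym (mmap f m) j = f (ym m j) := by
  fin_cases j <;> simp [ym, zz, cm, mmap]

theorem lam_map (f : H →* H') (m : Mk H) : lam (mmap f m) = f (lam m) := by
  simp [lam, cm, mmap]

theorem em_map (f : H →* H') (m : Mk H) : ∀ j, em (mmap f m) j = f (em m j)
  | 0 => by simp only [em, ym_map, map_mul]; rfl
  | 1 => rfl
  | 2 => by simp only [em, ym_map, map_mul]; rfl
  | _ + 3 => rfl

theorem bs_map (f : H →* H') (y : Fin 4 → H) (y' : Fin 4 → H') (h : ∀ j, y' j = f (y j)) :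
    bs y' = fun c => f (bs y c) := by
  funext c
  fin_cases c <;> simp [bs, h]

theorem isSol_map {k : ℕ} {β : BraidGroup (8 * k)} {m : Mk H} {u : List (St 8 H)} (f : H →* H')
    (h : IsSol k β m u) : IsSol k β (mmap f m) (u.map (St.map f)) := by
  have := sol_map f (show Sol k β _ _ u from h)
  rw [← bs_map f _ _ (ym_map f m), ← funext (em_map f m)] at this
  exact this

theorem span_bot {k : ℕ} {β : BraidGroup (8 * k)} {m : Mk H} {u : List (St 8 H)}
    (h : IsSol k β m u) (hy : ∀ j, ym m j = 1) : span u = ⊥ := by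
  obtain ⟨⟨g, hg⟩, -⟩ := h
  rw [eq_bot_iff, span_le]
  intro s hs
  rw [hg] at hs
  simp only [row, List.mem_map] at hs
  obtain ⟨a, -, rfl⟩ := hs
  have : ∀ c, bs (ym m) c = 1 := fun c => by fin_cases c <;> simp [bs, hy]
  simp [mk, this]

section

variable {p : ℕ} [Fact p.Prime]

theorem mul10 (a b : SLp p) : (a * b).1 1 0 = a.1 1 0 * b.1 0 0 + a.1 1 1 * b.1 1 0 := by
  simp [Matrix.mul_apply, Fin.sum_univ_two]

theorem mul00 (a b : SLp p) : (a * b).1 0 0 = a.1 0 0 * b.1 0 0 + a.1 0 1 * b.1 1 0 := by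
  simp [Matrix.mul_apply, Fin.sum_univ_two]

theorem mul01 (a b : SLp p) : (a * b).1 0 1 = a.1 0 0 * b.1 0 1 + a.1 0 1 * b.1 1 1 := by
  simp [Matrix.mul_apply, Fin.sum_univ_two]

theorem mul11 (a b : SLp p) : (a * b).1 1 1 = a.1 1 0 * b.1 0 1 + a.1 1 1 * b.1 1 1 := by
  simp [Matrix.mul_apply, Fin.sum_univ_two]

theorem det2 (a : SLp p) : a.1 0 0 * a.1 1 1 - a.1 0 1 * a.1 1 0 = 1 := by
  have := a.2
  rwa [Matrix.det_fin_two] at this

theorem ext2 {a b : SLp p} (h00 : a.1 0 0 = b.1 0 0) (h01 : a.1 0 1 = b.1 0 1)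
    (h10 : a.1 1 0 = b.1 1 0) (h11 : a.1 1 1 = b.1 1 1) : a = b := by
  refine Subtype.ext (Matrix.ext fun i j => ?_)
  fin_cases i <;> fin_cases j <;> assumption

variable (p) in
/-- the upper triangular matrices -/
def Bor : Subgroup (SLp p) where
  carrier := {a | a.1 1 0 = 0}
  one_mem' := by simp
  mul_mem' := fun {a b} ha hb => by
    change (a * b).1 1 0 = 0
    rw [mul10, show a.1 1 0 = 0 from ha, show b.1 1 0 = 0 from hb]
    ring
  inv_mem' := fun {a} ha => by
    change (a⁻¹).1 1 0 = 0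
    have h1 := mul10 a a⁻¹
    have h2 := det2 a
    rw [mul_inv_cancel, show a.1 1 0 = 0 from ha] at h1
    rw [show a.1 1 0 = 0 from ha] at h2
    have h3 : (1 : SLp p).1 1 0 = 0 := by simp
    rw [h3] at h1
    linear_combination (-a.1 0 0) * h1 - (a⁻¹).1 1 0 * h2

/-- the first diagonal entry -/
def chi0 : Bor p →* ZMod p where
  toFun a := a.1.1 0 0
  map_one' := by simp
  map_mul' a b := by
    change (a.1 * b.1).1 0 0 = _
    rw [mul00, show b.1.1 1 0 = 0 from b.2]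
    ring

/-- the first diagonal entry as a unit -/
noncomputable def chi : Bor p →* (ZMod p)ˣ := (chi0 (p := p)).toHomUnits

theorem chi_val (a : Bor p) : (chi a : ZMod p) = a.1.1 0 0 := rfl

theorem bor_mab : ∀ a ∈ commutator (Bor p), ∀ b ∈ commutator (Bor p), Commute a b := by
  have h : ∀ a ∈ commutator (Bor p), a.1.1 0 0 = 1 ∧ a.1.1 1 1 = 1 := fun a ha => by
    have h1 : chi a = 1 := Abelianization.commutator_subset_ker chi ha
    have h2 : a.1.1 0 0 = 1 := by rw [← chi_val, h1]; rfl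
    have h3 := det2 a.1
    rw [show a.1.1 1 0 = 0 from a.2, h2] at h3
    exact ⟨h2, by linear_combination h3⟩
  intro a ha b hb
  obtain ⟨a1, a2⟩ := h a ha
  obtain ⟨b1, b2⟩ := h b hb
  have a3 : a.1.1 1 0 = 0 := a.2
  have b3 : b.1.1 1 0 = 0 := b.2
  refine Subtype.ext (ext2 ?_ ?_ ?_ ?_)
  · change (a.1 * b.1).1 0 0 = (b.1 * a.1).1 0 0
    rw [mul00, mul00, a1, b1, a3, b3]; ring
  · change (a.1 * b.1).1 0 1 = (b.1 * a.1).1 0 1
    rw [mul01, mul01, a1, b1, a2, b2]; ring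
  · change (a.1 * b.1).1 1 0 = (b.1 * a.1).1 1 0
    rw [mul10, mul10, a1, b1, a3, b3, a2, b2]
  · change (a.1 * b.1).1 1 1 = (b.1 * a.1).1 1 1
    rw [mul11, mul11, a3, b3, a2, b2]; ring

/-- the elements that stay upper triangular after conjugation with `t` -/
def Tor (t : SLp p) : Subgroup (Bor p) :=
  ((Bor p).comap (MulAut.conj t⁻¹).toMonoidHom).subgroupOf (Bor p)

theorem mem_tor {t : SLp p} {l : Bor p} : l ∈ Tor t ↔ t⁻¹ * l.1 * t ∈ Bor p := by
  simp [Tor, Subgroup.mem_subgroupOf]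

theorem chi_conj {t : SLp p} (ht : t ∉ Bor p) {l : Bor p} (hl : t⁻¹ * l.1 * t ∈ Bor p) :
    chi ⟨_, hl⟩ = (chi l)⁻¹ := by
  have h0 : t.1 1 0 ≠ 0 := ht
  have h1 : t * (t⁻¹ * l.1 * t) = l.1 * t := by group
  have h2 := mul10 t (t⁻¹ * l.1 * t)
  rw [h1, mul10, show (t⁻¹ * l.1 * t).1 1 0 = 0 from hl, show l.1.1 1 0 = 0 from l.2] at h2
  have h3 := det2 l.1
  rw [show l.1.1 1 0 = 0 from l.2] at h3
  rw [eq_inv_iff_mul_eq_one]
  refine Units.ext ?_
  rw [Units.val_mul, chi_val, chi_val, Units.val_one]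
  refine mul_left_cancel₀ h0 ?_
  linear_combination (-l.1.1 0 0) * h2 + t.1 1 0 * h3

theorem central {t : SLp p} (ht : t ∉ Bor p) {l : Bor p} (hl : t⁻¹ * l.1 * t ∈ Bor p)
    (h : (chi l)⁻¹ = chi l) : t⁻¹ * l.1 * t = l.1 := by
  have h0 : t.1 1 0 ≠ 0 := ht
  have h1 : t * (t⁻¹ * l.1 * t) = l.1 * t := by group
  have h4 : (t⁻¹ * l.1 * t).1 0 0 = l.1.1 0 0 := by
    have := congrArg Units.val ((chi_conj ht hl).trans h)
    exact this
  have h2 := mul00 t (t⁻¹ * l.1 * t)
  rw [h1, mul00, show (t⁻¹ * l.1 * t).1 1 0 = 0 from hl, h4] at h2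
  have h5 : l.1.1 0 1 = 0 := by
    refine mul_left_cancel₀ h0 ?_
    linear_combination h2
  have h6 := mul10 t (t⁻¹ * l.1 * t)
  rw [h1, mul10, show (t⁻¹ * l.1 * t).1 1 0 = 0 from hl, show l.1.1 1 0 = 0 from l.2, h4] at h6
  have h7 : l.1.1 1 1 = l.1.1 0 0 := by
    refine mul_left_cancel₀ h0 ?_
    linear_combination h6
  have h8 : l.1 * t = t * l.1 := by
    have h9 : l.1.1 1 0 = 0 := l.2
    refine ext2 ?_ ?_ ?_ ?_
    · rw [mul00, mul00, h5, h9]; ring
    · rw [mul01, mul01, h5, h7]; ring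
    · rw [mul10, mul10, h9, h7]; ring
    · rw [mul11, mul11, h5, h9]; ring
  rw [mul_assoc, h8]
  group

/-- the infinite cyclic group acts by inversion -/
def act (A : Type) [CommGroup A] : Multiplicative ℤ →* MulAut A :=
  zpowersHom (MulAut A) (MulEquiv.inv A)

/-- a metabelian group -/
abbrev Dih (A : Type) [CommGroup A] : Type := A ⋊[act A] Multiplicative ℤ

theorem dih_mab (A : Type) [CommGroup A] :
    ∀ a ∈ commutator (Dih A), ∀ b ∈ commutator (Dih A), Commute a b := by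
  have h : ∀ a ∈ commutator (Dih A), ∃ x, SemidirectProduct.inl x = a := fun a ha => by
    have h1 := Abelianization.commutator_subset_ker
      (SemidirectProduct.rightHom : Dih A →* Multiplicative ℤ) ha
    rw [← SemidirectProduct.range_inl_eq_ker_rightHom] at h1
    exact h1
  intro a ha b hb
  obtain ⟨x, rfl⟩ := h a ha
  obtain ⟨y, rfl⟩ := h b hb
  exact (Commute.all x y).map _

/-- the reflection -/
def refl (A : Type) [CommGroup A] : Dih A := SemidirectProduct.inr (Multiplicative.ofAdd 1)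

theorem refl_conj {A : Type} [CommGroup A] (a : A) :
    (refl A)⁻¹ * SemidirectProduct.inl a * refl A = SemidirectProduct.inl a⁻¹ := by
  have h := SemidirectProduct.inl_aut (φ := act A) (Multiplicative.ofAdd 1) a⁻¹
  have h2 : act A (Multiplicative.ofAdd 1) a⁻¹ = a := by simp [act]
  rw [h2] at h
  rw [h, refl, map_inv (SemidirectProduct.inr (φ := act A))]
  group

theorem dih_y {A : Type} [CommGroup A] (a b : A) :
    ((SemidirectProduct.inl a : Dih A)⁻¹ * refl A * SemidirectProduct.inl a)⁻¹ *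
      ((SemidirectProduct.inl b : Dih A)⁻¹ * refl A * SemidirectProduct.inl b) =
      SemidirectProduct.inl (a⁻¹ * (a * b⁻¹)⁻¹ * b) := by
  rw [map_mul, map_mul, ← refl_conj (a * b⁻¹), map_mul, map_inv, map_inv]
  group

/-- the meridians of the bands, as elements of the subgroup -/
def yy {t : SLp p} {g h : Bor p} (hg : g ∈ Tor t) (hh : h ∈ Tor t) : Bor p :=
  g⁻¹ * ⟨_, mem_tor.1 ((Tor t).mul_mem hg ((Tor t).inv_mem hh))⟩ * h

theorem yy_val {t : SLp p} {g h : Bor p} (hg : g ∈ Tor t) (hh : h ∈ Tor t) :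
    (yy hg hh).1 = (g.1⁻¹ * t * g.1)⁻¹ * (h.1⁻¹ * t * h.1) := by
  simp only [yy, Subgroup.coe_mul, Subgroup.coe_inv]
  group

theorem yy_chi {t : SLp p} (ht : t ∉ Bor p) {g h : Bor p} (hg : g ∈ Tor t) (hh : h ∈ Tor t) :
    chi (yy hg hh) = (chi g)⁻¹ * (chi g * (chi h)⁻¹)⁻¹ * chi h := by
  rw [yy, map_mul, map_mul, chi_conj ht, map_inv, map_mul, map_inv]

theorem yy_one {t : SLp p} (ht : t ∉ Bor p) {g h : Bor p} (hg : g ∈ Tor t) (hh : h ∈ Tor t)
    (h1 : chi (yy hg hh) = 1) : yy hg hh = 1 := by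
  rw [yy_chi ht] at h1
  have h2 := central ht (mem_tor.1 ((Tor t).mul_mem hg ((Tor t).inv_mem hh))) (by
    rw [map_mul, map_inv]
    have h3 : (chi g * (chi h)⁻¹)⁻¹ = chi g * (chi h)⁻¹ *
        ((chi g)⁻¹ * (chi g * (chi h)⁻¹)⁻¹ * chi h) := by
      generalize (chi g * (chi h)⁻¹)⁻¹ = x
      rw [mul_comm (chi g), mul_assoc, ← mul_assoc (chi g), ← mul_assoc (chi g), mul_inv_cancel,
        one_mul, mul_comm x, ← mul_assoc, inv_mul_cancel, one_mul]
    rw [h3, h1, mul_one])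
  refine Subtype.ext ?_
  simp only [yy, Subgroup.coe_mul, Subgroup.coe_inv, Subgroup.coe_one] at h2 ⊢
  rw [h2]
  group

theorem core {k : ℕ} {β : BraidGroup (8 * k)} (hβ : β ∈ Tw (8 * k) 1) (hA : AM k β)
    {m : Mk (SLp p)} {u : List (St 8 (SLp p))} (hc : Commute m.1 (lam m)) (hs : IsSol k β m u)
    (hf : ∀ s, frm u s ∈ Bor p)
    (hl : ∀ l ∈ [m.2.1.1, m.2.1.2, m.2.2.1, m.2.2.2], l ∈ Bor p ∧ m.1⁻¹ * l * m.1 ∈ Bor p) :
    ∀ j, ym m j = 1 := by
  obtain ⟨t, ⟨l1, l2⟩, l3, l4⟩ := m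
  obtain ⟨a1, b1⟩ := hl l1 (by simp)
  obtain ⟨a2, b2⟩ := hl l2 (by simp)
  obtain ⟨a3, b3⟩ := hl l3 (by simp)
  obtain ⟨a4, b4⟩ := hl l4 (by simp)
  simp only at b1 b2 b3 b4
  by_cases ht : t ∈ Bor p
  · let n : Mk (Bor p) := (⟨t, ht⟩, (⟨l1, a1⟩, ⟨l2, a2⟩), ⟨l3, a3⟩, ⟨l4, a4⟩)
    have hn : mmap (Bor p).subtype n = (t, (l1, l2), l3, l4) := rfl
    rw [← hn] at hc hs ⊢
    have h1 : Sol k β (fun c => ((bs (ym n) c : Bor p) : SLp p))
        (fun j => ((em n j : Bor p) : SLp p)) u := by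
      have h2 : Sol k β _ _ u := hs
      rwa [bs_map _ _ _ (ym_map _ n), funext (em_map _ n)] at h2
    obtain ⟨v, hv⟩ := sol_restrict hβ _ hf h1
    have h3 : Commute n.1 (lam n) := by
      rw [lam_map] at hc
      exact Subtype.ext hc
    intro j
    rw [ym_map, hA _ bor_mab n v h3 hv j, map_one]
  · let L1 : Bor p := ⟨l1, a1⟩
    let L2 : Bor p := ⟨l2, a2⟩
    let L3 : Bor p := ⟨l3, a3⟩
    let L4 : Bor p := ⟨l4, a4⟩
    have c1 : L1 ∈ Tor t := mem_tor.2 b1
    have c2 : L2 ∈ Tor t := mem_tor.2 b2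
    have c3 : L3 ∈ Tor t := mem_tor.2 b3
    have c4 : L4 ∈ Tor t := mem_tor.2 b4
    have d0 : L1 * L2⁻¹ ∈ Tor t := mul_mem c1 (inv_mem c2)
    have d1 : L1 * L2⁻¹ * L1⁻¹ ∈ Tor t := mul_mem d0 (inv_mem c1)
    have d2 : cm (L1, L2) ∈ Tor t := mul_mem d1 c2
    have d3 : cm (L1, L2) * (L3 * L4⁻¹) ∈ Tor t := mul_mem d2 (mul_mem c3 (inv_mem c4))
    have d4 : cm (L1, L2) * (L3 * L4⁻¹ * L3⁻¹) ∈ Tor t :=
      mul_mem d2 (mul_mem (mul_mem c3 (inv_mem c4)) (inv_mem c3))
    let y : Fin 4 → Bor p := ![yy d1 (one_mem _), yy d0 d1, yy d4 d2, yy d3 d4]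
    have hy : ∀ j, ym (t, (l1, l2), l3, l4) j = (Bor p).subtype (y j) := fun j => by
      fin_cases j <;> simp [y, yy_val, ym, zz, cm, L1, L2, L3, L4]
    let e : ℕ → Bor p := fun j => match j with
      | 0 => L1 * y 1
      | 1 => L2
      | 2 => L3 * y 3
      | _ => L4
    have he : em (t, (l1, l2), l3, l4) = fun j => (e j : SLp p) := funext fun j =>
      match j with
      | 0 => by simp only [em, hy]; rfl
      | 1 => rfl
      | 2 => by simp only [em, hy]; rfl
      | _ + 3 => rfl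
    have h1 : Sol k β (fun c => ((bs y c : Bor p) : SLp p)) (fun j => (e j : SLp p)) u := by
      have h2 : Sol k β _ _ u := hs
      rwa [bs_map _ _ _ hy, he] at h2
    obtain ⟨v, hv⟩ := sol_restrict hβ _ hf h1
    let f : Bor p →* Dih (ZMod p)ˣ := SemidirectProduct.inl.comp chi
    let n : Mk (Dih (ZMod p)ˣ) := (refl _, (f L1, f L2), f L3, f L4)
    have hY : ∀ {g h : Bor p} (hg : g ∈ Tor t) (hh : h ∈ Tor t),
        f (yy hg hh) = ((f g)⁻¹ * refl _ * f g)⁻¹ * ((f h)⁻¹ * refl _ * f h) := fun hg hh => by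
      simp only [f, MonoidHom.comp_apply]
      rw [dih_y, yy_chi ht]
    have hy' : ∀ j, ym n j = f (y j) := fun j => by
      fin_cases j <;> simp [y, hY, ym, zz, cm, n]
    have he' : em n = fun j => f (e j) := funext fun j =>
      match j with
      | 0 => by simp only [em, hy', e, map_mul]; rfl
      | 1 => rfl
      | 2 => by simp only [em, hy', e, map_mul]; rfl
      | _ + 3 => rfl
    have h4 := sol_map f hv
    rw [← bs_map f _ _ hy', ← he'] at h4
    have h5 : ∀ a b : Bor p, cm (f a, f b) = 1 := fun a b => by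
      have : Commute (f a) (f b) := (Commute.all (chi a) (chi b)).map SemidirectProduct.inl
      simp only [cm]
      rw [this.inv_right.eq]
      group
    have h6 : Commute n.1 (lam n) := by
      have : lam n = 1 := by simp only [lam, n, h5, mul_one]
      rw [this]
      exact Commute.one_right _
    have h7 : ∀ j, chi (y j) = 1 := fun j => by
      have := hA _ (dih_mab _) n _ h6 h4 j
      rw [hy'] at this
      exact SemidirectProduct.inl_injective (this.trans (map_one _).symm)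
    intro j
    have h8 : y j = 1 := by
      have := h7 j
      fin_cases j
      · exact yy_one ht d1 (one_mem _) this
      · exact yy_one ht d0 d1 this
      · exact yy_one ht d4 d2 this
      · exact yy_one ht d3 d4 this
    rw [hy, h8, map_one]

end

end F4

open F4 in
theorem rowF4 (h1 : RowD1) (h2 : RowF2) : RowF4 := by
  intro p _ hp k hk β hβ hA m u hc hs hd
  rcases (h1 p hp).2.2.1 _ hd with h | ⟨x, hx⟩
  · exact h
  exfalso
  obtain ⟨e1, -, e3⟩ := (h2 (SLp p) k hk β hβ).1 m u hs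
  let f : SLp p →* SLp p := (MulAut.conj x⁻¹).toMonoidHom
  have hB : ∀ a ∈ span u, f a ∈ Bor p := fun a ha => by
    have := hx a ha
    change (x⁻¹ * a * x⁻¹⁻¹).1 1 0 = 0
    rwa [inv_inv]
  have h3 := core hβ hA (m := mmap f m) (by rw [lam_map]; exact hc.map f) (isSol_map f hs)
    (fun s => by rw [frm_map]; exact hB _ (e1 s)) (fun l hl => by
      have h4 : ∃ l' ∈ [m.2.1.1, m.2.1.2, m.2.2.1, m.2.2.2], f l' = l := by
        rw [← List.mem_map]
        exact hl
      obtain ⟨l', h5, rfl⟩ := h4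
      refine ⟨hB _ (e3 l' h5).1, ?_⟩
      have := hB _ (e3 l' h5).2
      rwa [map_mul, map_mul, map_inv] at this)
  have h6 : ∀ j, ym m j = 1 := fun j => by
    have := h3 j
    rw [ym_map] at this
    exact (MulAut.conj x⁻¹).injective (this.trans (map_one _).symm)
  rw [span_bot hs h6, Subgroup.card_bot, Nat.dvd_one] at hd
  omega

end Vale.Agent.Q258D
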