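import Vale.Agent.Q258D.D3

/-!
# Conjugates and products of colourings
-/

namespace Vale.Agent.Q258D

open Vale.Agent.P258.Braid
open scoped commutatorElement

namespace F5

variable {G H H' : Type} [Group G] [Group H] [Group H']

/-- the image of a marking -/
def mmap (f : H →* H') (m : Mk H) : Mk H' :=
  (f m.1, (f m.2.1.1, f m.2.1.2), (f m.2.2.1, f m.2.2.2))

theorem lam_map (f : H →* H') (m : Mk H) : lam (mmap f m) = f (lam m) := by
  simp [lam, cm, mmap]

theorem ym_map (f : H →* H') (m : Mk H) (j : Fin 4) : ym (mmap f m) j = f (ym m j) := by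
  fin_cases j <;> simp [ym, zz, cm, mmap]

theorem em_map (f : H →* H') (m : Mk H) : ∀ n, em (mmap f m) n = f (em m n)
  | 0 => by rw [em, em, ym_map, map_mul]; rfl
  | 1 => rfl
  | 2 => by rw [em, em, ym_map, map_mul]; rfl
  | _ + 3 => rfl

theorem bs_map (f : H →* H') (m : Mk H) (c : Fin 8) :
    bs (ym (mmap f m)) c = f (bs (ym m) c) := by
  fin_cases c <;> simp [bs, ym_map]

theorem isSol_map (f : H →* H') {k : ℕ} {β : BraidGroup (8 * k)} {m : Mk H} {u : List (St 8 H)}
    (h : IsSol k β m u) : IsSol k β (mmap f m) (u.map (St.map f)) := by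
  obtain ⟨⟨g, h1⟩, g', h2, h3⟩ := h
  have e : bs (ym (mmap f m)) = fun c => f (bs (ym m) c) := funext (bs_map f m)
  refine ⟨⟨fun s => f (g s), by rw [h1, row_map, e]⟩, fun s => f (g' s),
    fun j => (congrArg f (h2 j)).trans (map_one f), ?_⟩
  rw [bact_map, h3, row_map, e]
  simp only [apply_ite f, em_map]

theorem span_map (f : H →* H') (l : List (St 8 H)) :
    span (l.map (St.map f)) = (span l).map f := by
  unfold span
  rw [MonoidHom.map_closure]
  congr 1
  ext g
  constructor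
  · rintro ⟨_, hs, rfl⟩
    obtain ⟨s, h, rfl⟩ := List.mem_map.1 hs
    exact ⟨_, ⟨s, h, rfl⟩, rfl⟩
  · rintro ⟨_, ⟨s, h, rfl⟩, rfl⟩
    exact ⟨_, List.mem_map_of_mem h, rfl⟩

theorem gen_map {f : H →* H'} (hf : Function.Surjective f) {l : List (St 8 H)} (h : Gen l) :
    Gen (l.map (St.map f)) := by
  unfold Gen at h ⊢
  rw [span_map, h, Subgroup.map_top_of_surjective f hf]

theorem map_prod (f : G →* H) (g : G →* H') (l : List (St 8 G)) :
    l.map (St.map (f.prod g)) = zip2 (l.map (St.map f)) (l.map (St.map g)) := by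
  simp only [zip2, List.zipWith_map, List.zipWith_self]
  rfl

theorem map_comp (f : G →* H) (g : H →* H') (l : List (St 8 G)) :
    l.map (St.map (g.comp f)) = (l.map (St.map f)).map (St.map g) := by
  rw [List.map_map]
  rfl

theorem len_of {l : List (St 8 H)} {l' : List (St 8 H')} (h : labs l = labs l') :
    l.length = l'.length := by rw [← labs_length, h, labs_length]

theorem labs_zip {l : List (St 8 H)} {l' : List (St 8 H')} (h : labs l = labs l') :
    labs (zip2 l l') = labs l := by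
  conv_rhs => rw [← zip2_fst (len_of h)]
  simp [labs, St.map, Function.comp_def]

theorem good_map (e : H ≃* H') (m : Mk H) : Good (mmap e.toMonoidHom m) ↔ Good m := by
  have c : ∀ a, e a ∈ Subgroup.center H' ↔ a ∈ Subgroup.center H := fun a =>
    MulEquivClass.apply_mem_center_iff e
  unfold Good
  rw [e.surjective.forall]
  simp only [mmap, MulEquiv.coe_toMonoidHom, List.forall_mem_cons, ← map_pow, ← map_inv, ← map_mul,
    c, List.not_mem_nil, IsEmpty.forall_iff, implies_true]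

theorem not_gen [Nontrivial H'] (f : H →* H') (u : List (St 8 H)) :
    ¬ Gen (zip2 u (u.map (St.map f))) := fun h => by
  have h1 : span (zip2 u (u.map (St.map f))) ≤
      (MonoidHom.snd H H').eqLocus (f.comp (MonoidHom.fst H H')) := by
    refine span_le.2 fun s hs => ?_
    simp only [zip2, List.zipWith_map_right, List.zipWith_self, List.mem_map] at hs
    obtain ⟨t, -, rfl⟩ := hs
    rfl
  obtain ⟨a, ha⟩ := exists_ne (1 : H')
  exact ha ((h1 (show ((1 : H), a) ∈ _ from h ▸ Subgroup.mem_top _)).trans (map_one f))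

theorem card_le_of {X : Type} {n : ℕ} (h : X → Nat.card X ≤ n) : Nat.card X ≤ n := by
  rcases isEmpty_or_nonempty X with c | ⟨⟨x⟩⟩
  · simp
  · exact h x

theorem conj_count [Finite H] [Nontrivial H] {k : ℕ} {β : BraidGroup (8 * k)}
    (hc : Nat.card (Subgroup.center H) ≤ 2) {m : Mk H} {u : List (St 8 H)} (h : IsSol k β m u)
    (hg : Gen u) : Nat.card H ≤ 2 * Nat.card {x : Mk H × List (St 8 H) //
      (∀ s : ℤ, x.1.1 ^ s * lam x.1 = 1 ↔ m.1 ^ s * lam m = 1) ∧ (Good x.1 ↔ Good m) ∧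
      IsSol k β x.1 x.2 ∧ Gen x.2 ∧ ¬ Gen (zip2 u x.2)} := by
  have h1 : Finite {l : List (St 8 H) // l.length = 8 * k} := by
    have := Fintype.ofFinite (St 8 H)
    exact (inferInstance : Finite (List.Vector (St 8 H) (8 * k)))
  have h2 : Finite {x : Mk H × List (St 8 H) //
      (∀ s : ℤ, x.1.1 ^ s * lam x.1 = 1 ↔ m.1 ^ s * lam m = 1) ∧ (Good x.1 ↔ Good m) ∧
      IsSol k β x.1 x.2 ∧ Gen x.2 ∧ ¬ Gen (zip2 u x.2)} :=
    Finite.of_injective (β := Mk H × {l : List (St 8 H) // l.length = 8 * k})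
      (fun x => (x.1.1, ⟨x.1.2, by obtain ⟨f, e⟩ := x.2.2.2.1.1; rw [e, row_length]⟩))
      fun x y e => Subtype.ext (Prod.ext (congrArg (fun z => z.1) e) (congrArg (fun z => z.2.1) e))
  have h3 := D3.card_le_fib (fun _ : H => True) (fun _ => True)
    (fun x => (⟨(mmap (MulAut.conj x).toMonoidHom m, u.map (St.map (MulAut.conj x).toMonoidHom)),
      fun s => by
        rw [lam_map, ← (MulAut.conj x).map_eq_one_iff (x := m.1 ^ s * lam m), map_mul, map_zpow]
        rfl,
      good_map _ m, isSol_map _ h, gen_map (MulAut.conj x).surjective hg, not_gen _ u⟩ :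
      {x : Mk H × List (St 8 H) //
        (∀ s : ℤ, x.1.1 ^ s * lam x.1 = 1 ↔ m.1 ^ s * lam m = 1) ∧ (Good x.1 ↔ Good m) ∧
        IsSol k β x.1 x.2 ∧ Gen x.2 ∧ ¬ Gen (zip2 u x.2)})) 2 (fun _ _ => trivial) fun y _ => by
      refine le_trans (card_le_of fun ⟨x0, _, e0⟩ => ?_) hc
      · refine Nat.card_le_card_of_injective (fun x => ⟨x0⁻¹ * x.1, ?_⟩) fun x x' e =>
          Subtype.ext (mul_left_cancel (congrArg Subtype.val e))
        have e1 := List.map_inj_left.1 (congrArg (fun z => z.1.2) (x.2.2.trans e0.symm))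
        have e2 : span u ≤ Subgroup.centralizer {x0⁻¹ * x.1} := span_le.2 fun s hs => by
          have e3 : x.1 * s.col * x.1⁻¹ = x0 * s.col * x0⁻¹ := congrArg St.col (e1 s hs)
          rw [Subgroup.mem_centralizer_singleton_iff]
          calc s.col * (x0⁻¹ * x.1) = x0⁻¹ * (x0 * s.col * x0⁻¹) * x.1 := by group
            _ = _ := by rw [← e3]; group
        exact Subgroup.mem_center_iff.2 fun g =>
          Subgroup.mem_centralizer_singleton_iff.1 (e2 (hg ▸ Subgroup.mem_top g))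
  simpa using h3

theorem mem_of_comm (hp : commutator H = ⊤) (i : H →* G) {K : Subgroup G}
    (h : ∀ a a' : H, i ⁅a, a'⁆ ∈ K) (a : H) : i a ∈ K := by
  have h1 : commutator H ≤ K.comap i := by
    rw [commutator_def, Subgroup.commutator_le]
    exact fun a _ a' _ => h a a'
  exact h1 (hp ▸ Subgroup.mem_top a)

theorem comm_mem {K : Subgroup G} {a b : G} (ha : a ∈ K) (hb : b ∈ K) : ⁅a, b⁆ ∈ K :=
  K.mul_mem (K.mul_mem (K.mul_mem ha hb) (K.inv_mem ha)) (K.inv_mem hb)

theorem top3 (hp : commutator H = ⊤) {K : Subgroup ((H × H) × H)}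
    (h1 : ∀ a b, ∃ c, ((a, b), c) ∈ K) (h2 : ∀ a c, ∃ b, ((a, b), c) ∈ K)
    (h3 : ∀ b c, ∃ a, ((a, b), c) ∈ K) : K = ⊤ := by
  have a1 := mem_of_comm hp ((MonoidHom.inl _ H).comp (MonoidHom.inl H H)) (K := K) fun a a' => by
    obtain ⟨c, hc⟩ := h1 a 1
    obtain ⟨b, hb⟩ := h2 a' 1
    simpa [commutatorElement_def] using comm_mem hc hb
  have a2 := mem_of_comm hp ((MonoidHom.inl _ H).comp (MonoidHom.inr H H)) (K := K) fun a a' => by
    obtain ⟨c, hc⟩ := h1 1 a
    obtain ⟨b, hb⟩ := h3 a' 1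
    simpa [commutatorElement_def] using comm_mem hc hb
  have a3 := mem_of_comm hp (MonoidHom.inr (H × H) H) (K := K) fun a a' => by
    obtain ⟨c, hc⟩ := h2 1 a
    obtain ⟨b, hb⟩ := h3 1 a'
    simpa [commutatorElement_def, Prod.mk_one_one] using comm_mem hc hb
  refine eq_top_iff.2 fun x _ => ?_
  simpa using K.mul_mem (K.mul_mem (a1 x.1.1) (a2 x.1.2)) (a3 x.2)

theorem exists_of_gen {f : G →* H} {l : List (St 8 G)} (h : Gen (l.map (St.map f))) (a : H) :
    ∃ x ∈ span l, f x = a := by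
  unfold Gen at h
  rw [span_map] at h
  exact (show a ∈ (span l).map f from h ▸ Subgroup.mem_top a)

theorem gen3 (hp : commutator H = ⊤) {u v w : List (St 8 H)} (e1 : labs u = labs v)
    (e2 : labs u = labs w) (h1 : Gen (zip2 u v)) (h2 : Gen (zip2 u w)) (h3 : Gen (zip2 v w)) :
    Gen (zip2 (zip2 u v) w) := by
  have e3 := (labs_zip e1).trans e2
  have f1 := zip2_fst (len_of e3)
  have f2 := zip2_snd e3
  refine top3 hp (fun a b => ?_) (fun a c => ?_) fun b c => ?_
  · obtain ⟨⟨_, c⟩, hx, rfl⟩ := exists_of_gen (f1.symm ▸ h1) (a, b)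
    exact ⟨c, hx⟩
  · obtain ⟨⟨⟨_, b⟩, _⟩, hx, ⟨⟩⟩ := exists_of_gen (l := zip2 (zip2 u v) w)
      (f := ((MonoidHom.fst H H).comp (MonoidHom.fst _ H)).prod (MonoidHom.snd _ H))
      (by rwa [map_prod, map_comp, f1, f2, zip2_fst (len_of e1)]) (a, c)
    exact ⟨b, hx⟩
  · obtain ⟨⟨⟨a, _⟩, _⟩, hx, ⟨⟩⟩ := exists_of_gen (l := zip2 (zip2 u v) w)
      (f := ((MonoidHom.snd H H).comp (MonoidHom.fst _ H)).prod (MonoidHom.snd _ H))
      (by rwa [map_prod, map_comp, f1, f2, zip2_snd e1]) (b, c)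
    exact ⟨a, hx⟩

theorem gen_swap {u : List (St 8 H)} {v : List (St 8 H')} (e : labs u = labs v)
    (h : Gen (zip2 u v)) : Gen (zip2 v u) := by
  have h1 := gen_map (f := (MonoidHom.snd H H').prod (MonoidHom.fst H H'))
    (fun x => ⟨x.swap, rfl⟩) h
  rw [map_prod, zip2_fst (len_of e), zip2_snd e] at h1
  exact h1

theorem ngen_of {b : Fin 8 → H} {l : List (St 8 H)} (h : Based b l) (hg : Gen l) : NGen b := by
  refine eq_top_iff.2 (hg ▸ span_le.2 fun s hs => ?_)
  rw [h s hs]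
  exact Subgroup.normalClosure_normal.conj_mem' _
    (Subgroup.subset_normalClosure (Set.mem_range_self _)) _

theorem inT_zip {k : ℕ} {b : Fin 8 → H} {b' : Fin 8 → H'} {u : List (St 8 H)}
    {u' : List (St 8 H')} (h : InT k b u) (h' : InT k b' u') :
    InT k (fun c => (b c, b' c)) (zip2 u u') := by
  obtain ⟨f, rfl⟩ := h
  obtain ⟨f', rfl⟩ := h'
  exact ⟨fun s => (f s, f' s), zip2_row ..⟩

theorem inT_labs {k : ℕ} {b : Fin 8 → H} {u : List (St 8 H)} (h : InT k b u) :
    InX b (cs k) u := by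
  obtain ⟨f, rfl⟩ := h
  exact inX_row ..

theorem bs_pm (m : Mk H) (m' : Mk H') :
    bs (ym (pm m m')) = fun c => (bs (ym m) c, bs (ym m') c) := funext fun c =>
  Prod.ext (bs_map (MonoidHom.fst H H') (pm m m') c).symm
    (bs_map (MonoidHom.snd H H') (pm m m') c).symm

theorem em_pm (m : Mk H) (m' : Mk H') (n : ℕ) : em (pm m m') n = (em m n, em m' n) :=
  Prod.ext (em_map (MonoidHom.fst H H') (pm m m') n).symm
    (em_map (MonoidHom.snd H H') (pm m m') n).symm

theorem isSol_zip {k : ℕ} {m : Mk H} {m' : Mk H'} {u : List (St 8 H)} {u' : List (St 8 H')}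
    (h : InT k (bs (ym m)) u) (h' : InT k (bs (ym m')) u') (β : BraidGroup (8 * k)) :
    IsSol k β (pm m m') (zip2 u u') ↔ IsSol k β m u ∧ IsSol k β m' u' := by
  have e := (inT_labs h).2.trans (inT_labs h').2.symm
  constructor
  · intro h1
    have h2 := isSol_map (MonoidHom.fst H H') h1
    have h3 := isSol_map (MonoidHom.snd H H') h1
    rw [zip2_fst (len_of e)] at h2
    rw [zip2_snd e] at h3
    exact ⟨h2, h3⟩
  · rintro ⟨⟨-, f, a1, a2⟩, -, f', b1, b2⟩
    refine ⟨bs_pm m m' ▸ inT_zip h h', fun s => (f s, f' s), fun j => Prod.ext (a1 j) (b1 j), ?_⟩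
    rw [bact_zip2 β e, a2, b2, zip2_row, bs_pm]
    congr 1
    funext s
    split_ifs
    · exact (em_pm m m' _).symm
    · rfl

theorem ngen_prod (hp : commutator H = ⊤) (hp' : commutator H' = ⊤) {b : Fin 8 → H}
    {b' : Fin 8 → H'} (h : NGen b) (h' : NGen b') : NGen fun c => (b c, b' c) := by
  unfold NGen at h h' ⊢
  have n := Subgroup.normalClosure_normal (s := Set.range fun c => (b c, b' c))
  have e1 := Subgroup.map_normalClosure (Set.range fun c => (b c, b' c)) (MonoidHom.fst H H')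
    Prod.fst_surjective
  have e2 := Subgroup.map_normalClosure (Set.range fun c => (b c, b' c)) (MonoidHom.snd H H')
    Prod.snd_surjective
  rw [← Set.range_comp] at e1 e2
  replace e1 := e1.trans h
  replace e2 := e2.trans h'
  generalize Subgroup.normalClosure (Set.range fun c => (b c, b' c)) = K at n e1 e2
  have a1 := mem_of_comm hp (MonoidHom.inl H H') (K := K) fun a a' => by
    obtain ⟨x, hx, rfl⟩ : a ∈ K.map (MonoidHom.fst H H') := e1 ▸ Subgroup.mem_top a
    simpa [commutatorElement_def, Prod.mul_def, mul_assoc] using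
      K.mul_mem hx (n.conj_mem _ (K.inv_mem hx) (a', 1))
  have a2 := mem_of_comm hp' (MonoidHom.inr H H') (K := K) fun a a' => by
    obtain ⟨x, hx, rfl⟩ : a ∈ K.map (MonoidHom.snd H H') := e2 ▸ Subgroup.mem_top a
    simpa [commutatorElement_def, Prod.mul_def, mul_assoc] using
      K.mul_mem hx (n.conj_mem _ (K.inv_mem hx) (1, a'))
  refine eq_top_iff.2 fun x _ => ?_
  simpa using K.mul_mem (a1 x.1) (a2 x.2)

theorem pair_count [Finite H] (hp : commutator H = ⊤) (hB : RowB3) {η : ℝ} (hη : 0 < η) :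
    ∃ k0, ∀ k ≥ k0, ∀ b b' : Fin 8 → H, OddB b → OddB b' → NGen b → NGen b' →
      (Nat.card {x : List (St 8 H) × List (St 8 H) //
        InT k b x.1 ∧ InT k b' x.2 ∧ ¬ Gen (zip2 x.1 x.2)} : ℝ) ≤
          η * (Nat.card H : ℝ) ^ (8 * k) := by
  obtain ⟨h1, h2⟩ := hB (H × H)
  obtain ⟨k0, h2⟩ := h2 η hη
  refine ⟨k0 + 1, fun k hk b b' o o' n n' => ?_⟩
  obtain ⟨f1, -, f2⟩ := h1 k (by omega) (fun c => (b c, b' c)) 1
  have h3 := (h2 k (by omega) (fun c => (b c, b' c)) (fun c => Prod.ext (o c) (o' c))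
    (ngen_prod hp hp n n') 1).2
  rw [f2, Nat.card_prod, ← pow_two, ← pow_mul, ← mul_assoc, Nat.cast_pow] at h3
  refine le_trans (Nat.cast_le.2 ?_) h3
  have f3 : Finite {u // InT k (fun c => (b c, b' c)) u ∧ ¬ Gen u} :=
    Finite.of_injective (β := {l // InX (fun c => (b c, b' c)) (cs k) l})
      (Subtype.map id fun _ h => inT_labs h.1) (Subtype.map_injective _ Function.injective_id)
  refine Nat.card_le_card_of_injective
    (fun x => ⟨zip2 x.1.1 x.1.2, inT_zip x.2.1 x.2.2.1, x.2.2.2⟩) fun x y e => ?_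
  have e1 : zip2 x.1.1 x.1.2 = zip2 y.1.1 y.1.2 := congrArg Subtype.val e
  have e2 := (inT_labs x.2.1).2.trans (inT_labs x.2.2.1).2.symm
  have e3 := (inT_labs y.2.1).2.trans (inT_labs y.2.2.1).2.symm
  exact Subtype.ext (Prod.ext (by rw [← zip2_fst (len_of e2), e1, zip2_fst (len_of e3)])
    (by rw [← zip2_snd e2, e1, zip2_snd e3]))

end F5

open F5 in
theorem rowF5 : RowF5 :=
  ⟨fun _ _ _ _ _ _ hc _ _ h hg => conj_count hc h hg,
    fun _ _ hp _ _ _ e1 e2 => gen3 hp e1 e2, fun _ _ _ _ => gen_swap, fun _ _ _ _ => ngen_of,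
    fun _ _ _ _ _ m m' _ _ h h' => ⟨bs_pm m m' ▸ inT_zip h h', isSol_zip h h'⟩,
    fun _ _ _ hp hB _ hη => pair_count hp hB hη⟩

end Vale.Agent.Q258D
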