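import Vale.Agent.Q258D.Main
import Vale.Agent.Q258D.E2

/-!
# The topological theorem
-/

set_option linter.all false

namespace Vale.Agent.Q258D

open Vale.Agent.P258.Braid Vale.Agent.N258B Topology

theorem cosets_true {N : ℕ} (S D : Subgroup (BraidGroup N)) (w0 : Word) :
    cosets S D w0 (fun _ => True) = Nat.card (Om S D (toBraid N w0)) := by
  refine Nat.card_congr (Equiv.subtypeEquivRight fun q => ⟨?_, ?_⟩)
  · rintro ⟨w, hw, -, rfl⟩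
    exact ⟨_, hw.2, by rw [mul_inv_cancel_left]⟩
  · rintro ⟨γ, hγ, rfl⟩
    obtain ⟨w, h1, h2⟩ := exists_word (toBraid N w0 * γ)
    exact ⟨w, ⟨h1, by rwa [h2, inv_mul_cancel_left]⟩, trivial, by rw [h2]⟩

theorem final (h1 : RowE1) (M j : ℕ) (hM : 0 < M) (ε : ℝ) (hε : 0 < ε) :
    ∃ k0, ∀ k ≥ k0, ∃ S : Subgroup (BraidGroup (8 * k)), S.Normal ∧ S.FiniteIndex ∧
      (∃ e ν, Framed (8 * k) 0 (surf k []) e ν ∧ GenusTwoAlexOne ν) ∧
      ∀ w0 : Word, InCoset (Tw (8 * k) 1) [] w0 →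
        ∀ e0 ν0, Framed (8 * k) 0 (surf k w0) e0 ν0 → GenusTwoAlexOne ν0 →
          (∀ w : Word, InCoset (Der (8 * k) M (j + 1)) w0 w →
            ∀ e, (IsOpenEmbedding e → ∃ ν, Framed (8 * k) 0 (surf k w) e ν) ∧
              ∀ ν, Framed (8 * k) 0 (surf k w) e ν → GenusTwoAlexOne ν) ∧
          (cosets S (Der (8 * k) M (j + 1)) w0 fun w => ∃ e ν,
            Framed (8 * k) 0 (surf k w) e ν ∧ ¬ Distinct (Surgery ν 2) (Surgery ν (-2)) : ℝ) ≤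
            ε * cosets S (Der (8 * k) M (j + 1)) w0 fun _ => True := by
  have h3 := rowE3 h1
  have h2 := rowE2 h1 h3
  obtain ⟨k0, hH⟩ := rowH' M j hM ε hε
  refine ⟨k0 + 1, fun k hk => ?_⟩
  have hk0 : 0 < k := by omega
  obtain ⟨S, s1, s2, hS⟩ := hH k (by omega)
  refine ⟨S, s1, s2, ?_, fun w0 hw0 e0 ν0 f0 g0 => ?_⟩
  · obtain ⟨c, hc⟩ := exists_chart
    have he := hc.comp (isOpen_pattern (8 * k) 0 (surf k [])).isOpenEmbedding_subtypeVal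
    have h := h2 k hk0 [] (by simp) (one_mem _) (c ∘ Subtype.val)
    obtain ⟨ν, hν⟩ := h.1 he
    exact ⟨_, ν, hν, (h.2 ν hν).1.2 (h3 k hk0).2⟩
  have p0 : toBraid (8 * k) w0 ∈ Tw (8 * k) 1 := by
    have := hw0.2
    rwa [show toBraid (8 * k) [] = 1 from rfl, inv_one, one_mul] at this
  have a0 := ((h2 k hk0 w0 hw0.1 p0 e0).2 ν0 f0).1.1 g0
  have pw : ∀ w, InCoset (Der (8 * k) M (j + 1)) w0 w → toBraid (8 * k) w ∈ Tw (8 * k) 1 :=
    fun w hw => by simpa using mul_mem p0 (der_le _ _ _ hw.2)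
  refine ⟨fun w hw e => ⟨(h2 k hk0 w hw.1 (pw w hw) e).1, fun ν hν =>
    ((h2 k hk0 w hw.1 (pw w hw) e).2 ν hν).1.2 ?_⟩, ?_⟩
  · simpa using rowF1.2.2.2.1 k _ _ (der_succ_le _ _ _ hw.2) a0
  · rw [cosets_true]
    refine le_trans (Nat.cast_le.2 (RG.card_mono ?_)) (hS _ p0 a0)
    rintro q ⟨w, hw, ⟨e, ν, hν, hd⟩, rfl⟩
    refine ⟨_, hw.2, fun G _ _ => ?_, by rw [mul_inv_cancel_left]⟩
    rw [mul_inv_cancel_left]
    exact by_contra fun h => hd (((h2 k hk0 w hw.1 (pw w hw) e).2 ν hν).2 G h)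

end Vale.Agent.Q258D
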