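import Vale.Agent.Q258D.Rows

/-!
# One prime
-/

set_option linter.all false

namespace Vale.Agent.Q258D

open Vale.Agent.P258.Braid

namespace RG

/-! ### Counting -/

theorem card_pair {A B : Type} [Finite A] (P : A → Prop) (Q : A → B → Prop)
    (hf : ∀ a, Finite {b // Q a b}) [Fintype {a // P a}] :
    Nat.card {x : A × B // P x.1 ∧ Q x.1 x.2} = ∑ a : {a // P a}, Nat.card {b // Q a.1 b} := by
  rw [← Nat.card_sigma]
  exact Nat.card_congr
    { toFun := fun x => ⟨⟨x.1.1, x.2.1⟩, ⟨x.1.2, x.2.2⟩⟩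
      invFun := fun y => ⟨(y.1.1, y.2.1), y.1.2, y.2.2⟩
      left_inv := fun _ => rfl
      right_inv := fun _ => rfl }

theorem fin_pair {A B : Type} [Finite A] (P : A → Prop) (Q : A → B → Prop)
    (hf : ∀ a, Finite {b // Q a b}) : Finite {x : A × B // P x.1 ∧ Q x.1 x.2} :=
  Finite.of_surjective (fun y : Σ a : {a // P a}, {b // Q a.1 b} =>
    (⟨(y.1.1, y.2.1), y.1.2, y.2.2⟩ : {x : A × B // P x.1 ∧ Q x.1 x.2}))
    fun x => ⟨⟨⟨x.1.1, x.2.1⟩, ⟨x.1.2, x.2.2⟩⟩, rfl⟩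

theorem pair_le {A B : Type} [Finite A] (P : A → Prop) (Q : A → B → Prop)
    (hf : ∀ a, Finite {b // Q a b}) (n : ℝ) (h : ∀ a, P a → (Nat.card {b // Q a b} : ℝ) ≤ n) :
    (Nat.card {x : A × B // P x.1 ∧ Q x.1 x.2} : ℝ) ≤ Nat.card {a // P a} * n := by
  haveI := Fintype.ofFinite {a // P a}
  rw [card_pair P Q hf, Nat.cast_sum, Nat.card_eq_fintype_card (α := {a // P a})]
  calc _ ≤ ∑ _a : {a // P a}, n := Finset.sum_le_sum fun a _ => h a.1 a.2
    _ = _ := by simp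

theorem le_pair {A B : Type} [Finite A] (P : A → Prop) (Q : A → B → Prop)
    (hf : ∀ a, Finite {b // Q a b}) (n : ℝ) (h : ∀ a, P a → n ≤ (Nat.card {b // Q a b} : ℝ)) :
    Nat.card {a // P a} * n ≤ (Nat.card {x : A × B // P x.1 ∧ Q x.1 x.2} : ℝ) := by
  haveI := Fintype.ofFinite {a // P a}
  rw [card_pair P Q hf, Nat.cast_sum, Nat.card_eq_fintype_card (α := {a // P a})]
  calc _ = ∑ _a : {a // P a}, n := by simp
    _ ≤ _ := Finset.sum_le_sum fun a _ => h a.1 a.2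

theorem card_mono {A : Type} {P Q : A → Prop} [Finite {a // Q a}] (h : ∀ a, P a → Q a) :
    Nat.card {a // P a} ≤ Nat.card {a // Q a} :=
  Nat.card_le_card_of_injective (fun x => (⟨x.1, h _ x.2⟩ : {a // Q a}))
    fun _ _ e => Subtype.ext (Subtype.mk.inj e)

theorem fin_mono {A : Type} {P Q : A → Prop} (hf : Finite {a // Q a}) (h : ∀ a, P a → Q a) :
    Finite {a // P a} :=
  Finite.of_injective (fun x => (⟨x.1, h _ x.2⟩ : {a // Q a}))
    fun _ _ e => Subtype.ext (Subtype.mk.inj e)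

theorem card_split {A : Type} (P Q : A → Prop) [Finite {a // P a}] :
    Nat.card {a // P a} = Nat.card {a // P a ∧ Q a} + Nat.card {a // P a ∧ ¬ Q a} := by
  classical
  haveI : Finite {a // P a ∧ Q a} := fin_mono ‹_› fun _ h => h.1
  haveI : Finite {a // P a ∧ ¬ Q a} := fin_mono ‹_› fun _ h => h.1
  rw [← Nat.card_sum]
  refine Nat.card_congr ((Equiv.sumCompl fun x : {a // P a} => Q x.1).symm.trans
    (Equiv.sumCongr (Equiv.subtypeSubtypeEquivSubtypeInter P Q)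
      (Equiv.subtypeSubtypeEquivSubtypeInter P fun a => ¬ Q a)))

theorem card_or {A : Type} [Finite A] (P Q : A → Prop) :
    Nat.card {a // P a ∨ Q a} ≤ Nat.card {a // P a} + Nat.card {a // Q a} := by
  rw [card_split (fun a => P a ∨ Q a) P]
  exact Nat.add_le_add (card_mono fun _ h => h.2) (card_mono fun _ h => h.1.resolve_left h.2)

/-- Markov -/
theorem markov {Ω W : Type} [Finite Ω] [Finite W] (I : W → Ω → Prop) (B : Ω → Prop) (a n : ℝ)
    (h1 : ∀ ω, B ω → a ≤ Nat.card {w // I w ω}) (h2 : ∀ w, (Nat.card {ω // I w ω} : ℝ) ≤ n) :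
    Nat.card {ω // B ω} * a ≤ Nat.card W * n := by
  have e1 := le_pair B (fun ω w => I w ω) (fun _ => inferInstance) a h1
  have e2 := pair_le (fun _ : W => True) I (fun _ => inferInstance) n fun w _ => h2 w
  have e3 : Nat.card {x : Ω × W // B x.1 ∧ I x.2 x.1} ≤
      Nat.card {x : W × Ω // True ∧ I x.1 x.2} :=
    Nat.card_le_card_of_injective (fun x => ⟨(x.1.2, x.1.1), trivial, x.2.2⟩)
      fun x y e => Subtype.ext (Prod.ext (congrArg (fun z => z.1.2) e) (congrArg (fun z => z.1.1) e))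
  have e4 : Nat.card {_a : W // True} = Nat.card W := Nat.card_congr (Equiv.subtypeUnivEquiv fun _ => trivial)
  rw [e4] at e2
  exact e1.trans ((Nat.cast_le.2 e3).trans e2)

/-! ### Braids -/

variable {H H' : Type} [Group H] [Group H'] {N k : ℕ}

theorem ker_prod {S : Subgroup (BraidGroup N)} (h : S ≤ (bact H N).ker)
    (h' : S ≤ (bact H' N).ker) : S ≤ (bact (H × H') N).ker := fun g hg => by
  rw [MonoidHom.mem_ker]
  ext1 l
  have e := MonoidHom.mem_ker.1 (h hg)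
  have e' := MonoidHom.mem_ker.1 (h' hg)
  conv_lhs => rw [← zip2_eta l, bact_zip2 g (by simp [labs, St.map, Function.comp_def]), e, e']
  exact zip2_eta l

theorem isSol_congr {β β' : BraidGroup (8 * k)} {u : List (St 8 H)}
    (h : bact H (8 * k) β u = bact H (8 * k) β' u) (m : Mk H) :
    IsSol k β m u ↔ IsSol k β' m u := by
  unfold IsSol; rw [h]

theorem om_rep {S Γ : Subgroup (BraidGroup N)} {β : BraidGroup N} (h : S ≤ (bact H N).ker)
    (ω : Om S Γ β) : ∃ γ ∈ Γ, bact H N ω.1.out = bact H N (β * γ) := by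
  obtain ⟨q, γ, hγ, rfl⟩ := ω
  refine ⟨γ, hγ, ?_⟩
  obtain ⟨s, hs⟩ := QuotientGroup.mk_out_eq_mul S (β * γ)
  change bact H N (QuotientGroup.mk (β * γ) : _ ⧸ S).out = _
  rw [hs, map_mul, MonoidHom.mem_ker.1 (h s.2), mul_one]

theorem der_le_tw (N M : ℕ) : ∀ j, Der N M j ≤ Tw N M
  | 0 => le_rfl
  | j + 1 => (Subgroup.commutator_le_left _ _).trans (der_le_tw N M j)

theorem comm_of {m : Mk H} {s : ℤ} (h : m.1 ^ s * lam m = 1) : Commute m.1 (lam m) := by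
  rw [← inv_eq_of_mul_eq_one_right h]
  exact (Commute.self_zpow _ _).inv_right

theorem InT.inX {b : Fin 8 → H} {u : List (St 8 H)} (h : InT k b u) : InX b (cs k) u := by
  obtain ⟨f, rfl⟩ := h
  exact inX_row _ _ _

theorem lam_pm (m : Mk H) (m' : Mk H') : lam (pm m m') = (lam m, lam m') := rfl

theorem comm_pm {m : Mk H} {m' : Mk H'} (h : Commute m.1 (lam m)) (h' : Commute m'.1 (lam m')) :
    Commute (pm m m').1 (lam (pm m m')) := Prod.ext h.eq h'.eq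

/-- the equation -/
def Eqn (m : Mk H) : Prop := m.1 ^ (2 : ℤ) * lam m = 1 ∨ m.1 ^ (-2 : ℤ) * lam m = 1

theorem Eqn.comm {m : Mk H} (h : Eqn m) : Commute m.1 (lam m) := h.elim comm_of comm_of

theorem not_both {m : Mk H} (hg : Good m) (h : m.1 ^ (2 : ℤ) * lam m = 1)
    (h' : m.1 ^ (-2 : ℤ) * lam m = 1) : False := by
  refine hg.1 ?_
  have e : m.1 ^ (2 : ℤ) = m.1 ^ (-2 : ℤ) := mul_right_cancel (h.trans h'.symm)
  have : m.1 ^ 4 = 1 := by
    calc m.1 ^ 4 = m.1 ^ (2 : ℤ) * m.1 ^ (2 : ℤ) := by group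
      _ = m.1 ^ (2 : ℤ) * m.1 ^ (-2 : ℤ) := by rw [← e]
      _ = 1 := by group
  rw [this]
  exact one_mem _

/-- generating rows at the top -/
def TG (k : ℕ) (m : Mk H) (u : List (St 8 H)) : Prop := InT k (bs (ym m)) u ∧ Gen u

/-- the probability of a colouring is close to its mean -/
def Prob (H : Type) [Group H] (k : ℕ) (S Γ : Subgroup (BraidGroup (8 * k)))
    (β : BraidGroup (8 * k)) (η : ℝ) : Prop :=
  ∀ (m : Mk H) (u : List (St 8 H)), Commute m.1 (lam m) → InT k (bs (ym m)) u → Gen u →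
    (1 - η) * Nat.card (Om S Γ β) ≤
      (Nat.card H : ℝ) ^ (4 * k + 3) * Nat.card {ω : Om S Γ β // IsSol k ω.1.out m u} ∧
    (Nat.card H : ℝ) ^ (4 * k + 3) * Nat.card {ω : Om S Γ β // IsSol k ω.1.out m u} ≤
      (1 + η) * Nat.card (Om S Γ β)

/-- the index set of the sieve -/
def VV (H : Type) [Group H] (k : ℕ) (P : Mk H → Prop) : Type :=
  {x : Mk H × List (St 8 H) // (P x.1 ∧ Eqn x.1) ∧ TG k x.1 x.2}

theorem finT [Finite H] (hB : RowB3) (hk : 0 < k) (b : Fin 8 → H) : Finite {u // InT k b u} :=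
  fin_mono ((hB H).1 k hk b fun _ => 1).1 fun _ => InT.inX

theorem finTG [Finite H] (hB : RowB3) (hk : 0 < k) (m : Mk H) : Finite {u // TG k m u} :=
  fin_mono (finT hB hk _) fun _ h => h.1

theorem finVV [Finite H] (hB : RowB3) (hk : 0 < k) (P : Mk H → Prop) : Finite (VV H k P) :=
  fin_pair (fun m => P m ∧ Eqn m) (TG k) (finTG hB hk)

theorem finSol [Finite H] (hB : RowB3) (hk : 0 < k) (β : BraidGroup (8 * k)) :
    Finite {x : Mk H × List (St 8 H) // IsSol k β x.1 x.2} :=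
  fin_mono (fin_pair (fun _ => True) (fun m u => InT k (bs (ym m)) u) fun _ => finT hB hk _)
    fun _ h => ⟨trivial, h.1⟩

theorem card_VV_le [Finite H] (hB : RowB3) (hk : 0 < k) (P : Mk H → Prop) :
    (Nat.card (VV H k P) : ℝ) ≤ Nat.card {m // P m ∧ Eqn m} * (Nat.card H : ℝ) ^ (4 * k) :=
  pair_le (fun m => P m ∧ Eqn m) (TG k) (finTG hB hk) _ fun m _ => by
    haveI := finT hB hk (bs (ym m))
    have := card_mono (P := TG k m) (Q := InT k (bs (ym m))) fun _ h => h.1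
    rw [((hB H).1 k hk _ fun _ => 1).2.2] at this
    exact_mod_cast this

instance {S Γ : Subgroup (BraidGroup N)} [S.FiniteIndex] {β : BraidGroup N} :
    Finite (Om S Γ β) := by
  unfold Om; infer_instance

/-- the conjugates of a colouring in the index set -/
theorem orbit_ge [Finite H] [Nontrivial H] (hB : RowB3) (hF : RowF5) (hk : 0 < k)
    (hZ : Nat.card (Subgroup.center H) ≤ 2) (P : Mk H → Prop)
    (hP : ∀ m m', (Good m' ↔ Good m) → P m → P m') (β : BraidGroup (8 * k)) (v : VV H k P)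
    (hv : IsSol k β v.1.1 v.1.2) :
    Nat.card H ≤ 2 * Nat.card {v' : VV H k P //
      ¬ Gen (zip2 v.1.2 v'.1.2) ∧ IsSol k β v'.1.1 v'.1.2} := by
  haveI := finVV hB hk P
  refine (hF.1 H k β hZ _ _ hv v.2.2.2).trans (Nat.mul_le_mul_left _ ?_)
  refine Nat.card_le_card_of_injective (fun x => ⟨⟨x.1, ⟨hP _ _ x.2.2.1 v.2.1.1,
    v.2.1.2.imp (x.2.1 _).2 (x.2.1 _).2⟩, x.2.2.2.1.1, x.2.2.2.2.1⟩, x.2.2.2.2.2, x.2.2.2.1⟩)
    fun _ _ e => Subtype.ext (congrArg (fun z => z.1.1) e)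

/-- the decomposition of the number of colourings -/
theorem ns_eq [Finite H] (hB : RowB3) (hk : 0 < k) {β β' : BraidGroup (8 * k)}
    (hr : ∀ (m : Mk H) u, Commute m.1 (lam m) → ¬ Gen u → (IsSol k β' m u ↔ IsSol k β m u))
    (hb : ∀ w : VV H k fun m => ¬ Good m, ¬ IsSol k β' w.1.1 w.1.2) (s : ℤ) (hs : s = 2 ∨ s = -2)
    (σ : VV H k Good → Prop) (hσ : ∀ v, σ v ↔ v.1.1.1 ^ s * lam v.1.1 = 1) :
    NS k H β' s = Nat.card {v : VV H k Good // σ v ∧ IsSol k β' v.1.1 v.1.2} +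
      Nat.card {x : Mk H × List (St 8 H) //
        (x.1.1 ^ s * lam x.1 = 1 ∧ IsSol k β x.1 x.2) ∧ ¬ Gen x.2} := by
  haveI : Finite {x : Mk H × List (St 8 H) // x.1.1 ^ s * lam x.1 = 1 ∧ IsSol k β' x.1 x.2} :=
    fin_mono (finSol hB hk β') fun _ h => h.2
  have he : ∀ m : Mk H, m.1 ^ s * lam m = 1 → Eqn m := fun m h => by
    rcases hs with rfl | rfl
    · exact Or.inl h
    · exact Or.inr h
  rw [NS, card_split _ fun x => Gen x.2]
  congr 1
  · refine Nat.card_congr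
      { toFun := fun x => ⟨⟨x.1, ⟨by_contra fun hg =>
            hb ⟨x.1, ⟨hg, he _ x.2.1.1⟩, x.2.1.2.1, x.2.2⟩ x.2.1.2, he _ x.2.1.1⟩,
            x.2.1.2.1, x.2.2⟩, (hσ _).2 x.2.1.1, x.2.1.2⟩
        invFun := fun v => ⟨v.1.1, ⟨(hσ _).1 v.2.1, v.2.2⟩, v.1.2.2.2⟩
        left_inv := fun _ => rfl
        right_inv := fun _ => rfl }
  · exact Nat.card_congr (Equiv.subtypeEquivRight fun x =>
      ⟨fun h => ⟨⟨h.1.1, (hr _ _ (comm_of h.1.1) h.2).1 h.1.2⟩, h.2⟩,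
        fun h => ⟨⟨h.1.1, (hr _ _ (comm_of h.1.1) h.2).2 h.1.2⟩, h.2⟩⟩)

theorem labs_T {b b' : Fin 8 → H} {u u' : List (St 8 H)} (h : InT k b u) (h' : InT k b' u') :
    labs u = labs u' := (InT.inX h).2.trans (InT.inX h').2.symm

theorem prob_two (hF : RowF5) {S Γ : Subgroup (BraidGroup (8 * k))} {β : BraidGroup (8 * k)}
    {η : ℝ} (g : Prob (H × H) k S Γ β η) (v v' : VV H k Good) (h : Gen (zip2 v.1.2 v'.1.2)) :
    (1 - η) * Nat.card (Om S Γ β) ≤ ((Nat.card H : ℝ) ^ (4 * k + 3)) ^ 2 *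
      Nat.card {ω : Om S Γ β // IsSol k ω.1.out v.1.1 v.1.2 ∧ IsSol k ω.1.out v'.1.1 v'.1.2} ∧
    ((Nat.card H : ℝ) ^ (4 * k + 3)) ^ 2 *
      Nat.card {ω : Om S Γ β // IsSol k ω.1.out v.1.1 v.1.2 ∧ IsSol k ω.1.out v'.1.1 v'.1.2} ≤
        (1 + η) * Nat.card (Om S Γ β) := by
  have h5 := hF.2.2.2.2.1 H H k _ _ _ _ v.2.2.1 v'.2.2.1
  have := g _ _ (comm_pm v.2.1.2.comm v'.2.1.2.comm) h5.1 h
  simp only [h5.2, Nat.card_prod, Nat.cast_mul, mul_pow] at this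
  simpa only [pow_two] using this

theorem prob_three (hF : RowF5) (hp : commutator H = ⊤)
    {S Γ : Subgroup (BraidGroup (8 * k))} {β : BraidGroup (8 * k)}
    {η : ℝ} (g : Prob ((H × H) × H) k S Γ β η) (v v' v'' : VV H k Good)
    (h : Gen (zip2 v.1.2 v'.1.2)) (h' : Gen (zip2 v.1.2 v''.1.2))
    (h'' : Gen (zip2 v'.1.2 v''.1.2)) :
    ((Nat.card H : ℝ) ^ (4 * k + 3)) ^ 3 *
      Nat.card {ω : Om S Γ β // (IsSol k ω.1.out v.1.1 v.1.2 ∧ IsSol k ω.1.out v'.1.1 v'.1.2) ∧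
        IsSol k ω.1.out v''.1.1 v''.1.2} ≤ (1 + η) * Nat.card (Om S Γ β) := by
  have h5 := hF.2.2.2.2.1 H H k _ _ _ _ v.2.2.1 v'.2.2.1
  have h6 := hF.2.2.2.2.1 (H × H) H k _ _ _ _ h5.1 v''.2.2.1
  have := (g _ _ (comm_pm (comm_pm v.2.1.2.comm v'.2.1.2.comm) v''.2.1.2.comm) h6.1
    (hF.2.1 H hp _ _ _ (labs_T v.2.2.1 v'.2.2.1) (labs_T v.2.2.1 v''.2.2.1) h h' h'')).2
  simp only [h6.2, h5.2, Nat.card_prod, Nat.cast_mul, mul_pow] at this
  simpa only [pow_succ, pow_zero, one_mul] using this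

theorem partners_le [Finite H] (hB : RowB3) (hF3 : RowF3) (hk : 0 < k)
    (hZ : Nat.card (Subgroup.center H) ≤ 2) {F : Finset (Subgroup (H × H))} (hF : Fam F)
    {β : BraidGroup (8 * k)} (hβ : β ∈ Tw (8 * k) 1) (v : VV H k Good)
    (hv : IsSol k β v.1.1 v.1.2) :
    Nat.card {v' : VV H k Good // ¬ Gen (zip2 v.1.2 v'.1.2) ∧ IsSol k β v'.1.1 v'.1.2} ≤
      2 * F.card := by
  haveI : Finite {x : Mk H × List (St 8 H) //
      IsSol k β x.1 x.2 ∧ Gen x.2 ∧ ¬ Gen (zip2 v.1.2 x.2)} :=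
    fin_mono (finSol hB hk β) fun _ h => h.1
  refine le_trans ?_ (hF3 H k hk hZ F hF β hβ _ _ v.2.1.1 hv v.2.2.2).1
  exact Nat.card_le_card_of_injective (fun x => ⟨x.1.1, x.2.2, x.1.2.2.2, x.2.1⟩)
    fun _ _ e => Subtype.ext (Subtype.ext (Subtype.mk.inj e))

theorem same_sign [Finite H] (hF3 : RowF3) (hF5 : RowF5) (hk : 0 < k)
    (hZ : Nat.card (Subgroup.center H) ≤ 2) {F : Finset (Subgroup (H × H))} (hF : Fam F)
    {β : BraidGroup (8 * k)} (hβ : β ∈ Tw (8 * k) 1) (v v' : VV H k Good)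
    (hv : IsSol k β v.1.1 v.1.2) (hv' : IsSol k β v'.1.1 v'.1.2)
    (h : ¬ Gen (zip2 v.1.2 v'.1.2)) :
    v.1.1.1 ^ (2 : ℤ) * lam v.1.1 = 1 ↔ v'.1.1.1 ^ (2 : ℤ) * lam v'.1.1 = 1 :=
  ⟨fun e => v'.2.1.2.resolve_right
      ((hF3 H k hk hZ F hF β hβ _ _ v.2.1.1 hv v.2.2.2).2 e _ _ hv' v'.2.2.2 h),
    fun e => v.2.1.2.resolve_right
      ((hF3 H k hk hZ F hF β hβ _ _ v'.2.1.1 hv' v'.2.2.2).2 e _ _ hv v.2.2.2
        fun g => h (hF5.2.2.1 H _ _ (labs_T v'.2.2.1 v.2.2.1) g))⟩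

/-- pairs that do not generate the square -/
theorem rel_le [Finite H] (hB : RowB3) (hk : 0 < k) (n : ℝ)
    (h : ∀ m m' : Mk H, Good m → Good m' → (Nat.card {x : List (St 8 H) × List (St 8 H) //
      InT k (bs (ym m)) x.1 ∧ InT k (bs (ym m')) x.2 ∧ ¬ Gen (zip2 x.1 x.2)} : ℝ) ≤ n) :
    (Nat.card {x : VV H k Good × VV H k Good // ¬ Gen (zip2 x.1.1.2 x.2.1.2)} : ℝ) ≤
      (Nat.card {m : Mk H // Good m ∧ Eqn m} : ℝ) ^ 2 * n := by
  have hf : ∀ a : Mk H × Mk H, Finite {x : List (St 8 H) × List (St 8 H) //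
      InT k (bs (ym a.1)) x.1 ∧ InT k (bs (ym a.2)) x.2 ∧ ¬ Gen (zip2 x.1 x.2)} := fun a => by
    haveI := finT hB hk (bs (ym a.1))
    haveI := finT hB hk (bs (ym a.2))
    exact Finite.of_injective (fun x => ((⟨x.1.1, x.2.1⟩, ⟨x.1.2, x.2.2.1⟩) :
      {u // InT k (bs (ym a.1)) u} × {u // InT k (bs (ym a.2)) u}))
      fun _ _ e => Subtype.ext (Prod.ext (congrArg (fun z => z.1.1) e) (congrArg (fun z => z.2.1) e))
  have h1 := pair_le (fun a : Mk H × Mk H => (Good a.1 ∧ Eqn a.1) ∧ Good a.2 ∧ Eqn a.2)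
    (fun a (x : List (St 8 H) × List (St 8 H)) =>
      InT k (bs (ym a.1)) x.1 ∧ InT k (bs (ym a.2)) x.2 ∧ ¬ Gen (zip2 x.1 x.2)) hf n
    fun a ha => h _ _ ha.1.1 ha.2.1
  haveI := fin_pair (fun a : Mk H × Mk H => (Good a.1 ∧ Eqn a.1) ∧ Good a.2 ∧ Eqn a.2)
    (fun a (x : List (St 8 H) × List (St 8 H)) =>
      InT k (bs (ym a.1)) x.1 ∧ InT k (bs (ym a.2)) x.2 ∧ ¬ Gen (zip2 x.1 x.2)) hf
  rw [Nat.card_congr (Equiv.subtypeProdEquivProd (p := fun m : Mk H => Good m ∧ Eqn m)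
    (q := fun m : Mk H => Good m ∧ Eqn m)), Nat.card_prod, Nat.cast_mul, ← pow_two] at h1
  refine le_trans (Nat.cast_le.2 (Nat.card_le_card_of_injective
    (fun x => ⟨((x.1.1.1.1, x.1.2.1.1), (x.1.1.1.2, x.1.2.1.2)),
      ⟨x.1.1.2.1, x.1.2.2.1⟩, x.1.1.2.2.1, x.1.2.2.2.1, x.2⟩) fun _ _ e => ?_)) h1
  have e := Subtype.mk.inj e
  simp only [Prod.mk.injEq] at e
  exact Subtype.ext (Prod.ext (Subtype.ext (Prod.ext e.1.1 e.2.1))
    (Subtype.ext (Prod.ext e.1.2 e.2.2)))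

/-- colourings that do not generate are rigid -/
theorem rigid (h1 : RowD1) (hF1 : RowF1) (hF4 : RowF4) {p : ℕ} [Fact p.Prime] (hp : 5 ≤ p)
    (hk : 0 < k) {M j : ℕ} (hM : p ^ 2 - 1 ∣ M) {β γ : BraidGroup (8 * k)}
    (hβ : β ∈ Tw (8 * k) 1) (hA : AM k β) (hγ : γ ∈ Der (8 * k) M (j + 1)) (m : Mk (SLp p))
    (u : List (St 8 (SLp p))) (hc : Commute m.1 (lam m)) (hu : ¬ Gen u) :
    IsSol k (β * γ) m u ↔ IsSol k β m u := by
  have key : ¬ p ∣ Nat.card (span u) → (IsSol k (β * γ) m u ↔ IsSol k β m u) := fun h => by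
    refine isSol_congr ?_ m
    rw [map_mul, Equiv.Perm.mul_apply, hF1.2.2.2.2 _ _ M u ?_ γ (der_le_tw _ _ _ hγ)]
    intro a ha
    have e1 : orderOf a ∣ Nat.card (span u) := Subgroup.orderOf_dvd_natCard _ ha
    have e2 : orderOf a ∣ p * (p ^ 2 - 1) := (h1 p hp).1 ▸ orderOf_dvd_natCard a
    have e3 : (orderOf a).Coprime p :=
      ((Nat.Prime.coprime_iff_not_dvd Fact.out).2 fun d => h (d.trans e1)).symm
    exact orderOf_dvd_iff_pow_eq_one.1 ((e3.dvd_of_dvd_mul_left e2).trans hM)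
  refine ⟨fun h => (key fun d => hu ?_).1 h, fun h => (key fun d => hu ?_).2 h⟩
  · exact hF4 p hp k hk _ (mul_mem hβ (der_le _ _ _ hγ))
      (hF1.2.2.2.1 k β γ (der_succ_le _ _ _ hγ) hA) m u hc h d
  · exact hF4 p hp k hk _ hβ hA m u hc h d

theorem card_eqn {p : ℕ} [Fact p.Prime] (P : Mk (SLp p) → Prop) :
    Nat.card {m // P m ∧ Eqn m} ≤ Nat.card {m // m.1 ^ (2 : ℤ) * lam m = 1 ∧ P m} +
      Nat.card {m // m.1 ^ (-2 : ℤ) * lam m = 1 ∧ P m} :=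
  (card_mono fun _ h => h.2.imp (fun e => ⟨e, h.1⟩) fun e => ⟨e, h.1⟩).trans (card_or _ _)

theorem prob_of (hC : RowC) (hG : RowG1) {H : Type} [Group H] (h : SP H) {M : ℕ} (hM : Mov H M)
    (j : ℕ) {η : ℝ} (hη : 0 < η) : ∃ k0, ∀ k ≥ k0, ∀ (S : Subgroup (BraidGroup (8 * k)))
      [S.Normal] [S.FiniteIndex], S ≤ (bact H (8 * k)).ker → ∀ β ∈ Tw (8 * k) 1,
        Prob H k S (Der (8 * k) M j) β η := by
  haveI := h.fin
  obtain ⟨k1, h1⟩ := hC.2.2 M j H h hM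
  obtain ⟨k2, h2⟩ := hG H h.perf η hη
  exact ⟨max k1 k2, fun k hk S _ _ hS β hβ => h2 k (le_of_max_le_right hk) S _ hS
    (der_le _ _ _) (h1 k (le_of_max_le_left hk)) β hβ⟩

end RG

open RG in
theorem rowG (hB : RowB3) (hC : RowC) (h1 : RowD1) (h2 : RowD2) (h4 : RowD4) (h5 : RowD5)
    (h6 : RowD6) (hF1 : RowF1) (hF3 : RowF3) (hF4 : RowF4) (hF5 : RowF5) (hG : RowG1)
    (hP : RowP) : RowG := by
  obtain ⟨C4, h4c⟩ := h4.2
  obtain ⟨C5, h5⟩ := h5
  obtain ⟨C6, p6, h6⟩ := h6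
  obtain ⟨δ, η, hδ, hδ1, hη, hη1, hP⟩ := hP (1 + 2 * C4 + 2 * C5 + 2 * C6) (by
    have : (0 : ℝ) ≤ 2 * C4 + 2 * C5 + 2 * C6 := by positivity
    linarith)
  obtain ⟨p7, hp7⟩ := exists_nat_ge (16 * C5 / δ)
  refine ⟨δ / 2, max 5 (max p6 p7), by positivity, by linarith, ?_⟩
  intro p _ hp0 hp4 M j hM hM'
  have hp : 5 ≤ p := le_of_max_le_left hp0
  obtain ⟨hng, hlo⟩ := h6 p (le_of_max_le_left (le_of_max_le_right hp0))
  have hp7' : (16 * C5 : ℝ) ≤ p * δ := (div_le_iff₀ hδ).1 (hp7.trans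
    (Nat.cast_le.2 (le_of_max_le_right (le_of_max_le_right hp0))))
  obtain ⟨F, hF, hFc⟩ := h4c p hp
  have sp := h2 p hp
  have mv := h4.1 p hp hp4 M hM
  have sp2 := hC.1 _ _ sp sp
  have mv2 := hC.2.1 _ _ M sp.perf sp.perf mv mv
  have sp3 := hC.1 _ _ sp2 sp
  have mv3 := hC.2.1 _ _ M sp2.perf sp.perf mv2 mv
  have hZ : Nat.card (Subgroup.center (SLp p)) ≤ 2 := by
    have : Nat.card (Subgroup.center (SLp p)) ≤ Nat.card ({1, -1} : Set (SLp p)) :=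
      card_mono fun a ha => ((h1 p hp).2.1 a).1 ha
    exact this.trans (by
      rw [Nat.card_coe_set_eq]
      exact (Set.ncard_insert_le _ _).trans (by rw [Set.ncard_singleton]))
  have hpos : (0 : ℝ) < Nat.card (SLp p) := Nat.cast_pos.2 Nat.card_pos
  haveI : Nontrivial (SLp p) := by
    rw [← Finite.one_lt_card_iff_nontrivial, (h1 p hp).1]
    have : 25 ≤ p ^ 2 := Nat.pow_le_pow_left hp 2
    calc 1 < 5 * 24 := by norm_num
      _ ≤ _ := Nat.mul_le_mul hp (by omega)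
  obtain ⟨k1, g1⟩ := prob_of hC hG sp mv (j + 1) hη
  obtain ⟨k2, g2⟩ := prob_of hC hG sp2 mv2 (j + 1) hη
  obtain ⟨k3, g3⟩ := prob_of hC hG sp3 mv3 (j + 1) hη
  obtain ⟨k4, g4⟩ := (hB (SLp p)).2 (1 / 2) (by norm_num)
  obtain ⟨k5, g5⟩ := hF5.2.2.2.2.2 (SLp p) sp.perf hB (η / (1 + 2 * C5) ^ 2) (by positivity)
  refine ⟨1 + k1 + k2 + k3 + k4 + k5, fun k hk0 S _ _ hS β hβ hA => ?_⟩
  have hk : 0 < k := by omega
  have g1 := g1 k (by omega) S hS β hβ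
  have g2 := g2 k (by omega) S (ker_prod hS hS) β hβ
  have g3 := g3 k (by omega) S (ker_prod (ker_prod hS hS) hS) β hβ
  have g4 := g4 k (by omega)
  have g5 := g5 k (by omega)
  haveI := finVV (H := SLp p) hB hk Good
  haveI := finVV (H := SLp p) hB hk fun m => ¬ Good m
  choose γ hγ hr using fun ω : Om S (Der (8 * k) M (j + 1)) β => om_rep hS ω
  have hs : ∀ (ω : Om S (Der (8 * k) M (j + 1)) β) (m : Mk (SLp p)) u,
      IsSol k ω.1.out m u ↔ IsSol k (β * γ ω) m u := fun ω m u => isSol_congr (by rw [hr]) m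
  have ht : ∀ ω, β * γ ω ∈ Tw (8 * k) 1 := fun ω => mul_mem hβ (der_le _ _ _ (hγ ω))
  have hge : (Nat.card {m : Mk (SLp p) // Good m ∧ Eqn m} : ℝ) ≤
      2 * C5 * (Nat.card (SLp p) : ℝ) ^ 4 := by
    have e : ∀ s : ℤ, s = 2 ∨ s = -2 → Nat.card {m : Mk (SLp p) // m.1 ^ s * lam m = 1 ∧ Good m} ≤
        C5 * Nat.card (SLp p) ^ 4 := fun s hs => (card_mono fun _ h => h.1).trans (h5 p hp s hs).1
    have := (card_eqn Good).trans (Nat.add_le_add (e 2 (Or.inl rfl)) (e _ (Or.inr rfl)))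
    have : (Nat.card {m : Mk (SLp p) // Good m ∧ Eqn m} : ℝ) ≤
      C5 * (Nat.card (SLp p) : ℝ) ^ 4 + C5 * (Nat.card (SLp p) : ℝ) ^ 4 := by exact_mod_cast this
    linarith
  have hbe : (p * Nat.card {m : Mk (SLp p) // ¬ Good m ∧ Eqn m} : ℝ) ≤
      2 * C5 * (Nat.card (SLp p) : ℝ) ^ 4 := by
    have := (Nat.mul_le_mul_left p (card_eqn fun m : Mk (SLp p) => ¬ Good m)).trans
      ((Nat.mul_add _ _ _).le.trans
        (Nat.add_le_add (h5 p hp 2 (Or.inl rfl)).2 (h5 p hp _ (Or.inr rfl)).2))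
    have : (p * Nat.card {m : Mk (SLp p) // ¬ Good m ∧ Eqn m} : ℝ) ≤
      C5 * (Nat.card (SLp p) : ℝ) ^ 4 + C5 * (Nat.card (SLp p) : ℝ) ^ 4 := by exact_mod_cast this
    linarith
  have hlo' : (Nat.card (SLp p) : ℝ) ^ 4 ≤
      C6 * Nat.card {m : Mk (SLp p) // Good m ∧ Eqn m} := by
    exact_mod_cast hlo.trans (Nat.mul_le_mul_left _ (card_mono
      (Q := fun m => Good m ∧ Eqn m) fun _ h => ⟨h.2, Or.inl h.1⟩))
  have hvlo : (Nat.card {m : Mk (SLp p) // Good m ∧ Eqn m} : ℝ) *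
      (1 / 2 * (Nat.card (SLp p) : ℝ) ^ (4 * k)) ≤ Nat.card (VV (SLp p) k Good) :=
    le_pair (fun m => Good m ∧ Eqn m) (TG k) (finTG hB hk) _ fun m hm => by
      haveI := finT hB hk (bs (ym m))
      have e1 := (g4 _ (oddB_bs _) (hng m hm.1) fun _ => 1).2
      have e2 := card_split (InT k (bs (ym m))) Gen
      rw [((hB _).1 k hk _ fun _ => 1).2.2] at e1 e2
      have e3 : ((Nat.card (SLp p) : ℝ)) ^ (4 * k) = Nat.card {u // TG k m u} +
        Nat.card {u // InT k (bs (ym m)) u ∧ ¬ Gen u} := by exact_mod_cast e2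
      push_cast at e1
      linarith
  have hvhi := card_VV_le (H := SLp p) hB hk Good
  have hwhi := card_VV_le (H := SLp p) hB hk fun m => ¬ Good m
  have hrel := rel_le (H := SLp p) hB hk _ fun m m' hm hm' =>
    g5 _ _ (oddB_bs _) (oddB_bs _) (hng m hm) (hng m' hm')
  have hmk := markov (fun (w : VV (SLp p) k fun m => ¬ Good m)
      (ω : Om S (Der (8 * k) M (j + 1)) β) => IsSol k ω.1.out w.1.1 w.1.2)
    (fun ω => ∃ w : VV (SLp p) k fun m => ¬ Good m, IsSol k ω.1.out w.1.1 w.1.2)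
    (Nat.card (SLp p) / 2)
    (2 * Nat.card (Om S (Der (8 * k) M (j + 1)) β) / (Nat.card (SLp p) : ℝ) ^ (4 * k + 3))
    (fun ω ⟨w, hw⟩ => by
      have := (orbit_ge hB hF5 hk hZ _ (fun _ _ e => mt e.1) _ w hw).trans
        (Nat.mul_le_mul_left _ (card_mono fun _ h => h.2))
      rw [div_le_iff₀' two_pos]
      exact_mod_cast this)
    fun w => by
      rw [le_div_iff₀' (by positivity)]
      refine (g1 _ _ w.2.1.2.comm w.2.2.1 w.2.2.2).2.trans ?_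
      gcongr
      linarith
  have hmain := hP (Om S (Der (8 * k) M (j + 1)) β) (VV (SLp p) k Good)
    (fun v ω => IsSol k ω.1.out v.1.1 v.1.2) (fun v => v.1.1.1 ^ (2 : ℤ) * lam v.1.1 = 1)
    (fun v v' => ¬ Gen (zip2 v.1.2 v'.1.2)) (Nat.card (SLp p))
    ((Nat.card (SLp p) : ℝ) ^ (4 * k + 3)) hpos (by positivity)
    (fun v => g1 _ _ v.2.1.2.comm v.2.2.1 v.2.2.2)
    (fun v v' h => prob_two hF5 g2 v v' (not_not.1 h))
    (fun v v' v'' h h' h'' =>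
      prob_three hF5 sp.perf g3 v v' v'' (not_not.1 h) (not_not.1 h') (not_not.1 h''))
    (fun v ω hv => ⟨by exact_mod_cast orbit_ge hB hF5 hk hZ _ (fun _ _ e => e.2) _ v hv, by
      have e := (partners_le hB hF3 hk hZ hF (ht ω) v ((hs _ _ _).1 hv)).trans
        (Nat.mul_le_mul_left _ hFc)
      simp only [hs]
      refine (Nat.cast_le.2 e).trans ?_
      push_cast
      rw [← mul_assoc]
      gcongr
      have : (0 : ℝ) ≤ 1 + 2 * C5 + 2 * C6 := by positivity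
      linarith⟩)
    (fun v v' ω hv hv' h =>
      same_sign hF3 hF5 hk hZ hF (ht ω) v v' ((hs _ _ _).1 hv) ((hs _ _ _).1 hv') h)
    (by
      calc _ = (Nat.card (SLp p) : ℝ) ^ 4 * (Nat.card (SLp p) : ℝ) ^ (4 * k) := by ring
        _ ≤ C6 * Nat.card {m : Mk (SLp p) // Good m ∧ Eqn m} *
            (Nat.card (SLp p) : ℝ) ^ (4 * k) := by gcongr
        _ = 2 * C6 * (Nat.card {m : Mk (SLp p) // Good m ∧ Eqn m} *
            (1 / 2 * (Nat.card (SLp p) : ℝ) ^ (4 * k))) := by ring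
        _ ≤ _ := by
          gcongr
          have : (0 : ℝ) ≤ 1 + 2 * C4 + 2 * C5 := by positivity
          linarith)
    (by
      calc _ ≤ 2 * C5 * (Nat.card (SLp p) : ℝ) ^ 4 * (Nat.card (SLp p) : ℝ) ^ (4 * k) :=
            hvhi.trans (by gcongr)
        _ = 2 * C5 * (Nat.card (SLp p) * (Nat.card (SLp p) : ℝ) ^ (4 * k + 3)) := by ring
        _ ≤ _ := by
          gcongr
          have : (0 : ℝ) ≤ 1 + 2 * C4 + 2 * C6 := by positivity
          linarith)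
    (by
      calc _ ≤ ((1 + 2 * C5) * (Nat.card (SLp p) : ℝ) ^ 4) ^ 2 *
            (η / (1 + 2 * C5) ^ 2 * (Nat.card (SLp p) : ℝ) ^ (8 * k)) := by
            refine hrel.trans ?_
            gcongr
            refine hge.trans ?_
            gcongr
            linarith
        _ = _ := by field_simp; ring)
    ((Nat.card {x : Mk (SLp p) × List (St 8 (SLp p)) //
        (x.1.1 ^ (-2 : ℤ) * lam x.1 = 1 ∧ IsSol k β x.1 x.2) ∧ ¬ Gen x.2} : ℤ) -
      Nat.card {x : Mk (SLp p) × List (St 8 (SLp p)) //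
        (x.1.1 ^ (2 : ℤ) * lam x.1 = 1 ∧ IsSol k β x.1 x.2) ∧ ¬ Gen x.2})
  have hbad : (Nat.card {ω : Om S (Der (8 * k) M (j + 1)) β //
      ∃ w : VV (SLp p) k fun m => ¬ Good m, IsSol k ω.1.out w.1.1 w.1.2} : ℝ) ≤
      δ / 2 * Nat.card (Om S (Der (8 * k) M (j + 1)) β) := by
    have hp' : (0 : ℝ) < p := by exact_mod_cast (by omega : 0 < p)
    have e1 : (Nat.card (VV (SLp p) k fun m => ¬ Good m) : ℝ) ≤
        δ / 8 * (Nat.card (SLp p) : ℝ) ^ 4 * (Nat.card (SLp p) : ℝ) ^ (4 * k) := by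
      refine hwhi.trans ?_
      gcongr
      refine le_of_mul_le_mul_left (hbe.trans ?_) hp'
      rw [← mul_assoc]
      exact mul_le_mul_of_nonneg_right (by linarith) (by positivity)
    refine le_of_mul_le_mul_right (hmk.trans ?_) (half_pos hpos)
    calc _ ≤ δ / 8 * (Nat.card (SLp p) : ℝ) ^ 4 * (Nat.card (SLp p) : ℝ) ^ (4 * k) *
          (2 * Nat.card (Om S (Der (8 * k) M (j + 1)) β) /
            (Nat.card (SLp p) : ℝ) ^ (4 * k + 3)) := by gcongr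
      _ = _ := by field_simp; ring
  have hsum := add_le_add hmain hbad
  rw [← Nat.cast_add] at hsum
  refine le_trans (Nat.cast_le.2 ((card_mono fun ω h => ?_).trans (card_or _ _)))
    (hsum.trans_eq (by ring))
  refine or_iff_not_imp_right.2 fun hb => ?_
  have hrg : ∀ (m : Mk (SLp p)) u, Commute m.1 (lam m) → ¬ Gen u →
      (IsSol k ω.1.out m u ↔ IsSol k β m u) := fun m u hc hu =>
    (hs ω m u).trans (rigid h1 hF1 hF4 hp hk hM' hβ hA (hγ ω) m u hc hu)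
  rw [ns_eq hB hk hrg (not_exists.1 hb) 2 (Or.inl rfl) _ fun _ => Iff.rfl,
    ns_eq hB hk hrg (not_exists.1 hb) (-2) (Or.inr rfl)
      (fun v => ¬ v.1.1.1 ^ (2 : ℤ) * lam v.1.1 = 1)
      fun v => Iff.intro v.2.1.2.resolve_left fun e e' => not_both v.2.1.1 e' e] at h
  omega

end Vale.Agent.Q258D
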