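import Vale.Agent.Q258D.Rows

/-!
# Row G1: the probability of one colouring
-/

set_option linter.all false

namespace Vale.Agent.Q258D

open Vale.Agent.P258.Braid

namespace G1

/-- a map with fibres of constant size -/
theorem card_pre {Ω X : Type} [Finite Ω] (φ : Ω → X) (O : X → Prop) [Finite {x // O x}]
    (hφ : ∀ ω, O (φ ω)) (c : ℕ) (hc : ∀ x, O x → Nat.card {ω // φ ω = x} = c) (A : X → Prop) :
    Nat.card {ω // A (φ ω)} = Nat.card {x // O x ∧ A x} * c := by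
  haveI : Finite {x // O x ∧ A x} :=
    Finite.of_injective (fun x => (⟨x.1, x.2.1⟩ : {x // O x})) fun x y h =>
      Subtype.ext (congrArg (fun z : {x // O x} => z.1) h)
  haveI := Fintype.ofFinite {x // O x ∧ A x}
  let e : {ω // A (φ ω)} ≃ Σ x : {x // O x ∧ A x}, {ω // φ ω = x.1} :=
    { toFun := fun ω => ⟨⟨φ ω.1, hφ _, ω.2⟩, ⟨ω.1, rfl⟩⟩
      invFun := fun z => ⟨z.2.1, by rw [z.2.2]; exact z.1.2.2⟩
      left_inv := fun ω => rfl
      right_inv := by
        rintro ⟨⟨x, hx⟩, ⟨ω, h⟩⟩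
        dsimp only at h
        subst h
        rfl }
  rw [Nat.card_congr e, Nat.card_sigma, Finset.sum_congr rfl fun x _ => hc x.1 x.2.1]
  simp

theorem card_mul {Ω X : Type} [Finite Ω] (φ : Ω → X) (O : X → Prop) [Finite {x // O x}]
    (hφ : ∀ ω, O (φ ω)) (x0 : X) (h0 : O x0)
    (hf : ∀ x y, O x → O y → Nat.card {ω // φ ω = x} ≤ Nat.card {ω // φ ω = y}) (A : X → Prop) :
    Nat.card {ω // A (φ ω)} * Nat.card {x // O x} = Nat.card Ω * Nat.card {x // O x ∧ A x} := by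
  have hc : ∀ x, O x → Nat.card {ω // φ ω = x} = Nat.card {ω // φ ω = x0} := fun x hx =>
    le_antisymm (hf x x0 hx h0) (hf x0 x h0 hx)
  have h1 := card_pre φ O hφ _ hc A
  have h2 := card_pre φ O hφ _ hc fun _ => True
  have h3 : Nat.card {ω : Ω // True} = Nat.card Ω := Nat.card_congr (Equiv.subtypeUnivEquiv fun _ => trivial)
  have h4 : Nat.card {x // O x ∧ True} = Nat.card {x // O x} :=
    Nat.card_congr (Equiv.subtypeEquivRight fun _ => by simp)
  rw [h3, h4] at h2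
  rw [h1, h2]
  ring

variable {H : Type} [Group H] {N : ℕ}

instance finOm (S Γ : Subgroup (BraidGroup N)) [S.FiniteIndex] (β : BraidGroup N) :
    Finite (Om S Γ β) := by
  unfold Om
  infer_instance

theorem bact_out {S : Subgroup (BraidGroup N)} (hS : S ≤ (bact H N).ker)
    {q : BraidGroup N ⧸ S} {g : BraidGroup N} (h : (g : _ ⧸ S) = q) :
    bact H N q.out = bact H N g := by
  have h1 : (q.out : BraidGroup N ⧸ S) = (g : _ ⧸ S) := by rw [h, QuotientGroup.out_eq']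
  have h2 := hS (QuotientGroup.eq.1 h1)
  rwa [MonoidHom.mem_ker, map_mul, map_inv, inv_mul_eq_one] at h2

theorem bact_mul (a b : BraidGroup N) (l : List (St 8 H)) :
    bact H N (a * b) l = bact H N a (bact H N b l) := by
  rw [map_mul, Equiv.Perm.mul_apply]

/-- the orbit lemma -/
theorem orbit {k : ℕ} (S Γ : Subgroup (BraidGroup (8 * k))) [S.Normal] [S.FiniteIndex]
    (hS : S ≤ (bact H (8 * k)).ker) (hΓ : Γ ≤ Tw (8 * k) 1) (b : Fin 8 → H) (hT : Tr k Γ b)
    {β : BraidGroup (8 * k)} (hβ : β ∈ Tw (8 * k) 1) [Finite {l // InO b (cs k) l}]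
    {u : List (St 8 H)} (hu : InO b (cs k) u) (A : List (St 8 H) → Prop) :
    Nat.card {ω : Om S Γ β // A (bact H (8 * k) ω.1.out u)} * Nat.card {l // InO b (cs k) l} =
      Nat.card (Om S Γ β) * Nat.card {l // InO b (cs k) l ∧ A l} := by
  refine card_mul (fun ω : Om S Γ β => bact H (8 * k) ω.1.out u) (InO b (cs k)) ?_ u hu ?_ A
  · rintro ⟨q, γ, hγ, hq⟩
    dsimp only
    rw [bact_out hS hq]
    exact hu.bact ((Tw _ 1).mul_mem hβ (hΓ hγ))
  · intro x y hx hy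
    obtain ⟨g, hg, hxy⟩ := hT _ _ (hx.bact ((Tw _ 1).inv_mem hβ)) (hy.bact ((Tw _ 1).inv_mem hβ))
    have key : ∀ γ : BraidGroup (8 * k), β * g * β⁻¹ * (β * γ) = β * (g * γ) := fun γ => by group
    refine Nat.card_le_card_of_injective (fun ω => ⟨⟨((β * g * β⁻¹ : BraidGroup (8 * k)) : _ ⧸ S) *
      ω.1.1, ?_⟩, ?_⟩) ?_
    · obtain ⟨⟨q, γ, hγ, hq⟩, -⟩ := ω
      subst hq
      exact ⟨g * γ, Γ.mul_mem hg hγ, by rw [← key, QuotientGroup.mk_mul]⟩
    · obtain ⟨⟨q, γ, hγ, hq⟩, h⟩ := ω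
      dsimp only at h ⊢
      rw [bact_out hS hq] at h
      rw [bact_out hS (g := β * g * β⁻¹ * (β * γ)) (by rw [QuotientGroup.mk_mul, hq]), bact_mul, h,
        bact_mul, bact_mul, hxy, ← bact_mul, mul_inv_cancel, map_one]
      rfl
    · intro ω ω' h
      have h1 := congrArg (fun z => z.1.1) h
      exact Subtype.ext (Subtype.ext (mul_left_cancel h1))

theorem card_split {X : Type} (P Q : X → Prop) [Finite {x // P x}] :
    Nat.card {x // P x} = Nat.card {x // P x ∧ Q x} + Nat.card {x // P x ∧ ¬ Q x} := by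
  classical
  haveI : Finite {x // P x ∧ Q x} :=
    Finite.of_injective (fun x => (⟨x.1, x.2.1⟩ : {x // P x})) fun x y h =>
      Subtype.ext (congrArg (fun z : {x // P x} => z.1) h)
  haveI : Finite {x // P x ∧ ¬ Q x} :=
    Finite.of_injective (fun x => (⟨x.1, x.2.1⟩ : {x // P x})) fun x y h =>
      Subtype.ext (congrArg (fun z : {x // P x} => z.1) h)
  rw [← Nat.card_sum]
  refine Nat.card_congr ?_
  exact (Equiv.sumCompl fun x : {x // P x} => Q x.1).symm.trans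
    (Equiv.sumCongr (Equiv.subtypeSubtypeEquivSubtypeInter P Q)
      (Equiv.subtypeSubtypeEquivSubtypeInter P fun x => ¬ Q x))

theorem arith {η ε X W T o a : ℝ} (hε : 0 < ε) (hε1 : ε < 1) (h1 : 2 * ε ≤ η)
    (h2 : 1 ≤ (1 + η) * (1 - ε)) (hX : 0 ≤ X) (hW : 0 ≤ W) (hT : 0 < T)
    (ho1 : (1 - ε) * T ≤ o) (ho2 : o ≤ (1 + ε) * T) (ha1 : (1 - ε) * T ≤ a) (ha2 : a ≤ T)
    (h : X * o = W * a) : (1 - η) * W ≤ X ∧ X ≤ (1 + η) * W := by
  have u1 : X * (1 - ε) ≤ W := by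
    refine le_of_mul_le_mul_right ?_ hT
    nlinarith [mul_le_mul_of_nonneg_left ho1 hX, mul_le_mul_of_nonneg_left ha2 hW]
  have u2 : W * (1 - ε) ≤ X * (1 + ε) := by
    refine le_of_mul_le_mul_right ?_ hT
    nlinarith [mul_le_mul_of_nonneg_left ho2 hX, mul_le_mul_of_nonneg_left ha1 hW]
  have hη : 0 < η := by linarith
  constructor
  · refine le_of_mul_le_mul_right ?_ (show (0 : ℝ) < 1 + ε by linarith)
    have : (1 - η) * (1 + ε) ≤ 1 - ε := by nlinarith [mul_pos hη hε]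
    nlinarith [mul_le_mul_of_nonneg_left this hW]
  · nlinarith [mul_le_mul_of_nonneg_left h2 hX,
      mul_le_mul_of_nonneg_left u1 (show (0 : ℝ) ≤ 1 + η by linarith)]

end G1

open G1 in
theorem rowG1 (hB1 : RowB1) (hB3 : RowB3) (hF1 : RowF1) (hF5 : RowF5) : RowG1 := by
  intro H _ _ hH η hη
  obtain ⟨ε, hε, hε1, h1, h2⟩ :
      ∃ ε : ℝ, 0 < ε ∧ ε < 1 ∧ 2 * ε ≤ η ∧ 1 ≤ (1 + η) * (1 - ε) := by
    have hp : (0 : ℝ) < 2 + 2 * η := by linarith
    refine ⟨η / (2 + 2 * η), div_pos hη hp, (div_lt_one hp).2 (by linarith), ?_, ?_⟩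
    · rw [← mul_div_assoc, div_le_iff₀ hp]
      nlinarith
    · have : (1 + η) * (1 - η / (2 + 2 * η)) = 1 + η / 2 := by field_simp; ring
      rw [this]
      linarith
  obtain ⟨k1, hk1⟩ := hB1 H hH ε hε
  obtain ⟨hc, hn⟩ := hB3 H
  obtain ⟨k2, hk2⟩ := hn ε hε
  refine ⟨k1 + k2 + 1, fun k hk S Γ _ _ hS hΓ hT β hβ m u hm hu hg => ?_⟩
  have hb : OddB (bs (ym m)) := oddB_bs _
  have huX : InX (bs (ym m)) (cs k) u := by
    obtain ⟨f, rfl⟩ := hu
    exact inX_row _ _ _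
  have hN : NGen (bs (ym m)) := hF5.2.2.2.1 H _ u huX.1 hg
  have huO : InO (bs (ym m)) (cs k) u := ⟨huX, hg, hF1.1 H k _ hb u hu⟩
  obtain ⟨hfin, hA, -⟩ := hc k (by omega) (bs (ym m)) (em m)
  have hBX : ∀ v, InB k (bs (ym m)) (em m) v → InX (bs (ym m)) (cs k) v := by
    rintro v ⟨f, -, rfl⟩
    exact inX_row _ _ _
  haveI : Finite {l // InO (bs (ym m)) (cs k) l} :=
    Finite.of_injective (fun x => (⟨x.1, x.2.1⟩ : {l // InX (bs (ym m)) (cs k) l})) fun x y h =>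
      Subtype.ext (congrArg (fun z : {l // InX (bs (ym m)) (cs k) l} => z.1) h)
  haveI : Finite {v // InB k (bs (ym m)) (em m) v} :=
    Finite.of_injective (fun x => (⟨x.1, hBX _ x.2⟩ : {l // InX (bs (ym m)) (cs k) l}))
      fun x y h => Subtype.ext (congrArg (fun z : {l // InX (bs (ym m)) (cs k) l} => z.1) h)
  have horb := orbit S Γ hS hΓ _ (hT _ hb) hβ huO (InB k (bs (ym m)) (em m))
  have e1 : Nat.card {ω : Om S Γ β // IsSol k ω.1.out m u} =
      Nat.card {ω : Om S Γ β // InB k (bs (ym m)) (em m) (bact H (8 * k) ω.1.out u)} :=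
    Nat.card_congr (Equiv.subtypeEquivRight fun ω => ⟨fun h => h.2, fun h => ⟨hu, h⟩⟩)
  have e2 : Nat.card {l // InO (bs (ym m)) (cs k) l ∧ InB k (bs (ym m)) (em m) l} =
      Nat.card {l // InB k (bs (ym m)) (em m) l ∧ Gen l} :=
    Nat.card_congr (Equiv.subtypeEquivRight fun l => ⟨fun h => ⟨h.2, h.1.2.1⟩, fun h =>
      ⟨⟨hBX _ h.1, h.2, hF1.2.1 H k (by omega) m hm l h.1⟩, h.1⟩⟩)
  rw [← e1, e2] at horb
  have hsp := card_split (InB k (bs (ym m)) (em m)) Gen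
  obtain ⟨ho1, ho2⟩ := hk1 k (by omega) _ hb hN
  obtain ⟨hn1, -⟩ := hk2 k (by omega) _ hb hN (em m)
  generalize Nat.card {ω : Om S Γ β // IsSol k ω.1.out m u} = P at *
  generalize Nat.card (Om S Γ β) = W at *
  generalize Nat.card {l // InO (bs (ym m)) (cs k) l} = o at *
  generalize Nat.card {l // InB k (bs (ym m)) (em m) l ∧ Gen l} = a' at *
  generalize Nat.card {l // InB k (bs (ym m)) (em m) l ∧ ¬ Gen l} = n at *
  generalize Nat.card {l // InB k (bs (ym m)) (em m) l} = a at *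
  have hh : (0 : ℝ) < Nat.card H := by exact_mod_cast Nat.card_pos
  generalize Nat.card H = h at *
  have r1 : (P : ℝ) * o = W * a' := by exact_mod_cast horb
  have r2 : (a : ℝ) = a' + n := by exact_mod_cast hsp
  have r3 : (h : ℝ) ^ 4 * a = h ^ (4 * k) := by exact_mod_cast hA
  have r4 : (h : ℝ) ^ (8 * k) = h ^ (4 * k + 4) * a := by
    rw [pow_add, mul_assoc, r3, ← pow_add]
    congr 1
    ring
  have hq : (0 : ℝ) < (h : ℝ) ^ (4 * k + 4) := pow_pos hh _
  refine arith (a := (h : ℝ) ^ (4 * k + 4) * a') hε hε1 h1 h2 (by positivity) (by positivity)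
    (pow_pos hh (8 * k)) ho1 ho2 ?_ ?_ ?_
  · rw [r4]
    have : (1 - ε) * a ≤ a' := by linarith
    nlinarith [mul_le_mul_of_nonneg_left this hq.le]
  · rw [r4]
    have : (a' : ℝ) ≤ a := by
      have : (0 : ℝ) ≤ n := by positivity
      linarith
    exact mul_le_mul_of_nonneg_left this hq.le
  · calc (h : ℝ) ^ (4 * k + 3) * P * (h * o) = h ^ (4 * k + 4) * (P * o) := by ring
      _ = _ := by rw [r1]; ring

end Vale.Agent.Q258D
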