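import Vale.Agent.Q258D.Rows
import Mathlib.NumberTheory.PrimesCongruentOne
import Mathlib.Analysis.SpecificLimits.Basic

/-!
# Row H: many primes
-/

namespace Vale.Agent.Q258D

open Vale.Agent.P258.Braid

namespace RH

/-- double counting in a finite group -/
theorem dcount {Q : Type} [Group Q] [Finite Q] (A Bad : Q → Prop) (G : Subgroup Q) (c : ℝ)
    (hA : ∀ a, A a → ∀ g ∈ G, A (a * g))
    (h : ∀ a, A a → (Nat.card {g : G // Bad (a * g)} : ℝ) ≤ c * Nat.card G) :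
    (Nat.card {a // A a ∧ Bad a} : ℝ) ≤ c * Nat.card {a // A a} := by
  classical
  have := Fintype.ofFinite Q
  have e1 : ∀ g : G, Nat.card {a // A a ∧ Bad a} =
      (Finset.univ.filter fun a : {a // A a} => Bad (a.1 * g)).card := by
    intro g
    rw [← Fintype.card_subtype, ← Nat.card_eq_fintype_card]
    refine Nat.card_congr
      { toFun := fun a => ⟨⟨a.1 * (g : Q)⁻¹, hA _ a.2.1 _ (G.inv_mem g.2)⟩, by simpa using a.2.2⟩
        invFun := fun a => ⟨a.1.1 * g, hA _ a.1.2 _ g.2, a.2⟩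
        left_inv := fun a => by simp
        right_inv := fun a => by simp }
  have e2 : ∀ a : Q, Nat.card {g : G // Bad (a * g)} =
      (Finset.univ.filter fun g : G => Bad (a * g)).card := fun a => by
    rw [← Fintype.card_subtype, ← Nat.card_eq_fintype_card]
  have e3 : ∑ g : G, (Finset.univ.filter fun a : {a // A a} => Bad (a.1 * g)).card =
      ∑ a : {a // A a}, (Finset.univ.filter fun g : G => Bad (a.1 * g)).card := by
    simp only [Finset.card_filter]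
    exact Finset.sum_comm
  have e4 : (Nat.card G : ℝ) * Nat.card {a // A a ∧ Bad a} ≤
      Nat.card G * (c * Nat.card {a // A a}) := by
    have h1 : Nat.card G * Nat.card {a // A a ∧ Bad a} =
        ∑ a : {a // A a}, Nat.card {g : G // Bad (a.1 * g)} := by
      simp only [e2, ← e3, ← e1, Finset.sum_const, smul_eq_mul, Finset.card_univ]
      rw [Nat.card_eq_fintype_card (α := G)]
    have h2 : (∑ a : {a // A a}, (Nat.card {g : G // Bad (a.1 * g)} : ℝ)) ≤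
        ∑ _a : {a // A a}, c * Nat.card G := Finset.sum_le_sum fun a _ => h a.1 a.2
    rw [Finset.sum_const, Finset.card_univ, ← Nat.card_eq_fintype_card, nsmul_eq_mul] at h2
    rw [← Nat.cast_mul, h1, Nat.cast_sum]
    linarith
  exact le_of_mul_le_mul_left e4 (by exact_mod_cast Nat.card_pos)

variable {N : ℕ}

theorem out_iff {S : Subgroup (BraidGroup N)} {P : BraidGroup N → Prop}
    (h : ∀ β, ∀ s ∈ S, P (β * s) ↔ P β) (β : BraidGroup N) :
    P (β : BraidGroup N ⧸ S).out ↔ P β := by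
  obtain ⟨s, e⟩ := QuotientGroup.mk_out_eq_mul S β
  rw [e]
  exact h β s s.2

/-- the classes of a coset are the translates of the image of the subgroup -/
def omEquiv (S Γ : Subgroup (BraidGroup N)) [S.Normal] (β : BraidGroup N) :
    Γ.map (QuotientGroup.mk' S) ≃ Om S Γ β where
  toFun g := ⟨(β : BraidGroup N ⧸ S) * g.1, by
    obtain ⟨_, γ, hγ, rfl⟩ := g
    exact ⟨γ, hγ, rfl⟩⟩
  invFun ω := ⟨(β : BraidGroup N ⧸ S)⁻¹ * ω.1, by
    obtain ⟨_, γ, hγ, rfl⟩ := ω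
    exact ⟨γ, hγ, by simp⟩⟩
  left_inv g := by simp
  right_inv ω := by
    obtain ⟨q, h⟩ := ω
    exact Subtype.ext (by simp)

theorem card_om (S Γ : Subgroup (BraidGroup N)) (β : BraidGroup N)
    (R : BraidGroup N ⧸ S → Prop) : Nat.card {ω : Om S Γ β // R ω.1} =
      Nat.card {q : BraidGroup N ⧸ S // (∃ γ ∈ Γ, ((β * γ : BraidGroup N) : _ ⧸ S) = q) ∧ R q} :=
  Nat.card_congr (Equiv.subtypeSubtypeEquivSubtypeInter _ R)

theorem step {S Γ Γ' : Subgroup (BraidGroup N)} [S.Normal] [S.FiniteIndex] (hΓ : Γ' ≤ Γ)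
    {P Bd : BraidGroup N → Prop} (h1 : ∀ β, ∀ s ∈ S, P (β * s) ↔ P β)
    (h2 : ∀ β, ∀ g ∈ Γ', P (β * g) ↔ P β) {β : BraidGroup N} {c : ℝ}
    (h : ∀ γ ∈ Γ, (Nat.card {ω : Om S Γ' (β * γ) // Bd ω.1.out} : ℝ) ≤
      c * Nat.card (Om S Γ' (β * γ))) :
    (Nat.card {ω : Om S Γ β // P ω.1.out ∧ Bd ω.1.out} : ℝ) ≤
      c * Nat.card {ω : Om S Γ β // P ω.1.out} := by
  rw [card_om S Γ β fun q => P q.out ∧ Bd q.out, card_om S Γ β fun q => P q.out]
  simp only [← and_assoc]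
  refine dcount (fun q : BraidGroup N ⧸ S =>
    (∃ γ ∈ Γ, ((β * γ : BraidGroup N) : _ ⧸ S) = q) ∧ P q.out) (fun q => Bd q.out)
    (Γ'.map (QuotientGroup.mk' S)) c ?_ ?_
  · rintro _ ⟨⟨γ, hγ, rfl⟩, hP⟩ _ ⟨g, hg, rfl⟩
    refine ⟨⟨γ * g, Γ.mul_mem hγ (hΓ hg), by simp [mul_assoc]⟩, ?_⟩
    rw [QuotientGroup.mk'_apply, ← QuotientGroup.mk_mul, out_iff h1, h2 _ g hg]
    exact (out_iff h1 _).1 hP
  · rintro _ ⟨⟨γ, hγ, rfl⟩, -⟩
    have := h γ hγ
    rwa [← Nat.card_congr (omEquiv S Γ' (β * γ)), ← Nat.card_congr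
      ((omEquiv S Γ' (β * γ)).subtypeEquiv (p := fun g => Bd
        (((β * γ : BraidGroup N) : _ ⧸ S) * g.1).out) fun _ => Iff.rfl)] at this

theorem tw_mono (N : ℕ) {M M' : ℕ} (h : M ∣ M') : Tw N M' ≤ Tw N M := by
  obtain ⟨c, rfl⟩ := h
  refine Subgroup.normalClosure_le_normal ?_
  rintro _ ⟨i, rfl⟩
  show letter N (i, true) ^ (2 * (M * c)) ∈ Tw N M
  rw [← mul_assoc, pow_mul]
  exact (Tw N M).pow_mem (Subgroup.subset_normalClosure ⟨i, rfl⟩) c

theorem der_mono (N : ℕ) {M M' : ℕ} (h : M ∣ M') : ∀ j, Der N M' j ≤ Der N M j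
  | 0 => tw_mono N h
  | j + 1 => Subgroup.commutator_mono (der_mono N h j) (der_mono N h j)

theorem der_le_tw (N M : ℕ) : ∀ j, Der N M j ≤ Tw N M
  | 0 => le_rfl
  | j + 1 => (Subgroup.commutator_le_left _ _).trans (der_le_tw N M j)

theorem ns_ker {H : Type} [Group H] {k : ℕ} (β : BraidGroup (8 * k)) {g : BraidGroup (8 * k)}
    (hg : g ∈ (bact H (8 * k)).ker) (s : ℤ) : NS k H (β * g) s = NS k H β s := by
  unfold NS IsSol
  rw [map_mul, MonoidHom.mem_ker.1 hg, mul_one]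

theorem tw_ker (hF1 : RowF1) (H : Type) [Group H] (N : ℕ) :
    Tw N (Nat.card H) ≤ (bact H N).ker := fun γ hγ =>
  MonoidHom.mem_ker.2 (Equiv.ext fun l =>
    hF1.2.2.2.2 H N _ l (fun _ _ => pow_card_eq_one') γ hγ)

/-- the statement for `n` primes -/
def Cl (M j : ℕ) (c : ℝ) : Prop :=
  ∃ L, 0 < L ∧ M ∣ L ∧ ∃ (S0 : ∀ k, Subgroup (BraidGroup (8 * k)))
    (P : ∀ k, BraidGroup (8 * k) → Prop), (∀ k, (S0 k).Normal ∧ (S0 k).FiniteIndex) ∧
    (∀ k β, (∀ (G : Type) [Group G] [Finite G], NS k G β 2 = NS k G β (-2)) → P k β) ∧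
    (∀ k β, ∀ s ∈ S0 k, P k (β * s) ↔ P k β) ∧ (∀ k β, ∀ g ∈ Tw (8 * k) L, P k (β * g) ↔ P k β) ∧
    ∃ k0, ∀ k ≥ k0, ∀ (S : Subgroup (BraidGroup (8 * k))) [S.Normal] [S.FiniteIndex], S ≤ S0 k →
      ∀ β ∈ Tw (8 * k) 1, AM k β →
        (Nat.card {ω : Om S (Der (8 * k) M (j + 1)) β // P k ω.1.out} : ℝ) ≤
          c * Nat.card (Om S (Der (8 * k) M (j + 1)) β)

theorem cl_zero {M : ℕ} (j : ℕ) (hM : 0 < M) : Cl M j 1 := by
  refine ⟨M, hM, dvd_rfl, fun _ => ⊤, fun _ _ => True, fun _ => ⟨inferInstance, inferInstance⟩,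
    fun _ _ _ => trivial, fun _ _ _ _ => Iff.rfl, fun _ _ _ _ => Iff.rfl, 0,
    fun k _ S _ _ _ β _ _ => ?_⟩
  rw [one_mul]
  exact (Nat.cast_inj.2 (Nat.card_congr (Equiv.subtypeUnivEquiv fun _ => trivial))).le

end RH

open RH

theorem rowH (_h1 : RowD1) (hF1 : RowF1) (hG : RowG) : RowH := by
  obtain ⟨δ, p0, d0, d1, hG⟩ := hG
  intro M j hM ε hε
  have key : ∀ n : ℕ, Cl M j ((1 - δ) ^ n) := by
    intro n
    induction n with
    | zero => rw [pow_zero]; exact cl_zero j hM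
    | succ n ih =>
      obtain ⟨L, L0, ML, S0, P, hS, i1, i2, i3, k0, i4⟩ := ih
      obtain ⟨p, hp, hlt, h4⟩ := Nat.exists_prime_gt_modEq_one (k := 4) (L + p0) (by norm_num)
      have : Fact p.Prime := ⟨hp⟩
      have nd : ¬ p ∣ L * (p ^ 2 - 1) := by
        intro h
        rcases (Nat.Prime.dvd_mul hp).1 h with h | h
        · have := Nat.le_of_dvd L0 h
          omega
        · have h2 : p ∣ p ^ 2 := dvd_pow_self p (by norm_num)
          have h3 : 1 ≤ p ^ 2 := Nat.one_le_pow _ _ hp.pos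
          have h5 := Nat.dvd_sub h2 h
          rw [Nat.sub_sub_self h3] at h5
          exact hp.one_lt.ne' (Nat.dvd_one.1 h5)
      obtain ⟨k1, hk1⟩ := hG p (by omega) h4 (L * (p ^ 2 - 1)) j nd (Dvd.intro_left _ rfl)
      refine ⟨L * Nat.card (SLp p), Nat.mul_pos L0 Nat.card_pos, ML.mul_right _,
        fun k => S0 k ⊓ (bact (SLp p) (8 * k)).ker,
        fun k β => P k β ∧ NS k (SLp p) β 2 = NS k (SLp p) β (-2), fun k => ?_,
        fun k β h => ⟨i1 k β h, h _⟩, fun k β s hs => ?_, fun k β g hg => ?_, max k0 k1,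
        fun k hk S _ _ hS' β hβ hA => ?_⟩
      · have := (hS k).1
        have := (hS k).2
        have := bact_ker_finiteIndex (SLp p) (8 * k)
        exact ⟨inferInstance, inferInstance⟩
      · beta_reduce
        rw [i2 k β s hs.1, ns_ker β hs.2, ns_ker β hs.2]
      · have h2 := tw_ker hF1 (SLp p) _ (tw_mono _ (Dvd.intro_left L rfl) hg)
        beta_reduce
        rw [i3 k β g (tw_mono _ (Dvd.intro _ rfl) hg), ns_ker β h2, ns_ker β h2]
      · have h1 := step (S := S) (der_mono (8 * k) (ML.mul_right (p ^ 2 - 1)) (j + 1)) (P := P k)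
          (Bd := fun β => NS k (SLp p) β 2 = NS k (SLp p) β (-2)) (β := β) (c := 1 - δ)
          (fun β s hs => i2 k β s (hS' hs).1)
          (fun β g hg => i3 k β g (tw_mono _ (Dvd.intro _ rfl) (der_le_tw _ _ _ hg)))
          fun γ hγ => hk1 k (le_of_max_le_right hk) S (fun s hs => (hS' hs).2) _
            ((Tw _ 1).mul_mem hβ (der_le _ _ _ hγ))
            (hF1.2.2.2.1 k β γ (der_succ_le _ _ _ hγ) hA)
        have h2 := i4 k (le_of_max_le_left hk) S (fun s hs => (hS' hs).1) β hβ hA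
        refine h1.trans ?_
        rw [pow_succ', mul_assoc]
        exact mul_le_mul_of_nonneg_left h2 (by linarith)
  obtain ⟨n, hn⟩ := exists_pow_lt_of_lt_one hε (show 1 - δ < 1 by linarith)
  obtain ⟨L, -, -, S0, P, hS, i1, i2, -, k0, i4⟩ := key n
  refine ⟨k0, fun k hk => ⟨S0 k, (hS k).1, (hS k).2, fun β hβ hA => ?_⟩⟩
  have := (hS k).1
  have := (hS k).2
  have h2 := i4 k hk (S0 k) le_rfl β hβ hA
  rw [card_om _ _ β fun q => P k q.out] at h2
  refine le_trans (le_trans ?_ h2) (mul_le_mul_of_nonneg_right hn.le (Nat.cast_nonneg _))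
  refine Nat.cast_le.2 (Nat.card_le_card_of_injective
    (Subtype.map id ?_) (Subtype.map_injective _ Function.injective_id))
  rintro _ ⟨γ, hγ, h, rfl⟩
  exact ⟨⟨γ, hγ, rfl⟩, (out_iff (i2 k) _).2 (i1 k _ h)⟩

end Vale.Agent.Q258D
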