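import Vale.Agent.Q258D.RowsJ

/-!
# The Kauffman bracket on a coset
-/

set_option linter.all false

namespace Vale.Agent.Q258D

open Vale.Agent.P258.Braid Vale.Agent.N258B

namespace RJ

/-! ### Three generators of a Temperley-Lieb algebra -/

section tl

variable {R : Type} [CommRing R] {𝒜 : Type} [Ring 𝒜] [Algebra R 𝒜] {t : R} {x y z : 𝒜}

/-- two neighbours -/
structure T2 (t : R) (x y : 𝒜) : Prop where
  xx : x * x = (-t - 1) • x
  yy : y * y = (-t - 1) • y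
  xyx : x * (y * x) = t • x
  yxy : y * (x * y) = t • y

theorem T2.braid (h : T2 t x y) :
    (t • 1 + x) * ((t • 1 + y) * (t • 1 + x)) = (t • 1 + y) * ((t • 1 + x) * (t • 1 + y)) := by
  simp only [add_mul, mul_add, smul_mul_assoc, mul_smul_comm, one_mul, mul_one, h.xx, h.yy, h.xyx,
    h.yxy]
  module

/-- three neighbours -/
structure T3 (t : R) (x y z : 𝒜) : Prop where
  xx : x * x = (-t - 1) • x
  yy : y * y = (-t - 1) • y
  zz : z * z = (-t - 1) • z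
  xyx2 : x * (y * x) = t • x
  yxy2 : y * (x * y) = t • y
  yzy2 : y * (z * y) = t • y
  zyz2 : z * (y * z) = t • z
  zx : z * x = x * z

theorem T3.xx2 (h : T3 t x y z) (u : 𝒜) : x * (x * u) = (-t - 1) • (x * u) := by
  rw [← mul_assoc, h.xx, smul_mul_assoc]

theorem T3.yy2 (h : T3 t x y z) (u : 𝒜) : y * (y * u) = (-t - 1) • (y * u) := by
  rw [← mul_assoc, h.yy, smul_mul_assoc]

theorem T3.zz2 (h : T3 t x y z) (u : 𝒜) : z * (z * u) = (-t - 1) • (z * u) := by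
  rw [← mul_assoc, h.zz, smul_mul_assoc]

theorem T3.xyx3 (h : T3 t x y z) (u : 𝒜) : x * (y * (x * u)) = t • (x * u) := by
  rw [← smul_mul_assoc, ← h.xyx2, mul_assoc, mul_assoc]

theorem T3.yxy3 (h : T3 t x y z) (u : 𝒜) : y * (x * (y * u)) = t • (y * u) := by
  rw [← smul_mul_assoc, ← h.yxy2, mul_assoc, mul_assoc]

theorem T3.yzy3 (h : T3 t x y z) (u : 𝒜) : y * (z * (y * u)) = t • (y * u) := by
  rw [← smul_mul_assoc, ← h.yzy2, mul_assoc, mul_assoc]

theorem T3.zx2 (h : T3 t x y z) (u : 𝒜) : z * (x * u) = x * (z * u) := by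
  rw [← mul_assoc, h.zx, mul_assoc]

theorem T3.xzyx (h : T3 t x y z) : x * (z * (y * x)) = t • (x * z) := by
  rw [← h.zx2, h.xyx2, mul_smul_comm, h.zx]

theorem T3.zyxz (h : T3 t x y z) : z * (y * (x * z)) = t • (x * z) := by
  rw [← h.zx, ← mul_assoc y, ← mul_assoc, h.zyz2, smul_mul_assoc]

theorem T3.zyxz2 (h : T3 t x y z) (u : 𝒜) : z * (y * (x * (z * u))) = t • (x * (z * u)) := by
  rw [← mul_assoc x z u, ← smul_mul_assoc, ← h.zyxz, mul_assoc z, mul_assoc y]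

/-- the fourteen monomials -/
def L (x y z : 𝒜) (c0 c1 c2 c3 c4 c5 c6 c7 c8 c9 c10 c11 c12 c13 : R) : 𝒜 :=
  c0 • 1 + c1 • x + c2 • y + c3 • z + c4 • (x * y) + c5 • (y * x) + c6 • (y * z) + c7 • (z * y) +
    c8 • (x * z) + c9 • (x * (y * z)) + c10 • (z * (y * x)) + c11 • (y * (x * z)) +
    c12 • (x * (z * y)) + c13 • (y * (x * (z * y)))

theorem L_congr {c0 c1 c2 c3 c4 c5 c6 c7 c8 c9 c10 c11 c12 c13 d0 d1 d2 d3 d4 d5 d6 d7 d8 d9 d10 d11 d12 d13 : R}
    (h0 : c0 = d0) (h1 : c1 = d1) (h2 : c2 = d2) (h3 : c3 = d3) (h4 : c4 = d4) (h5 : c5 = d5) (h6 : c6 = d6) (h7 : c7 = d7) (h8 : c8 = d8) (h9 : c9 = d9) (h10 : c10 = d10) (h11 : c11 = d11) (h12 : c12 = d12) (h13 : c13 = d13) :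
    L x y z c0 c1 c2 c3 c4 c5 c6 c7 c8 c9 c10 c11 c12 c13 = L x y z d0 d1 d2 d3 d4 d5 d6 d7 d8 d9 d10 d11 d12 d13 := by
  subst_vars
  rfl

theorem L_sub (e c0 c1 c2 c3 c4 c5 c6 c7 c8 c9 c10 c11 c12 c13 d0 d1 d2 d3 d4 d5 d6 d7 d8 d9 d10 d11 d12 d13 : R) :
    L x y z c0 c1 c2 c3 c4 c5 c6 c7 c8 c9 c10 c11 c12 c13 - e • L x y z d0 d1 d2 d3 d4 d5 d6 d7 d8 d9 d10 d11 d12 d13 =
      L x y z (c0 - e * d0) (c1 - e * d1) (c2 - e * d2) (c3 - e * d3) (c4 - e * d4) (c5 - e * d5) (c6 - e * d6) (c7 - e * d7) (c8 - e * d8) (c9 - e * d9) (c10 - e * d10) (c11 - e * d11) (c12 - e * d12) (c13 - e * d13) := by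
  simp only [L]
  module

theorem L_smul (e c0 c1 c2 c3 c4 c5 c6 c7 c8 c9 c10 c11 c12 c13 : R) :
    e • L x y z c0 c1 c2 c3 c4 c5 c6 c7 c8 c9 c10 c11 c12 c13 =
      L x y z (e * c0) (e * c1) (e * c2) (e * c3) (e * c4) (e * c5) (e * c6) (e * c7) (e * c8) (e * c9) (e * c10) (e * c11) (e * c12) (e * c13) := by
  simp only [L]
  module

theorem L_one : L x y z (1 : R) 0 0 0 0 0 0 0 0 0 0 0 0 0 = 1 := by simp [L]

theorem L_zero : L x y z (0 : R) 0 0 0 0 0 0 0 0 0 0 0 0 0 = 0 := by simp [L]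

/-- the crossing of two bands -/
def GG (t : R) (x y z : 𝒜) : 𝒜 := (t • 1 + y) * (t • 1 + x) * (t • 1 + z) * (t • 1 + y)

theorem T3.gx (h : T3 t x y z) (c0 c1 c2 c3 c4 c5 c6 c7 c8 c9 c10 c11 c12 c13 : R) :
    (t • 1 + x) * L x y z c0 c1 c2 c3 c4 c5 c6 c7 c8 c9 c10 c11 c12 c13 =
      L x y z ((t) * c0) (c0 + (-1) * c1 + (t) * c5) ((t) * c2) ((t) * c3) (c2 + (-1) * c4) ((t) *
      c5) ((t) * c6) ((t) * c7) (c3 + (-1) * c8 + (t) * c10 + (t) * c11) (c6 + (-1) * c9) ((t) *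
      c10) ((t) * c11) (c7 + (-1) * c12 + (t) * c13) ((t) * c13) := by
  simp only [L, add_mul, mul_add, smul_mul_assoc, mul_smul_comm, one_mul, mul_one, h.xx, h.xx2, h.xyx2,
    h.xyx3, h.xzyx]
  module

theorem T3.gy (h : T3 t x y z) (c0 c1 c2 c3 c4 c5 c6 c7 c8 c9 c10 c11 c12 c13 : R) :
    (t • 1 + y) * L x y z c0 c1 c2 c3 c4 c5 c6 c7 c8 c9 c10 c11 c12 c13 =
      L x y z ((t) * c0) ((t) * c1) (c0 + (-1) * c2 + (t) * c4 + (t) * c7) ((t) * c3) ((t) * c4)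
      (c1 + (-1) * c5 + (t) * c10) (c3 + (-1) * c6 + (t) * c9) ((t) * c7) ((t) * c8) ((t) * c9)
      ((t) * c10) (c8 + (-1) * c11) ((t) * c12) (c12 + (-1) * c13) := by
  simp only [L, add_mul, mul_add, smul_mul_assoc, mul_smul_comm, one_mul, mul_one, h.yy, h.yy2, h.yxy2,
    h.yxy3, h.yzy2, h.yzy3]
  module

theorem T3.gz (h : T3 t x y z) (c0 c1 c2 c3 c4 c5 c6 c7 c8 c9 c10 c11 c12 c13 : R) :
    (t • 1 + z) * L x y z c0 c1 c2 c3 c4 c5 c6 c7 c8 c9 c10 c11 c12 c13 =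
      L x y z ((t) * c0) ((t) * c1) ((t) * c2) (c0 + (-1) * c3 + (t) * c6) ((t) * c4) ((t) * c5)
      ((t) * c6) (c2 + (-1) * c7) (c1 + (-1) * c8 + (t) * c9 + (t) * c11) ((t) * c9) (c5 + (-1) *
      c10) ((t) * c11) (c4 + (-1) * c12 + (t) * c13) ((t) * c13) := by
  simp only [L, add_mul, mul_add, smul_mul_assoc, mul_smul_comm, one_mul, mul_one, h.zz, h.zz2, h.zyz2,
    h.zx, h.zx2, h.zyxz, h.zyxz2]
  module

theorem T3.gG (h : T3 t x y z) (c0 c1 c2 c3 c4 c5 c6 c7 c8 c9 c10 c11 c12 c13 : R) :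
    GG t x y z * L x y z c0 c1 c2 c3 c4 c5 c6 c7 c8 c9 c10 c11 c12 c13 =
      L x y z ((t ^ 4) * c0) ((t ^ 3) * c0 + (-t ^ 3) * c5 + (t ^ 4) * c10) ((t ^ 2 + t ^ 3) * c0
      + (-t ^ 2) * c2) ((t ^ 3) * c0 + (-t ^ 3) * c6 + (t ^ 4) * c9) ((t ^ 2) * c0 + (-t ^ 2) * c2
      + (t ^ 3) * c7) ((t ^ 2) * c0 + (-t ^ 2) * c5) ((t ^ 2) * c0 + (-t ^ 2) * c6) ((t ^ 2) * c0
      + (-t ^ 2) * c2 + (t ^ 3) * c4) ((t ^ 2) * c0 + (-t ^ 2) * c5 + (-t ^ 2) * c6 + (t ^ 3) * c8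
      + (t ^ 2 - t ^ 3) * c11) ((t ^ 2) * c3 + (-t ^ 2) * c6) ((t ^ 2) * c1 + (-t ^ 2) * c5) ((t)
      * c0 + (-t) * c5 + (-t) * c6 + (t) * c11) ((t) * c0 + (-t) * c2 + (t ^ 3) * c12 + (t ^ 2 - t
      ^ 3) * c13) (c0 + (-1) * c2 + (t) * c13) := by
  rw [GG, mul_assoc, mul_assoc, mul_assoc, h.gy, h.gz, h.gx, h.gy]
  apply L_congr <;> ring

theorem T3.gZ (h : T3 t x y z) (e : R) (c0 c1 c2 c3 c4 c5 c6 c7 c8 c9 c10 c11 c12 c13 : R) :
    (GG t x y z * GG t x y z - e • 1) * L x y z c0 c1 c2 c3 c4 c5 c6 c7 c8 c9 c10 c11 c12 c13 =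
      L x y z ((t ^ 8) * c0 - e * c0) ((-t ^ 5 + t ^ 7) * c0 + (t ^ 6) * c1 + (t ^ 5 - t ^ 6) * c5
      - e * c1) ((-t ^ 4 - t ^ 5 + t ^ 6 + t ^ 7) * c0 + (t ^ 4) * c2 - e * c2) ((-t ^ 5 + t ^ 7)
      * c0 + (t ^ 6) * c3 + (t ^ 5 - t ^ 6) * c6 - e * c3) ((-t ^ 4 + t ^ 6) * c0 + (t ^ 4 - t ^
      5) * c2 + (t ^ 6) * c4 - e * c4) ((-t ^ 4 + t ^ 6) * c0 + (t ^ 4) * c5 - e * c5) ((-t ^ 4 +
      t ^ 6) * c0 + (t ^ 4) * c6 - e * c6) ((-t ^ 4 + t ^ 6) * c0 + (t ^ 4 - t ^ 5) * c2 + (t ^ 6)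
      * c7 - e * c7) ((t ^ 3 - 3 * t ^ 4 + t ^ 5 + t ^ 6) * c0 + (-t ^ 3 + 2 * t ^ 4 - t ^ 5) * c5
      + (-t ^ 3 + 2 * t ^ 4 - t ^ 5) * c6 + (t ^ 6) * c8 + (t ^ 3 - t ^ 4 + t ^ 5 - t ^ 6) * c11 -
      e * c8) ((-t ^ 4 + t ^ 5) * c0 + (t ^ 4 - t ^ 5) * c6 + (t ^ 6) * c9 - e * c9) ((-t ^ 4 + t
      ^ 5) * c0 + (t ^ 4 - t ^ 5) * c5 + (t ^ 6) * c10 - e * c10) ((t ^ 2 - 2 * t ^ 3 + t ^ 5) *
      c0 + (-t ^ 2 + t ^ 3) * c5 + (-t ^ 2 + t ^ 3) * c6 + (t ^ 2) * c11 - e * c11) ((t ^ 2 - 2 *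
      t ^ 3 + t ^ 5) * c0 + (-t ^ 2 + 2 * t ^ 3 - t ^ 4) * c2 + (t ^ 6) * c12 + (t ^ 3 - t ^ 4 + t
      ^ 5 - t ^ 6) * c13 - e * c12) ((t - t ^ 2 - t ^ 3 + t ^ 4) * c0 + (-t + t ^ 2) * c2 + (t ^
      2) * c13 - e * c13) := by
  rw [sub_mul, mul_assoc, h.gG, h.gG, smul_mul_assoc, one_mul, L_sub]
  apply L_congr <;> ring

theorem T3.q5 (h : T3 t x y z) :
    (GG t x y z * GG t x y z - (1 : R) • 1) * L x y z (1 : R) (0) (0) (0) (0) (0) (0) (0) (0) (0) (0) (0) (0) (0) =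
      (t - 1) • L x y z (1 + t + t ^ 2 + t ^ 3 + t ^ 4 + t ^ 5 + t ^ 6 + t ^ 7) (t ^ 5 + t ^ 6) (t ^ 4 + 2 *
      t ^ 5 + t ^ 6) (t ^ 5 + t ^ 6) (t ^ 4 + t ^ 5) (t ^ 4 + t ^ 5) (t ^ 4 + t ^ 5) (t ^ 4 + t ^
      5) (-t ^ 3 + 2 * t ^ 4 + t ^ 5) (t ^ 4) (t ^ 4) (-t ^ 2 + t ^ 3 + t ^ 4) (-t ^ 2 + t ^ 3 + t
      ^ 4) (-t + t ^ 3) := by
  rw [h.gZ, L_smul]
  apply L_congr <;> ring

theorem T3.one (h : T3 t x y z) : ∃ T, GG t x y z * GG t x y z = 1 + (t - 1) • T := by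
  have := h.q5
  rw [L_one, mul_one, one_smul, sub_eq_iff_eq_add'] at this
  exact ⟨_, this⟩

theorem T3.quartic (h : T3 t x y z) :
    (GG t x y z * GG t x y z - t ^ 2 • 1) * ((GG t x y z * GG t x y z - t ^ 4 • 1) *
      ((GG t x y z * GG t x y z - t ^ 8 • 1) * (GG t x y z * GG t x y z - t ^ 6 • 1))) = 0 := by
  rw [← mul_one (GG t x y z * GG t x y z - t ^ 6 • 1)]
  conv_lhs => enter [2, 2, 2, 2]; rw [← L_one (R := R) (x := x) (y := y) (z := z)]
  rw [h.gZ, h.gZ, h.gZ, h.gZ, ← L_zero (R := R) (x := x) (y := y) (z := z)]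
  apply L_congr <;> ring

end tl

/-! ### Braid moves in a monoid -/

section mon

variable {G : Type} [Monoid G]

theorem mv1 {a b c d : G} (ab : a * b * a = b * a * b) (ac : Commute a c) (ad : Commute a d) :
    a * b * c * d * a = b * (a * b * c * d) := by
  rw [mul_assoc _ d, ← ad.eq, ← mul_assoc, mul_assoc _ c, ← ac.eq, ← mul_assoc, ab]
  simp only [mul_assoc]

theorem mv2 {a b c d : G} (bc : b * c * b = c * b * c) (ac : Commute a c) (bd : Commute b d) :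
    a * b * c * d * b = c * (a * b * c * d) := by
  rw [mul_assoc _ d, ← bd.eq, ← mul_assoc, mul_assoc a, mul_assoc a, bc, ← mul_assoc, ← mul_assoc,
    ac.eq]
  simp only [mul_assoc]

theorem mv3 {a b c d : G} (cd : c * d * c = d * c * d) (ad : Commute a d) (bd : Commute b d) :
    a * b * c * d * c = d * (a * b * c * d) := by
  rw [mul_assoc (a * b), mul_assoc (a * b), cd, ← mul_assoc, ← mul_assoc, mul_assoc a b d, bd.eq,
    ← mul_assoc, ad.eq]
  simp only [mul_assoc]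

/-- the crossing of two bands -/
def XX (s : ℕ → G) (i : ℕ) : G := s (2 * i + 1) * s (2 * i) * s (2 * i + 2) * s (2 * i + 1)

/-- the braid relations -/
structure Br (s : ℕ → G) : Prop where
  br : ∀ i, s i * s (i + 1) * s i = s (i + 1) * s i * s (i + 1)
  far : ∀ i j, i + 2 ≤ j → Commute (s i) (s j)

theorem cable5 {a b c d e : G} (ab : a * b * a = b * a * b) (bc : b * c * b = c * b * c)
    (cd : c * d * c = d * c * d) (de : d * e * d = e * d * e) (ac : Commute a c) (ad : Commute a d)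
    (ae : Commute a e) (bd : Commute b d) (be : Commute b e) (ce : Commute c e) :
    b * a * c * b * (d * c * e * d) * (b * a * c * b) =
      d * c * e * d * (b * a * c * b) * (d * c * e * d) := by
  have hW : b * a * c * b * (d * c * e * d) = b * c * d * e * (a * b * c * d) := by
    calc b * a * c * b * (d * c * e * d) = b * ((a * c) * ((b * d) * ((c * e) * d))) := by
          simp only [mul_assoc]
      _ = b * (c * ((a * d) * ((b * e) * (c * d)))) := by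
          rw [ac.eq, bd.eq, ce.eq]
          simp only [mul_assoc]
      _ = b * (c * (d * ((a * e) * (b * (c * d))))) := by
          rw [ad.eq, be.eq]
          simp only [mul_assoc]
      _ = _ := by
          rw [ae.eq]
          simp only [mul_assoc]
  have h1 : b * c * d * e * (a * b * c * d) * a = c * (b * c * d * e * (a * b * c * d)) := by
    rw [mul_assoc (b * c * d * e), mv1 ab ac ad, ← mul_assoc, mv1 bc bd be, mul_assoc]
  have h2 : b * c * d * e * (a * b * c * d) * b = d * (b * c * d * e * (a * b * c * d)) := by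
    rw [mul_assoc (b * c * d * e), mv2 bc ac bd, ← mul_assoc, mv2 cd bd ce, mul_assoc]
  have h3 : b * c * d * e * (a * b * c * d) * c = e * (b * c * d * e * (a * b * c * d)) := by
    rw [mul_assoc (b * c * d * e), mv3 cd ad bd, ← mul_assoc, mv3 de be ce, mul_assoc]
  rw [mul_assoc (d * c * e * d), hW]
  generalize b * c * d * e * (a * b * c * d) = W at h1 h2 h3
  rw [← mul_assoc W, ← mul_assoc W, ← mul_assoc W, h2, mul_assoc d W, h1, mul_assoc d, mul_assoc c,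
    h3, mul_assoc d, mul_assoc c, mul_assoc e, h2]
  simp only [mul_assoc]

theorem Br.cable {s : ℕ → G} (h : Br s) : Br (XX s) := by
  refine ⟨fun i => ?_, fun i j hij => ?_⟩
  · exact cable5 (h.br (2 * i)) (h.br (2 * i + 1)) (h.br (2 * i + 2)) (h.br (2 * i + 3))
      (h.far _ _ (by omega)) (h.far _ _ (by omega)) (h.far _ _ (by omega)) (h.far _ _ (by omega))
      (h.far _ _ (by omega)) (h.far _ _ (by omega))
  · unfold XX
    repeat' apply Commute.mul_left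
    all_goals
      repeat' apply Commute.mul_right
      all_goals exact h.far _ _ (by omega)

end mon

section grp

variable {G : Type} [Group G]

/-- the representation of the braid group -/
def rep {s : ℕ → G} (h : Br s) (N : ℕ) : BraidGroup N →* G :=
  PresentedGroup.toGroup (f := fun i : Fin (N - 1) => s i.val) (by
    rintro r (⟨i, j, hij, rfl⟩ | ⟨i, j, hij, rfl⟩)
    · rw [map_mul, map_inv, mul_inv_eq_one]
      simp only [map_mul, FreeGroup.lift_apply_of, ← hij]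
      exact h.br _
    · rw [map_mul, map_inv, mul_inv_eq_one]
      simp only [map_mul, FreeGroup.lift_apply_of]
      exact (h.far _ _ hij).eq)

/-- the value of a letter -/
def opl (s : ℕ → G) (x : ℕ × Bool) : G := if x.2 then s x.1 else (s x.1)⁻¹

/-- the value of a word -/
def op (s : ℕ → G) (w : Word) : G := (w.map (opl s)).prod

theorem op_append (s : ℕ → G) (u v : Word) : op s (u ++ v) = op s u * op s v := by simp [op]

theorem op_cons (s : ℕ → G) (x : ℕ × Bool) (v : Word) : op s (x :: v) = opl s x * op s v := by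
  simp [op]

theorem rep_letter {s : ℕ → G} (h : Br s) {N : ℕ} {x : ℕ × Bool} (hx : x.1 + 1 < N) :
    rep h N (letter N x) = opl s x := by
  have h1 : x.1 < N - 1 := by omega
  have : rep h N (PresentedGroup.of (⟨x.1, h1⟩ : Fin (N - 1))) = s x.1 :=
    PresentedGroup.toGroup.of _
  unfold letter opl
  rw [dif_pos h1]
  split_ifs
  · exact this
  · rw [map_inv, this]

theorem rep_word {s : ℕ → G} (h : Br s) {N : ℕ} {w : Word} (hw : ∀ x ∈ w, x.1 + 1 < N) :
    rep h N (toBraid N w) = op s w := by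
  induction w with
  | nil => exact map_one _
  | cons x w ih =>
    have e : toBraid N (x :: w) = letter N x * toBraid N w := by simp [toBraid]
    rw [e, map_mul, rep_letter h (hw x (by simp)), ih fun y hy => hw y (by simp [hy]), op_cons]

theorem op_cable {s : ℕ → G} (h : Br s) (w : Word) : op s (cable w) = op (XX s) w := by
  induction w with
  | nil => rfl
  | cons x w ih =>
    have e : cable (x :: w) =
      [(2 * x.1 + 1, x.2), (2 * x.1, x.2), (2 * x.1 + 2, x.2), (2 * x.1 + 1, x.2)] ++ cable w := by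
      simp [cable]
    rw [e, op_append, ih, op_cons (XX s)]
    congr 1
    obtain ⟨i, _ | _⟩ := x
    · have := (h.far (2 * i) (2 * i + 2) le_rfl).inv_inv.eq
      simp only [op, opl, XX, List.map_cons, List.map_nil, List.prod_cons, List.prod_nil, mul_one,
        Bool.false_eq_true, if_false, mul_inv_rev]
      rw [← mul_assoc (s (2 * i))⁻¹, this, mul_assoc]
    · simp only [op, opl, XX, List.map_cons, List.map_nil, List.prod_cons, List.prod_nil, mul_one,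
        if_true, mul_assoc]

theorem tw_le_comap {s : ℕ → G} (h : Br s) (N M : ℕ) (F : Subgroup G) [F.Normal]
    (hF : ∀ i, (s i * s i) ^ M ∈ F) : Tw N M ≤ F.comap (rep h N) := by
  refine Subgroup.normalClosure_le_normal ?_
  rintro _ ⟨i, rfl⟩
  simp only [SetLike.mem_coe, Subgroup.mem_comap]
  by_cases hi : i + 1 < N
  · rw [map_pow, rep_letter h (x := (i, true)) hi, pow_mul, pow_two]
    exact hF i
  · have : letter N (i, true) = 1 := dif_neg (by simp only; omega)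
    rw [this, one_pow, map_one]
    exact F.one_mem

theorem der_le_tw (N M : ℕ) : ∀ j, Der N M j ≤ Tw N M
  | 0 => le_rfl
  | j + 1 => (Subgroup.commutator_le_left _ _).trans (der_le_tw N M j)

end grp

/-! ### Congruence subgroups -/

section cong

variable {R : Type} [CommRing R] {𝒜 : Type} [Ring 𝒜] [Algebra R 𝒜]

variable (𝒜) in
/-- the units that are one modulo `c` -/
def Cg (c : R) : Subgroup 𝒜ˣ where
  carrier := {u | ∃ T, (u : 𝒜) = 1 + c • T}
  one_mem' := ⟨0, by simp⟩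
  mul_mem' := by
    rintro u v ⟨T, hT⟩ ⟨S, hS⟩
    refine ⟨T + S + c • (T * S), ?_⟩
    rw [Units.val_mul, hT, hS]
    simp only [add_mul, mul_add, smul_mul_assoc, mul_smul_comm, one_mul, mul_one]
    module
  inv_mem' := by
    rintro u ⟨T, hT⟩
    refine ⟨-(T * (u⁻¹ : 𝒜ˣ)), ?_⟩
    have := u.mul_inv
    rw [hT, add_mul, one_mul, smul_mul_assoc] at this
    rw [smul_neg, ← this, add_neg_cancel_right]

instance (c : R) : (Cg 𝒜 c).Normal := ⟨by
  rintro u ⟨T, hT⟩ g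
  refine ⟨g * T * (g⁻¹ : 𝒜ˣ), ?_⟩
  rw [Units.val_mul, Units.val_mul, hT, mul_add, add_mul, mul_one, g.mul_inv, mul_smul_comm,
    smul_mul_assoc]⟩

theorem Cg.comm (c d : R) : ⁅Cg 𝒜 c, Cg 𝒜 d⁆ ≤ Cg 𝒜 (c * d) := by
  rw [Subgroup.commutator_le]
  rintro u ⟨T, hT⟩ v ⟨S, hS⟩
  refine ⟨(T * S - S * T) * ((u⁻¹ : 𝒜ˣ) * (v⁻¹ : 𝒜ˣ)), ?_⟩
  have h1 : (u : 𝒜) * v = v * u + (c * d) • (T * S - S * T) := by
    rw [hT, hS]
    simp only [add_mul, mul_add, smul_mul_assoc, mul_smul_comm, one_mul, mul_one]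
    module
  rw [commutatorElement_def, Units.val_mul, Units.val_mul, Units.val_mul, h1, mul_assoc, add_mul,
    smul_mul_assoc, mul_assoc, u.mul_inv_cancel_left, v.mul_inv]

theorem der_le_cg {N M : ℕ} (ρ : BraidGroup N →* 𝒜ˣ) (c : R) (h : Tw N M ≤ (Cg 𝒜 c).comap ρ) :
    ∀ j, Der N M j ≤ (Cg 𝒜 (c ^ 2 ^ j)).comap ρ
  | 0 => by rwa [pow_zero, pow_one]
  | j + 1 => by
    have ih := der_le_cg ρ c h j
    rw [← Subgroup.map_le_iff_le_comap] at ih ⊢
    rw [Der, Subgroup.map_commutator, pow_succ, mul_two, pow_add]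
    exact (Subgroup.commutator_mono ih ih).trans (Cg.comm _ _)

end cong

/-! ### Roots of unity -/

open Polynomial in
theorem pow_eq_one {𝒜 : Type} [Ring 𝒜] [Algebra ℂ 𝒜] (Y : 𝒜) (M : ℕ) (a b c d : ℂ)
    (ha : a ^ M = 1) (hb : b ^ M = 1) (hc : c ^ M = 1) (hd : d ^ M = 1) (ab : a ≠ b) (ac : a ≠ c)
    (ad : a ≠ d) (bc : b ≠ c) (bd : b ≠ d) (cd : c ≠ d)
    (h : (Y - a • 1) * ((Y - b • 1) * ((Y - c • 1) * (Y - d • 1))) = 0) : Y ^ M = 1 := by
  have co : ∀ r s : ℂ, r ≠ s → IsCoprime (X - C r : ℂ[X]) (X - C s) := fun r s e =>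
    isCoprime_X_sub_C_of_isUnit_sub (sub_ne_zero.2 e).isUnit
  have dv : ∀ r : ℂ, r ^ M = 1 → (X - C r : ℂ[X]) ∣ X ^ M - 1 := fun r e => by
    rw [dvd_iff_isRoot]
    simp [e]
  obtain ⟨q, hq⟩ : (X - C a) * ((X - C b) * ((X - C c) * (X - C d))) ∣ (X ^ M - 1 : ℂ[X]) :=
    ((co a b ab).mul_right ((co a c ac).mul_right (co a d ad))).mul_dvd (dv a ha)
      (((co b c bc).mul_right (co b d bd)).mul_dvd (dv b hb)
        ((co c d cd).mul_dvd (dv c hc) (dv d hd)))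
  have := congrArg (aeval Y) hq
  simp only [map_sub, map_mul, map_pow, aeval_X, aeval_C, map_one,
    Algebra.algebraMap_eq_smul_one] at this
  rw [h, zero_mul] at this
  exact sub_eq_zero.1 this

/-! ### Matchings -/

/-- involutions without fixed points -/
def Ok (m : ℕ → ℕ) : Prop := ∀ q, m (m q) = q ∧ m q ≠ q

theorem Ok.cup {m : ℕ → ℕ} (h : Ok m) (i : ℕ) : Ok (cup i m) := by
  intro q
  have h1 := h q
  have h2 := h i
  have h3 := h (i + 1)
  unfold Q258D.cup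
  grind

theorem cup_left (i : ℕ) (m : ℕ → ℕ) : cup i m i = i + 1 := if_pos rfl

theorem cup_self {m : ℕ → ℕ} (h : Ok m) {i : ℕ} (e : m i = i + 1) : cup i m = m := by
  funext q
  have h2 := h i
  unfold cup
  grind

theorem cup_up {m : ℕ → ℕ} (h : Ok m) {i : ℕ} (e : m i = i + 1) :
    m (i + 1) ≠ i + 1 + 1 ∧ cup (i + 1) m i ≠ i + 1 ∧ cup i (cup (i + 1) m) = m := by
  have h1 := h i
  have h2 := h (i + 1)
  have h3 := h (i + 1 + 1)
  refine ⟨by grind, by unfold cup; grind, ?_⟩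
  funext q
  have h4 := h q
  unfold cup
  grind

theorem cup_down {m : ℕ → ℕ} (h : Ok m) {i : ℕ} (e : m (i + 1) = i + 1 + 1) :
    m i ≠ i + 1 ∧ cup i m (i + 1) ≠ i + 1 + 1 ∧ cup (i + 1) (cup i m) = m := by
  have h1 := h i
  have h2 := h (i + 1)
  have h3 := h (i + 1 + 1)
  refine ⟨by grind, by unfold cup; grind, ?_⟩
  funext q
  have h4 := h q
  unfold cup
  grind

theorem cup_far {m : ℕ → ℕ} (h : Ok m) {i j : ℕ} (e : i + 2 ≤ j) :
    cup j (cup i m) = cup i (cup j m) := by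
  have h1 := h i
  have h2 := h (i + 1)
  have h3 := h j
  have h4 := h (j + 1)
  funext q
  have h5 := h q
  unfold cup
  grind (splits := 40)

theorem cup_far_wt {m : ℕ → ℕ} (h : Ok m) {i j : ℕ} (e : i + 2 ≤ j) {R : Type} [CommRing R]
    (d : R) : (if m i = i + 1 then d else 1) * (if cup i m j = j + 1 then d else 1) =
      (if m j = j + 1 then d else 1) * (if cup j m i = i + 1 then d else 1) := by
  have h1 := h i
  have h2 := h (i + 1)
  have h3 := h j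
  have h4 := h (j + 1)
  unfold cup
  grind

/-! ### The operators -/

section ops

variable {R : Type} [CommRing R] (A : Rˣ)

/-- matchings -/
abbrev Mat : Type := {m : ℕ → ℕ // Ok m}

/-- the value of a loop -/
def dl : R := -(A : R) ^ 2 - ((A⁻¹ : Rˣ) : R) ^ 2

/-- a cap and a cup -/
def E (i : ℕ) : Module.End R (Mat → R) where
  toFun f m := (if m.1 i = i + 1 then dl A else 1) * f ⟨cup i m.1, m.2.cup i⟩
  map_add' f g := by
    funext m
    simp only [Pi.add_apply, mul_add]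
  map_smul' c f := by
    funext m
    simp only [Pi.smul_apply, smul_eq_mul, RingHom.id_apply, mul_left_comm]

theorem E_apply (i : ℕ) (f : Mat → R) (m : Mat) :
    E A i f m = (if m.1 i = i + 1 then dl A else 1) * f ⟨cup i m.1, m.2.cup i⟩ := rfl

theorem EE (i : ℕ) : E A i * E A i = dl A • E A i := by
  refine LinearMap.ext fun f => funext fun m => ?_
  simp only [Module.End.mul_apply, LinearMap.smul_apply, Pi.smul_apply, smul_eq_mul, E_apply,
    cup_left, if_true, cup_self (m.2.cup i) (cup_left i m.1)]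
  ring

theorem E_up (i : ℕ) : E A i * (E A (i + 1) * E A i) = E A i := by
  refine LinearMap.ext fun f => funext fun m => ?_
  obtain ⟨h1, h2, h3⟩ := cup_up (m.2.cup i) (cup_left i m.1)
  simp only [Module.End.mul_apply, E_apply, if_neg h1, if_neg h2, h3, one_mul]

theorem E_down (i : ℕ) : E A (i + 1) * (E A i * E A (i + 1)) = E A (i + 1) := by
  refine LinearMap.ext fun f => funext fun m => ?_
  obtain ⟨h1, h2, h3⟩ := cup_down (m.2.cup (i + 1)) (cup_left (i + 1) m.1)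
  simp only [Module.End.mul_apply, E_apply, if_neg h1, if_neg h2, h3, one_mul]

theorem E_far {i j : ℕ} (h : i + 2 ≤ j) : E A i * E A j = E A j * E A i := by
  refine LinearMap.ext fun f => funext fun m => ?_
  simp only [Module.End.mul_apply, E_apply, ← mul_assoc, cup_far_wt m.2 h, cup_far m.2 h]

/-- the rescaled generators -/
def F (i : ℕ) : Module.End R (Mat → R) := (A : R) ^ 2 • E A i

theorem FF (i : ℕ) : F A i * F A i = (-(A : R) ^ 4 - 1) • F A i := by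
  have h := A.mul_inv
  simp only [F, smul_mul_assoc, mul_smul_comm, EE, dl]
  match_scalars
  linear_combination (-(A : R) ^ 2 * ((A : R) * (A⁻¹ : Rˣ) + 1)) * h

theorem F2 (i : ℕ) : T2 ((A : R) ^ 4) (F A i) (F A (i + 1)) where
  xx := FF A i
  yy := FF A (i + 1)
  xyx := by
    simp only [F, smul_mul_assoc, mul_smul_comm, E_up]
    module
  yxy := by
    simp only [F, smul_mul_assoc, mul_smul_comm, E_down]
    module

theorem F3 (i : ℕ) : T3 ((A : R) ^ 4) (F A i) (F A (i + 1)) (F A (i + 2)) where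
  xx := FF A i
  yy := FF A (i + 1)
  zz := FF A (i + 2)
  xyx2 := (F2 A i).xyx
  yxy2 := (F2 A i).yxy
  yzy2 := (F2 A (i + 1)).xyx
  zyz2 := (F2 A (i + 1)).yxy
  zx := by simp only [F, smul_mul_assoc, mul_smul_comm, E_far A (le_refl (i + 2))]

/-- a crossing -/
def S (i : ℕ) : (Module.End R (Mat → R))ˣ where
  val := (A : R) • 1 + ((A⁻¹ : Rˣ) : R) • E A i
  inv := ((A⁻¹ : Rˣ) : R) • 1 + (A : R) • E A i
  val_inv := by
    have h := A.mul_inv
    simp only [add_mul, mul_add, smul_mul_assoc, mul_smul_comm, one_mul, mul_one, EE, dl]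
    match_scalars
    · linear_combination h
    · linear_combination (-(A : R) ^ 2 - ((A⁻¹ : Rˣ) : R) ^ 2) * h
  inv_val := by
    have h := A.mul_inv
    simp only [add_mul, mul_add, smul_mul_assoc, mul_smul_comm, one_mul, mul_one, EE, dl]
    match_scalars
    · linear_combination h
    · linear_combination (-(A : R) ^ 2 - ((A⁻¹ : Rˣ) : R) ^ 2) * h

theorem S_val (i : ℕ) :
    (S A i : Module.End R (Mat → R)) = ((A⁻¹ : Rˣ) : R) ^ 3 • ((A : R) ^ 4 • 1 + F A i) := by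
  have h := A.mul_inv
  change (A : R) • 1 + ((A⁻¹ : Rˣ) : R) • E A i = _
  simp only [F]
  match_scalars
  · linear_combination (-(A : R) * (((A : R) * (A⁻¹ : Rˣ)) ^ 2 + (A : R) * (A⁻¹ : Rˣ) + 1)) * h
  · linear_combination (-((A⁻¹ : Rˣ) : R) * ((A : R) * (A⁻¹ : Rˣ) + 1)) * h

theorem brS : Br (S A) := by
  refine ⟨fun i => Units.ext ?_, fun i j h => Units.ext ?_⟩
  · simp only [Units.val_mul, S_val, smul_mul_assoc, mul_smul_comm, mul_assoc, (F2 A i).braid]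
  · simp only [Units.val_mul, S_val, F, add_mul, mul_add, smul_mul_assoc, mul_smul_comm, one_mul,
      mul_one, E_far A h]
    module

theorem X_sq (i : ℕ) : ((XX (S A) i * XX (S A) i : (Module.End R (Mat → R))ˣ) : Module.End R _) =
    ((A⁻¹ : Rˣ) : R) ^ 24 • (GG ((A : R) ^ 4) (F A (2 * i)) (F A (2 * i + 1)) (F A (2 * i + 2)) *
      GG ((A : R) ^ 4) (F A (2 * i)) (F A (2 * i + 1)) (F A (2 * i + 2))) := by
  simp only [XX, GG, Units.val_mul, S_val, smul_mul_assoc, mul_smul_comm, smul_smul]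
  congr 1
  ring

theorem X_cg (i : ℕ) : XX (S A) i * XX (S A) i ∈ Cg (Module.End R (Mat → R)) ((A : R) ^ 4 - 1) := by
  obtain ⟨T, hT⟩ := (F3 A (2 * i)).one
  have h : (A : R) ^ 24 * ((A⁻¹ : Rˣ) : R) ^ 24 = 1 := by rw [← mul_pow, A.mul_inv, one_pow]
  refine ⟨((A⁻¹ : Rˣ) : R) ^ 24 • (T - ((A : R) ^ 20 + (A : R) ^ 16 + (A : R) ^ 12 + (A : R) ^ 8 +
    (A : R) ^ 4 + 1) • 1), ?_⟩
  rw [X_sq, hT]
  match_scalars
  · linear_combination h
  · ring

/-- the restriction to matchings -/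
def res (f : (ℕ → ℕ) → R) : Mat → R := fun m => f m.1

theorem res_fold (w : Word) (f0 : (ℕ → ℕ) → R) :
    res (w.foldr (fun x f m => ((if x.2 then A else A⁻¹ : Rˣ) : R) * f m +
      ((if x.2 then A⁻¹ else A : Rˣ) : R) * close A x.1 f m) f0) =
      (op (S A) w).val (res f0) := by
  induction w with
  | nil => rfl
  | cons x w ih =>
    rw [op_cons, Units.val_mul, Module.End.mul_apply, ← ih, List.foldr_cons]
    obtain ⟨i, _ | _⟩ := x <;> rfl

theorem ok_std : Ok fun q => if q % 2 = 0 then q + 1 else q - 1 := by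
  intro q
  dsimp only
  split_ifs <;> omega

/-- the bracket of a surface is a matrix coefficient -/
theorem bracket_surf (b k : ℕ) : ∃ φ : Module.End R (Mat → R) →ₗ[R] R, ∀ w,
    bracket A b (surf k w) = φ (op (XX (S A)) w : (Module.End R (Mat → R))ˣ) := by
  let f0 : Mat → R := res ((List.range (b - 1)).foldr (fun j => close A (2 * j + 2)) fun _ => 1)
  let P : Module.End R (Mat → R) :=
    (op (S A) (bottom k) * op (XX (S A)) [(2 * k - 1, true), (6 * k - 1, true)] :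
      (Module.End R (Mat → R))ˣ)
  let Q : Module.End R (Mat → R) := (op (S A) (inverse (nest 0 (4 * k))) : (Module.End R _)ˣ)
  refine ⟨⟨⟨fun T => (P * T * Q) f0 ⟨_, ok_std⟩, fun T T' => ?_⟩, fun c T => ?_⟩, fun w => ?_⟩
  · simp only [mul_add, add_mul, LinearMap.add_apply, Pi.add_apply]
  · simp only [mul_smul_comm, smul_mul_assoc, LinearMap.smul_apply, Pi.smul_apply,
      RingHom.id_apply]
  · have h := congrFun (res_fold A (surf k w)
      ((List.range (b - 1)).foldr (fun j => close A (2 * j + 2)) fun _ => 1)) ⟨_, ok_std⟩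
    refine h.trans ?_
    unfold surf
    rw [op_append, op_append, op_cable (brS A), op_append, ← mul_assoc, ← mul_assoc]
    rfl

end ops

theorem X_pow (A : ℂˣ) (M : ℕ) (hM : A ^ (8 * M) = 1) (h16 : A ^ 16 ≠ 1) (h24 : A ^ 24 ≠ 1)
    (i : ℕ) : (XX (S A) i * XX (S A) i) ^ M = 1 := by
  have h8 : A ^ 8 ≠ 1 := fun h => h16 (by rw [show 16 = 8 * 2 from rfl, pow_mul, h, one_pow])
  have ne : ∀ m n : ℤ, A ^ (m - n) ≠ 1 → ((A ^ m : ℂˣ) : ℂ) ≠ (A ^ n : ℂˣ) := fun m n h e =>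
    h (by rw [zpow_sub, Units.ext e, mul_inv_cancel])
  have pw : ∀ m : ℤ, ((A ^ (8 * m) : ℂˣ) : ℂ) ^ M = 1 := fun m => by
    rw [← Units.val_pow_eq_pow_val, ← zpow_natCast, ← zpow_mul, mul_right_comm, zpow_mul]
    norm_cast
    rw [hM, one_zpow, Units.val_one]
  refine Units.ext ?_
  rw [Units.val_pow_eq_pow_val, Units.val_one]
  refine pow_eq_one _ M _ _ _ _ (pw (-2)) (pw (-1)) (pw 1) (pw 0) (ne _ _ ?_).symm (ne _ _ ?_).symm
    (ne _ _ ?_).symm (ne _ _ ?_).symm (ne _ _ ?_).symm (ne _ _ ?_) ?_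
  · exact_mod_cast h8
  · exact_mod_cast h24
  · exact_mod_cast h16
  · exact_mod_cast h16
  · exact_mod_cast h8
  · exact_mod_cast h8
  · have hq := (F3 A (2 * i)).quartic
    rw [X_sq]
    generalize GG ((A : ℂ) ^ 4) (F A (2 * i)) (F A (2 * i + 1)) (F A (2 * i + 2)) *
      GG ((A : ℂ) ^ 4) (F A (2 * i)) (F A (2 * i + 1)) (F A (2 * i + 2)) = Z at hq ⊢
    have key : ∀ (n : ℕ) (m : ℤ), m = 4 * n - 24 →
        ((A⁻¹ : ℂˣ) : ℂ) ^ 24 • Z - ((A ^ m : ℂˣ) : ℂ) • 1 =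
          ((A⁻¹ : ℂˣ) : ℂ) ^ 24 • (Z - ((A : ℂ) ^ 4) ^ n • 1) := by
      rintro n m rfl
      rw [smul_sub, smul_smul, zpow_sub, mul_comm (A ^ (4 * n : ℤ)), ← pow_mul]
      norm_cast
    rw [key 2 _ (by norm_num), key 4 _ (by norm_num), key 8 _ (by norm_num), key 6 _ (by norm_num)]
    simp only [smul_mul_assoc, mul_smul_comm, hq, smul_zero]

end RJ

open RJ in
theorem rowJ : RowJ := by
  rintro k M j w0 w h0 ⟨h1, h2⟩
  refine ⟨fun R _ A => ?_, fun A hM h16 h24 => ?_⟩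
  · obtain ⟨φ, hφ⟩ := bracket_surf A (8 * k) k
    have hb := (brS A).cable
    obtain ⟨T, hT⟩ := der_le_cg (rep hb (8 * k)) _
      (tw_le_comap hb (8 * k) M _ fun i => Subgroup.pow_mem _ (X_cg A i) M) (j + 1) h2
    rw [map_mul, map_inv, rep_word hb h0, rep_word hb h1, Units.val_mul, Units.inv_mul_eq_iff_eq_mul,
      mul_add, mul_one, mul_smul_comm] at hT
    rw [hφ, hφ, hT, map_add, add_sub_cancel_left, map_smul]
    exact dvd_mul_right _ _
  · obtain ⟨φ, hφ⟩ := bracket_surf A (8 * k) k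
    have hb := (brS A).cable
    have := tw_le_comap hb (8 * k) M ⊥ (fun i => X_pow A M hM h16 h24 i) (der_le_tw _ _ _ h2)
    rw [Subgroup.mem_comap, Subgroup.mem_bot, map_mul, map_inv, rep_word hb h0, rep_word hb h1,
      inv_mul_eq_one] at this
    rw [hφ, hφ, this]

end Vale.Agent.Q258D
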