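import Vale.Agent.Q258D.RowsJ

/-!
# The Kauffman bracket of the standard surface
-/

set_option linter.all false

namespace Vale.Agent.Q258D

open Vale.Agent.P258.Braid Vale.Agent.N258B

namespace J0

/-- matchings -/
def Mt (m : ℕ → ℕ) : Prop := ∀ q, m (m q) = q ∧ m q ≠ q

theorem mt_cup {m} (h : Mt m) (i : ℕ) : Mt (cup i m) := by
  intro q
  have h1 := h q
  have h2 := h i
  have h3 := h (i + 1)
  unfold cup
  grind

theorem cup_fix {m} (h : Mt m) {i : ℕ} (e : m i = i + 1) : cup i m = m := by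
  funext q
  have h1 := h q
  have h2 := h i
  have h3 := h (i + 1)
  unfold cup
  grind

theorem cup_zig {m} (h : Mt m) {i : ℕ} (e : m (i + 1) = i + 2) : cup (i + 1) (cup i m) = m := by
  funext q
  have h1 := h q
  have h2 := h i
  have h3 := h (i + 1)
  unfold cup
  grind

theorem cup_comm {m} (h : Mt m) {i j : ℕ} (e : i + 2 ≤ j) :
    cup i (cup j m) = cup j (cup i m) := by
  funext q
  have h1 := h q
  have h2 := h i
  have h3 := h (i + 1)
  have h4 := h j
  have h5 := h (j + 1)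
  unfold cup
  grind (splits := 40)

theorem coef_comm {m} (h : Mt m) {i j : ℕ} (e : i + 2 ≤ j) {R : Type} [CommRing R] (d : R) :
    (if m i = i + 1 then d else 1) * (if cup i m j = j + 1 then d else 1) =
    (if m j = j + 1 then d else 1) * (if cup j m i = i + 1 then d else 1) := by
  have h2 := h i
  have h3 := h (i + 1)
  have h4 := h j
  have h5 := h (j + 1)
  unfold cup
  grind

theorem cup_mv {m} (h : Mt m) {i c : ℕ} (e : m i = c) (hc : c ≠ i + 1) (q : ℕ) (h1 : q ≠ i)
    (h2 : q ≠ c) : cup i m (if q = i + 1 then c else q) = if m q = i + 1 then c else m q := by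
  have h1 := h q
  have h2 := h i
  have h3 := h (i + 1)
  unfold cup
  grind

theorem cup_self (i : ℕ) (m : ℕ → ℕ) : cup i m i = i + 1 := by simp [cup]

theorem cup_succ (i : ℕ) (m : ℕ → ℕ) : cup i m (i + 1) = i := by simp [cup]

theorem cup_far {i q : ℕ} {m : ℕ → ℕ} (h1 : q ≠ i) (h2 : q ≠ i + 1) (h3 : q ≠ m i)
    (h4 : q ≠ m (i + 1)) : cup i m q = m q := by simp [cup, h1, h2, h3, h4]

variable {R : Type} [CommRing R] (A : Rˣ)

/-- the value of a loop -/
def dl : R := -(A : R) ^ 2 - ((A⁻¹ : Rˣ) : R) ^ 2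

/-- one crossing -/
def op (x : ℕ × Bool) (f : (ℕ → ℕ) → R) (m : ℕ → ℕ) : R :=
  ((if x.2 then A else A⁻¹ : Rˣ) : R) * f m + ((if x.2 then A⁻¹ else A : Rˣ) : R) * close A x.1 f m

/-- a word -/
def W (w : Word) (f : (ℕ → ℕ) → R) : (ℕ → ℕ) → R := w.foldr (op A) f

/-- several caps -/
def Cl (c : List ℕ) (f : (ℕ → ℕ) → R) : (ℕ → ℕ) → R := c.foldr (close A) f

/-- the standard matching -/
def std (q : ℕ) : ℕ := if q % 2 = 0 then q + 1 else q - 1

theorem bracket_eq (b : ℕ) (w : Word) : bracket A b w =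
    W A w (Cl A ((List.range (b - 1)).map fun j => 2 * j + 2) fun _ => 1) std := by
  rw [Cl, List.foldr_map]
  rfl

theorem W_append (u v : Word) (f : (ℕ → ℕ) → R) : W A (u ++ v) f = W A u (W A v f) :=
  List.foldr_append

theorem Cl_append (u v : List ℕ) (f : (ℕ → ℕ) → R) : Cl A (u ++ v) f = Cl A u (Cl A v f) :=
  List.foldr_append

theorem close_eq (i : ℕ) (f : (ℕ → ℕ) → R) (m : ℕ → ℕ) :
    close A i f m = (if m i = i + 1 then dl A else 1) * f (cup i m) := rfl

theorem ab (e : Bool) : ((if e then A else A⁻¹ : Rˣ) : R) * ((if e then A⁻¹ else A : Rˣ) : R) = 1 ∧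
    dl A = -((if e then A else A⁻¹ : Rˣ) : R) ^ 2 - ((if e then A⁻¹ else A : Rˣ) : R) ^ 2 := by
  cases e
  · simp [dl]
    ring
  · simp [dl]

/-- equality on matchings -/
def Ev (f g : (ℕ → ℕ) → R) : Prop := ∀ m, Mt m → f m = g m

theorem Ev.close {f g : (ℕ → ℕ) → R} (h : Ev f g) (i : ℕ) : Ev (close A i f) (close A i g) :=
  fun m hm => by rw [close_eq, close_eq, h _ (mt_cup hm i)]

theorem Ev.op {f g : (ℕ → ℕ) → R} (h : Ev f g) (x : ℕ × Bool) : Ev (op A x f) (op A x g) :=
  fun m hm => by rw [J0.op, J0.op, h m hm, h.close A _ m hm]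

theorem Ev.W {f g : (ℕ → ℕ) → R} (h : Ev f g) (w : Word) : Ev (W A w f) (W A w g) := by
  induction w with
  | nil => exact h
  | cons x w ih => exact ih.op A x

theorem Ev.Cl {f g : (ℕ → ℕ) → R} (h : Ev f g) (c : List ℕ) : Ev (Cl A c f) (Cl A c g) := by
  induction c with
  | nil => exact h
  | cons x w ih => exact ih.close A x

theorem Ev.trans {f g k : (ℕ → ℕ) → R} (h : Ev f g) (h' : Ev g k) : Ev f k :=
  fun m hm => (h m hm).trans (h' m hm)

theorem Ev.symm {f g : (ℕ → ℕ) → R} (h : Ev f g) : Ev g f := fun m hm => (h m hm).symm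

theorem close_comm {i j : ℕ} (e : i + 2 ≤ j) (f : (ℕ → ℕ) → R) :
    Ev (close A i (close A j f)) (close A j (close A i f)) := fun m hm => by
  simp only [close_eq]
  rw [cup_comm hm e, ← mul_assoc, ← mul_assoc, coef_comm hm e]

theorem Cl_comm (c : List ℕ) {j : ℕ} (e : ∀ i ∈ c, i + 2 ≤ j) (f : (ℕ → ℕ) → R) :
    Ev (Cl A c (close A j f)) (close A j (Cl A c f)) := by
  induction c with
  | nil => exact fun _ _ => rfl
  | cons x c ih =>
    exact ((ih fun i hi => e i (by simp [hi])).close A x).trans (close_comm A (e x (by simp)) _)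

/-- a strand passes a cap at the bottom -/
theorem pass {m} (h : Mt m) {i : ℕ} (e : m (i + 1) = i + 2) (s : Bool) (f : (ℕ → ℕ) → R) :
    W A [(i, s), (i + 1, s)] f m = f (cup i m) := by
  obtain ⟨h1, h2⟩ := ab A s
  have n1 : m i ≠ i + 1 := fun k => by
    have := (h i).1
    rw [k, e] at this
    omega
  have n2 : ¬ (i = i + 1 + 1) := by omega
  simp only [W, List.foldr, op, close_eq, if_neg n1, if_pos e, cup_fix h e, cup_zig h e, cup_succ,
    if_neg n2, h2]
  linear_combination (f (cup i m) - ((if s then A else A⁻¹ : Rˣ) : R) ^ 2 * f m -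
    ((if s then A⁻¹ else A : Rˣ) : R) ^ 2 * f m) * h1

/-- a strand passes a cap at the top -/
theorem pass_top (i : ℕ) (s : Bool) (f : (ℕ → ℕ) → R) :
    Ev (W A [(i + 1, s), (i, s)] (close A (i + 1) f)) (close A i (close A (i + 1) f)) := by
  intro m h
  obtain ⟨h1, h2⟩ := ab A s
  have h' := mt_cup h (i + 1)
  have e : cup (i + 1) m (i + 1) = i + 2 := cup_self _ _
  have n1 : cup (i + 1) m i ≠ i + 1 := fun k => by
    have := (h' i).1
    rw [k, e] at this
    omega
  have n2 : ¬ (i = i + 1 + 1) := by omega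
  have k1 : op A (i, s) (close A (i + 1) f) (cup (i + 1) m) =
      (((if s then A else A⁻¹ : Rˣ) : R) * dl A + ((if s then A⁻¹ else A : Rˣ) : R)) *
        f (cup (i + 1) m) := by
    simp only [op, close_eq, if_neg n1, if_pos e, cup_fix h' e, cup_zig h' e, cup_succ, if_neg n2]
    ring
  have k2 : op A (i, s) (close A (i + 1) f) m =
      ((if s then A else A⁻¹ : Rˣ) : R) * close A (i + 1) f m +
        ((if s then A⁻¹ else A : Rˣ) : R) * close A i (close A (i + 1) f) m := rfl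
  have k3 : W A [(i + 1, s), (i, s)] (close A (i + 1) f) m =
      ((if s then A else A⁻¹ : Rˣ) : R) * op A (i, s) (close A (i + 1) f) m +
        ((if s then A⁻¹ else A : Rˣ) : R) * ((if m (i + 1) = i + 1 + 1 then dl A else 1) *
          op A (i, s) (close A (i + 1) f) (cup (i + 1) m)) := rfl
  rw [k3, k1, k2, close_eq A (i + 1) f m]
  generalize (if m (i + 1) = i + 1 + 1 then dl A else 1) = c
  rw [h2]
  linear_combination (close A i (close A (i + 1) f) m -
    ((if s then A else A⁻¹ : Rˣ) : R) ^ 2 * c * f (cup (i + 1) m) -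
    ((if s then A⁻¹ else A : Rˣ) : R) ^ 2 * c * f (cup (i + 1) m)) * h1

/-! ### the bottom -/

/-- the word `u` moves `m` to `m'` -/
def Mv (u : Word) (m m' : ℕ → ℕ) : Prop := Mt m' ∧ ∀ f : (ℕ → ℕ) → R, W A u f m = f m'

theorem Mv.app {u v : Word} {m m' m''} (h : Mv A u m m') (h' : Mv A v m' m'') :
    Mv A (u ++ v) m m'' := ⟨h'.1, fun f => by rw [W_append, h.2, h'.2]⟩

theorem slide_mv {m} (h : Mt m) (c : ℕ) (e : m c = c + 1) (n : ℕ)
    (e' : ∀ j < n, m (c + 2 + 2 * j) = c + 3 + 2 * j) : ∃ m', Mv A (slide (c + 1) (2 * n)) m m' ∧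
      m' c = c + 1 + 2 * n ∧ (∀ j < n, m' (c + 1 + 2 * j) = c + 2 + 2 * j) ∧
      ∀ q, q < c ∨ c + 1 + 2 * n < q → m' q = m q := by
  induction n with
  | zero => exact ⟨m, ⟨h, fun f => rfl⟩, e, fun j hj => absurd hj (by omega), fun _ _ => rfl⟩
  | succ n ih =>
    obtain ⟨m', h1, h2, h3, h4⟩ := ih fun j hj => e' j (by omega)
    have s1 : slide (c + 1) (2 * (n + 1)) =
        slide (c + 1) (2 * n) ++ [(c + 1 + 2 * n, false), (c + 1 + 2 * n + 1, false)] := by
      simp [slide, Nat.mul_succ, List.range_succ, add_assoc]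
    have k1 : m' (c + 1 + 2 * n + 1) = c + 1 + 2 * n + 2 := by
      rw [h4 _ (by omega), show c + 1 + 2 * n + 1 = c + 2 + 2 * n by omega, e' n (by omega)]
      omega
    have k2 : m' (c + 1 + 2 * n) = c := by rw [← h2, (h1.1 c).1]
    refine ⟨cup (c + 1 + 2 * n) m', s1 ▸ h1.app A ⟨mt_cup h1.1 _, pass A h1.1 k1 false⟩, ?_,
      fun j hj => ?_, fun q hq => ?_⟩
    · simp only [cup, k1, k2]
      rw [if_neg (by omega), if_neg (by omega), if_pos trivial]
      omega
    · rcases Nat.lt_succ_iff_lt_or_eq.1 hj with hj | rfl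
      · rw [cup_far (by omega) (by omega) (by omega) (by omega), h3 j hj]
      · rw [cup_self]
        omega
    · rw [cup_far (by omega) (by omega) (by omega) (by omega), h4 q (by omega)]

/-- the inner bands of a block -/
def Inn (n B : ℕ) (m : ℕ → ℕ) : Prop :=
  ∀ i < n, m (B + 2 + 4 * i) = B + 5 + 4 * i ∧ m (B + 3 + 4 * i) = B + 4 + 4 * i

theorem nest_mv {m} (h : Mt m) (B n : ℕ) (e : ∀ j < 2 * n, m (B + 2 + 2 * j) = B + 3 + 2 * j) :
    ∃ m', Mv A (nest (B + 2) n) m m' ∧ Inn n B m' ∧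
      ∀ q, q < B + 2 ∨ B + 2 + 4 * n ≤ q → m' q = m q := by
  induction n with
  | zero => exact ⟨m, ⟨h, fun f => rfl⟩, fun j hj => absurd hj (by omega), fun _ _ => rfl⟩
  | succ n ih =>
    obtain ⟨m', h1, h2, h3⟩ := ih fun j hj => e j (by omega)
    have s1 : nest (B + 2) (n + 1) = nest (B + 2) n ++ slide (B + 2 + 4 * n + 1) (2 * 1) := by
      simp [nest, List.range_succ]
    have k1 : m' (B + 2 + 4 * n) = B + 2 + 4 * n + 1 := by
      rw [h3 _ (by omega), show B + 2 + 4 * n = B + 2 + 2 * (2 * n) by omega, e _ (by omega)]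
      omega
    have k2 : m' (B + 2 + 4 * n + 2) = B + 2 + 4 * n + 3 := by
      rw [h3 _ (by omega), show B + 2 + 4 * n + 2 = B + 2 + 2 * (2 * n + 1) by omega,
        e _ (by omega)]
      omega
    obtain ⟨m'', g1, g2, g3, g4⟩ := slide_mv A h1.1 (B + 2 + 4 * n) k1 1 fun j hj => by
      rw [show j = 0 by omega]
      exact k2
    refine ⟨m'', s1 ▸ h1.app A g1, fun i hi => ?_, fun q hq => ?_⟩
    · rcases Nat.lt_succ_iff_lt_or_eq.1 hi with hi | rfl
      · rw [g4 _ (by omega), g4 _ (by omega)]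
        exact h2 i hi
      · have := g3 0 one_pos
        constructor
        · omega
        · rw [show B + 3 + 4 * i = B + 2 + 4 * i + 1 + 2 * 0 by omega, this]
          omega
    · rw [g4 q (by omega), h3 q (by omega)]

theorem block_mv {m} (h : Mt m) (B n : ℕ) (e : ∀ j ≤ 2 * n, m (B + 1 + 2 * j) = B + 2 + 2 * j) :
    ∃ m', Mv A (slide (B + 2) (4 * n) ++ nest (B + 2) n) m m' ∧ Inn n B m' ∧
      m' (B + 1) = B + 4 * n + 2 ∧ ∀ q, q ≤ B ∨ B + 4 * n + 3 ≤ q → m' q = m q := by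
  obtain ⟨m1, h1, h2, h3, h4⟩ := slide_mv A h (B + 1) (e 0 (by omega)) (2 * n) fun j hj => by
    rw [show B + 1 + 2 + 2 * j = B + 1 + 2 * (j + 1) by omega, e _ (by omega)]
    omega
  obtain ⟨m2, g1, g2, g3⟩ := nest_mv A h1.1 B n fun j hj => h3 j hj
  refine ⟨m2, ?_, g2, ?_, fun q hq => ?_⟩
  · rw [show 4 * n = 2 * (2 * n) by omega]
    exact h1.app A g1
  · rw [g3 _ (by omega), h2]
    omega
  · rw [g3 _ (by omega), h4 _ (by omega)]

theorem mt_std : Mt std := by
  intro q
  simp only [std]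
  constructor <;> split_ifs <;> omega

theorem Inn.congr {n B : ℕ} {m m' : ℕ → ℕ} (h : Inn n B m)
    (e : ∀ q, B + 2 ≤ q → q < B + 4 * n + 2 → m' q = m q) : Inn n B m' := fun i hi => by
  rw [e _ (by omega) (by omega), e _ (by omega) (by omega)]
  exact h i hi

theorem bottom_mv (n : ℕ) : ∃ m, Mv A (bottom (n + 1)) std m ∧ Inn n 0 m ∧ Inn n (4 * n + 4) m ∧
    Inn n (8 * n + 8) m ∧ Inn n (12 * n + 12) m ∧ m 0 = 16 * n + 15 ∧ m 1 = 4 * n + 2 ∧
    m (4 * n + 3) = 4 * n + 4 ∧ m (4 * n + 5) = 8 * n + 6 ∧ m (8 * n + 7) = 8 * n + 8 ∧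
    m (8 * n + 9) = 12 * n + 10 ∧ m (12 * n + 11) = 12 * n + 12 ∧
    m (12 * n + 13) = 16 * n + 14 := by
  obtain ⟨m, h1, h2, h3, -⟩ := slide_mv A mt_std 0 rfl (8 * n + 7) fun j hj => by
    simp only [std]
    split_ifs <;> omega
  have k : ∀ q, q % 2 = 1 → q < 16 * n + 14 → m q = q + 1 := fun q h h' => by
    rw [show q = 0 + 1 + 2 * (q / 2) by omega, h3 _ (by omega)]
    omega
  obtain ⟨m0, a1, a2, a3, a4⟩ := block_mv A h1.1 0 n fun j hj => by
    rw [k _ (by omega) (by omega)]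
    omega
  obtain ⟨m1, b1, b2, b3, b4⟩ := block_mv A a1.1 (4 * n + 4) n fun j hj => by
    rw [a4 _ (by omega), k _ (by omega) (by omega)]
    omega
  obtain ⟨m2, c1, c2, c3, c4⟩ := block_mv A b1.1 (8 * n + 8) n fun j hj => by
    rw [b4 _ (by omega), a4 _ (by omega), k _ (by omega) (by omega)]
    omega
  obtain ⟨m3, d1, d2, d3, d4⟩ := block_mv A c1.1 (12 * n + 12) n fun j hj => by
    rw [c4 _ (by omega), b4 _ (by omega), a4 _ (by omega), k _ (by omega) (by omega)]
    omega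
  have s : bottom (n + 1) = slide (0 + 1) (2 * (8 * n + 7)) ++
      ((slide (0 + 2) (4 * n) ++ nest (0 + 2) n) ++
      ((slide (4 * n + 4 + 2) (4 * n) ++ nest (4 * n + 4 + 2) n) ++
      ((slide (8 * n + 8 + 2) (4 * n) ++ nest (8 * n + 8 + 2) n) ++
      (slide (12 * n + 12 + 2) (4 * n) ++ nest (12 * n + 12 + 2) n)))) := by
    have r : List.range 4 = [0, 1, 2, 3] := rfl
    simp only [bottom, r, List.flatMap_cons, List.flatMap_nil, List.append_nil]
    rw [show 16 * (n + 1) - 2 = 2 * (8 * n + 7) by omega, show 4 * (n + 1) - 4 = 4 * n by omega,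
      show n + 1 - 1 = n by omega, show 4 * (n + 1) * 0 = 0 by omega,
      show 4 * (n + 1) * 1 = 4 * n + 4 by omega, show 4 * (n + 1) * 2 = 8 * n + 8 by omega,
      show 4 * (n + 1) * 3 = 12 * n + 12 by omega]
  refine ⟨m3, s ▸ h1.app A (a1.app A (b1.app A (c1.app A d1))), a2.congr fun q q1 q2 => ?_,
    b2.congr fun q q1 q2 => ?_, c2.congr fun q q1 q2 => ?_, d2, ?_, ?_, ?_, ?_, ?_, ?_, ?_, ?_⟩
  · rw [d4 _ (by omega), c4 _ (by omega), b4 _ (by omega)]
  · rw [d4 _ (by omega), c4 _ (by omega)]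
  · rw [d4 _ (by omega)]
  · rw [d4 _ (by omega), c4 _ (by omega), b4 _ (by omega), a4 _ (by omega), h2]
    omega
  · rw [d4 _ (by omega), c4 _ (by omega), b4 _ (by omega), a3]
    omega
  · rw [d4 _ (by omega), c4 _ (by omega), b4 _ (by omega), a4 _ (by omega),
      k _ (by omega) (by omega)]
  · rw [d4 _ (by omega), c4 _ (by omega), b3]
    omega
  · rw [d4 _ (by omega), c4 _ (by omega), b4 _ (by omega), a4 _ (by omega),
      k _ (by omega) (by omega)]
  · rw [d4 _ (by omega), c3]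
    omega
  · rw [d4 _ (by omega), c4 _ (by omega), b4 _ (by omega), a4 _ (by omega),
      k _ (by omega) (by omega)]
  · rw [d3]
    omega

/-! ### the top -/

/-- the caps of the groups `0, …, N` -/
def gg : ℕ → List ℕ
  | 0 => [1, 2]
  | N + 1 => [4 * N + 5, 4 * N + 6, 4 * N + 4] ++ gg N

theorem gg_le (N : ℕ) : ∀ i ∈ gg N, i ≤ 4 * N + 2 := by
  induction N with
  | zero => simp [gg]
  | succ N ih =>
    intro i hi
    simp only [gg, List.cons_append, List.nil_append, List.mem_cons] at hi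
    rcases hi with rfl | rfl | rfl | hi
    · omega
    · omega
    · omega
    · have := ih i hi
      omega

theorem top_ev (N : ℕ) : ∀ f : (ℕ → ℕ) → R,
    Ev (W A (inverse (nest 0 (N + 1))) (Cl A ((List.range (2 * N + 1)).map fun j => 2 * j + 2) f))
      (Cl A (gg N) f) := by
  induction N with
  | zero => exact fun f => pass_top A 1 true f
  | succ N ih =>
    intro f
    have s1 : inverse (nest 0 (N + 1 + 1)) =
        [(4 * N + 5 + 1, true), (4 * N + 5, true)] ++ inverse (nest 0 (N + 1)) := by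
      rw [nest, List.range_succ, List.flatMap_append, ← nest]
      simp [inverse, slide, List.range_succ]
      omega
    have s2 : ((List.range (2 * (N + 1) + 1)).map fun j => 2 * j + 2) =
        ((List.range (2 * N + 1)).map fun j => 2 * j + 2) ++ [4 * N + 4, 4 * N + 5 + 1] := by
      rw [show 2 * (N + 1) + 1 = 2 * N + 1 + 1 + 1 by omega, List.range_succ, List.range_succ]
      simp
      omega
    rw [s1, s2, W_append, Cl_append]
    refine ((ih _).W A _).trans ?_
    have e1 := Cl_comm A (gg N) (j := 4 * N + 4) (fun i hi => by have := gg_le N i hi; omega)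
      (close A (4 * N + 5 + 1) f)
    have e2 := (Cl_comm A (gg N) (j := 4 * N + 5 + 1) (fun i hi => by have := gg_le N i hi; omega)
      f).close A (4 * N + 4)
    have e3 := close_comm A (i := 4 * N + 4) (j := 4 * N + 5 + 1) (by omega) (Cl A (gg N) f)
    exact (((e1.trans e2).trans e3).W A _).trans (pass_top A _ true _)

/-- the caps of the groups of a block, except the first -/
def gl (B : ℕ) : ℕ → List ℕ
  | 0 => []
  | n + 1 => [B + 4 * n + 5, B + 4 * n + 6, B + 4 * n + 4] ++ gl B n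

theorem gg_add (M n : ℕ) : gg (M + n) = gl (4 * M) n ++ gg M := by
  induction n with
  | zero => rfl
  | succ n ih => rw [← add_assoc, gg, ih, gl, mul_add, List.append_assoc]

/-- the ends of the last band move to the second place -/
def sg (n B q : ℕ) : ℕ :=
  if q = B + 4 * n + 2 then B + 2 else if q = B + 4 * n + 3 then B + 3 else q

theorem step3 {m} (h : Mt m) (c : ℕ) (e1 : m c = c + 3) (e2 : m (c + 1) = c + 2) :
    ∃ m', Mt m' ∧ (∀ f : (ℕ → ℕ) → R, Cl A [c + 3, c + 4, c + 2] f m = f m') ∧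
      ∀ q, q < c ∨ c + 4 ≤ q → m' (if q = c + 4 then c else if q = c + 5 then c + 1 else q) =
        if m q = c + 4 then c else if m q = c + 5 then c + 1 else m q := by
  have a1 : m (c + 3) = c := by rw [← e1, (h c).1]
  have a2 : m (c + 2) = c + 1 := by rw [← e2, (h _).1]
  have h1 := mt_cup h (c + 3)
  have h2 := mt_cup h1 (c + 4)
  have t1 := cup_mv h a1 (by omega)
  have b1 : cup (c + 3) m (c + 4) = c + 3 := cup_succ _ _
  have t2 := cup_mv h1 b1 (by omega)
  have b2 : cup (c + 4) (cup (c + 3) m) (c + 2) = c + 1 := by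
    have u1 := t1 (c + 2) (by omega) (by omega)
    rw [if_neg (by omega), a2, if_neg (by omega)] at u1
    have u2 := t2 (c + 2) (by omega) (by omega)
    rwa [if_neg (by omega), u1, if_neg (by omega)] at u2
  have t3 := cup_mv h2 b2 (by omega)
  refine ⟨_, mt_cup h2 (c + 2), fun f => ?_, fun q hq => ?_⟩
  · simp only [Cl, List.foldr, close_eq, a1, b1, b2]
    rw [if_neg (by omega), if_neg (by omega), if_neg (by omega), one_mul, one_mul, one_mul]
  · have hm : m q < c ∨ c + 4 ≤ m q := by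
      by_contra hc
      have := (h q).1
      have : m q = c ∨ m q = c + 1 ∨ m q = c + 2 ∨ m q = c + 3 := by omega
      rcases this with k | k | k | k <;> rw [k] at this <;> omega
    have u1 := t1 q (by omega) (by omega)
    have u2 := t2 (if q = c + 3 + 1 then c else q) (by split_ifs <;> omega)
      (by split_ifs <;> omega)
    rw [u1] at u2
    have u3 := t3 (if (if q = c + 3 + 1 then c else q) = c + 4 + 1 then c + 3 else
      if q = c + 3 + 1 then c else q) (by split_ifs <;> omega) (by split_ifs <;> omega)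
    rw [u2] at u3
    refine Eq.trans (congrArg _ ?_) (u3.trans ?_) <;> split_ifs <;> omega

theorem contr (B n : ℕ) : ∀ {m}, Mt m → Inn n B m →
    ∃ m', Mt m' ∧ (∀ f : (ℕ → ℕ) → R, Cl A (gl B n) f m = f m') ∧
      ∀ q, q < B + 2 ∨ B + 4 * n + 2 ≤ q → m' (sg n B q) = sg n B (m q) := by
  induction n with
  | zero =>
    intro m h _
    refine ⟨m, h, fun f => rfl, fun q _ => ?_⟩
    have : ∀ q, sg 0 B q = q := fun q => by
      simp only [sg]
      split_ifs <;> omega
    rw [this, this]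
  | succ n ih =>
    intro m h hi
    obtain ⟨e1, e2⟩ := hi n (by omega)
    obtain ⟨m1, a1, a2, a3⟩ := step3 A h (B + 4 * n + 2)
      (by rw [show B + 4 * n + 2 = B + 2 + 4 * n by omega, e1]; omega)
      (by rw [show B + 4 * n + 2 + 1 = B + 3 + 4 * n by omega, e2]; omega)
    have hi1 : Inn n B m1 := fun i hi' => by
      obtain ⟨k1, k2⟩ := hi i (by omega)
      have u1 := a3 (B + 2 + 4 * i) (by omega)
      have u2 := a3 (B + 3 + 4 * i) (by omega)
      rw [if_neg (by omega), if_neg (by omega), k1, if_neg (by omega), if_neg (by omega)] at u1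
      rw [if_neg (by omega), if_neg (by omega), k2, if_neg (by omega), if_neg (by omega)] at u2
      exact ⟨u1, u2⟩
    obtain ⟨m2, b1, b2, b3⟩ := ih a1 hi1
    refine ⟨m2, b1, fun f => ?_, fun q hq => ?_⟩
    · rw [gl, Cl_append, ← b2 f]
      exact a2 _
    · have hm : m q < B + 2 ∨ B + 4 * (n + 1) + 2 ≤ m q := by
        by_contra hc
        have k0 := (h q).1
        obtain ⟨k1, k2⟩ := hi ((m q - B - 2) / 4) (by omega)
        have k3 := (h (B + 2 + 4 * ((m q - B - 2) / 4))).1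
        have k4 := (h (B + 3 + 4 * ((m q - B - 2) / 4))).1
        rw [k1] at k3
        rw [k2] at k4
        have : m q = B + 2 + 4 * ((m q - B - 2) / 4) ∨ m q = B + 3 + 4 * ((m q - B - 2) / 4) ∨
          m q = B + 4 + 4 * ((m q - B - 2) / 4) ∨ m q = B + 5 + 4 * ((m q - B - 2) / 4) := by omega
        generalize (m q - B - 2) / 4 = i at *
        rcases this with k | k | k | k <;> rw [k] at k0 <;> omega
      have u1 := a3 q (by omega)
      have u2 := b3 (if q = B + 4 * n + 2 + 4 then B + 4 * n + 2 else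
        if q = B + 4 * n + 2 + 5 then B + 4 * n + 2 + 1 else q) (by split_ifs <;> omega)
      rw [u1] at u2
      refine Eq.trans (congrArg _ ?_) (u2.trans ?_) <;> simp only [sg] <;> split_ifs <;> omega

/-! ### comparison with the smallest diagram -/

/-- `m` looks like `s` at the points `τ r` -/
def SS (n : ℕ) (τ : ℕ → ℕ) (Bs : List ℕ) (m s : ℕ → ℕ) : Prop :=
  Mt m ∧ (∀ B ∈ Bs, Inn n B m) ∧ ∀ r < 16, s r < 16 ∧ m (τ r) = τ (s r)

/-- good positions -/
def Gd (n : ℕ) (τ : ℕ → ℕ) (Bs : List ℕ) : Prop :=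
  (∀ r < 16, ∀ r' < 16, τ r = τ r' → r = r') ∧
    ∀ B ∈ Bs, ∀ r < 16, τ r < B + 2 ∨ B + 4 * n + 2 ≤ τ r

/-- corresponding functionals -/
def Rel (n : ℕ) (τ : ℕ → ℕ) (Bs : List ℕ) (f g : (ℕ → ℕ) → R) : Prop :=
  ∀ m s, SS n τ Bs m s → f m = g s

theorem ss_cup {n τ Bs m s} (G : Gd n τ Bs) (h : SS n τ Bs m s) {p i : ℕ} (hp : p + 1 < 16)
    (e1 : τ p = i) (e2 : τ (p + 1) = i + 1) :
    SS n τ Bs (cup i m) (cup p s) ∧ (m i = i + 1 ↔ s p = p + 1) := by
  obtain ⟨h1, h2, h3⟩ := h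
  obtain ⟨a1, a2⟩ := h3 p (by omega)
  obtain ⟨b1, b2⟩ := h3 (p + 1) hp
  rw [e1] at a2
  rw [e2] at b2
  refine ⟨⟨mt_cup h1 i, fun B hB => (h2 B hB).congr fun q q1 q2 => ?_, fun r hr => ?_⟩, ?_⟩
  · have k1 := G.2 B hB p (by omega)
    have k2 := G.2 B hB (p + 1) hp
    have k3 := G.2 B hB _ a1
    have k4 := G.2 B hB _ b1
    exact cup_far (by omega) (by omega) (by omega) (by omega)
  · obtain ⟨c1, c2⟩ := h3 r hr
    have k1 := G.1 r hr p (by omega)
    have k2 := G.1 r hr (p + 1) hp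
    have k3 := G.1 r hr _ a1
    have k4 := G.1 r hr _ b1
    unfold cup
    grind
  · have k1 := G.1 _ a1 (p + 1) hp
    grind

variable {A} in
theorem Rel.close {n τ Bs} {f g : (ℕ → ℕ) → R} (h : Rel n τ Bs f g) (G : Gd n τ Bs) (p i : ℕ)
    (hp : p + 1 < 16) (e1 : τ p = i) (e2 : τ (p + 1) = i + 1) :
    Rel n τ Bs (close A i f) (close A p g) := fun m s hs => by
  obtain ⟨k1, k2⟩ := ss_cup G hs hp e1 e2
  simp only [close_eq, k2, h _ _ k1]

variable {A} in
theorem Rel.op {n τ Bs} {f g : (ℕ → ℕ) → R} (h : Rel n τ Bs f g) (G : Gd n τ Bs) (p i : ℕ)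
    (hp : p + 1 < 16) (e1 : τ p = i) (e2 : τ (p + 1) = i + 1) :
    Rel n τ Bs (op A (i, true) f) (op A (p, true) g) := fun m s hs => by
  simp only [J0.op, h m s hs, h.close G p i hp e1 e2 m s hs]

variable {A} in
theorem Rel.contr {n τ τ' B Bs} {f g : (ℕ → ℕ) → R} (h : Rel n τ' Bs f g) (G : Gd n τ (B :: Bs))
    (e : ∀ r < 16, τ' r = sg n B (τ r)) (hB : ∀ B' ∈ Bs, B' + 4 * n + 2 ≤ B) :
    Rel n τ (B :: Bs) (Cl A (gl B n) f) g := fun m s hs => by
  obtain ⟨h1, h2, h3⟩ := hs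
  obtain ⟨m', a1, a2, a3⟩ := J0.contr A B n h1 (h2 B (by simp))
  rw [a2]
  refine h m' s ⟨a1, fun B' hB' i hi => ?_, fun r hr => ?_⟩
  · have k0 := hB B' hB'
    obtain ⟨k1, k2⟩ := h2 B' (by simp [hB']) i hi
    have u1 := a3 (B' + 2 + 4 * i) (by omega)
    have u2 := a3 (B' + 3 + 4 * i) (by omega)
    rw [k1, sg, sg, if_neg (by omega), if_neg (by omega), if_neg (by omega),
      if_neg (by omega)] at u1
    rw [k2, sg, sg, if_neg (by omega), if_neg (by omega), if_neg (by omega),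
      if_neg (by omega)] at u2
    exact ⟨u1, u2⟩
  · obtain ⟨k1, k2⟩ := h3 r hr
    exact ⟨k1, by rw [e r hr, e _ k1, a3 _ (G.2 B (by simp) r hr), k2]⟩

/-- the positions when the blocks from `j` on are contracted -/
def ta (n j r : ℕ) : ℕ :=
  r + (if r < 4 then 0 else if r < 8 then 4 * n else if r < 12 then 8 * n else 12 * n) +
    if 2 ≤ r % 4 ∧ r < 4 * j then 4 * n else 0

theorem gd (n j : ℕ) (Bs : List ℕ)
    (h : ∀ B ∈ Bs, B = 0 ∧ 0 < j ∨ B = 4 * n + 4 ∧ 1 < j ∨ B = 8 * n + 8 ∧ 2 < j ∨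
      B = 12 * n + 12 ∧ 3 < j) : Gd n (ta n j) Bs := by
  refine ⟨fun r hr r' hr' => ?_, fun B hB r hr => ?_⟩
  · simp only [ta]
    split_ifs <;> omega
  · have := h B hB
    simp only [ta]
    split_ifs <;> omega

/-- the smallest diagram -/
def s0 (r : ℕ) : ℕ := if r = 0 then 15 else if r = 15 then 0 else if r % 2 = 1 then r + 1 else r - 1

/-- the number of loops -/
def lp : List ℕ → (ℕ → ℕ) → ℕ
  | [], _ => 0
  | i :: c, s => (if s i = i + 1 then 1 else 0) + lp c (cup i s)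

/-- all states -/
def ev (c : List ℕ) : List ℕ → (ℕ → ℕ) → List (ℕ × ℕ × ℕ)
  | [], s => [(0, 0, lp c s)]
  | i :: w, s => ((ev c w s).map fun p => (p.1 + 1, p.2.1, p.2.2)) ++
      (ev c w (cup i s)).map fun p => (p.1, p.2.1 + 1, (if s i = i + 1 then 1 else 0) + p.2.2)

theorem Cl_lp (c : List ℕ) : ∀ s, Cl A c (fun _ => 1) s = dl A ^ lp c s := by
  induction c with
  | nil => intro s; simp [Cl, lp]
  | cons i c ih =>
    intro s
    have : Cl A (i :: c) (fun _ => 1) s = close A i (Cl A c fun _ => 1) s := rfl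
    rw [this, close_eq, ih, lp, pow_add]
    split_ifs <;> simp

theorem W_ev (c w : List ℕ) : ∀ s, W A (w.map fun i => (i, true)) (Cl A c fun _ => 1) s =
    ((ev c w s).map fun p => (A : R) ^ p.1 * ((A⁻¹ : Rˣ) : R) ^ p.2.1 * dl A ^ p.2.2).sum := by
  induction w with
  | nil => intro s; simp [W, ev, Cl_lp]
  | cons i w ih =>
    intro s
    have : W A ((i :: w).map fun i => (i, true)) (Cl A c fun _ => 1) s =
        (A : R) * W A (w.map fun i => (i, true)) (Cl A c fun _ => 1) s + ((A⁻¹ : Rˣ) : R) *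
          ((if s i = i + 1 then dl A else 1) *
            W A (w.map fun i => (i, true)) (Cl A c fun _ => 1) (cup i s)) := rfl
    rw [this, ih, ih, ev, List.map_append, List.sum_append, List.map_map, List.map_map,
      ← List.sum_map_mul_left, ← List.sum_map_mul_left, ← List.sum_map_mul_left]
    congr 2 <;> refine List.map_congr_left fun p _ => ?_
    · simp only [Function.comp]
      ring
    · simp only [Function.comp]
      split_ifs <;> ring

/-- the states, sorted -/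
def tab : List (ℕ × ℕ × ℕ × ℕ) :=
  [(1, 0, 8, 4), (4, 1, 7, 3), (4, 1, 7, 5), (6, 2, 6, 2), (16, 2, 6, 4), (6, 2, 6, 6),
    (4, 3, 5, 1), (24, 3, 5, 3), (24, 3, 5, 5), (4, 3, 5, 7), (1, 4, 4, 0), (16, 4, 4, 2),
    (36, 4, 4, 4), (16, 4, 4, 6), (1, 4, 4, 8), (4, 5, 3, 1), (24, 5, 3, 3), (24, 5, 3, 5),
    (4, 5, 3, 7), (6, 6, 2, 2), (16, 6, 2, 4), (6, 6, 2, 6), (4, 7, 1, 3), (4, 7, 1, 5),
    (1, 8, 0, 4)]

theorem ev_perm : (ev [13, 14, 12, 9, 10, 8, 5, 6, 4, 1, 2] [3, 2, 4, 3, 11, 10, 12, 11] s0).Perm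
    (tab.flatMap fun t => List.replicate t.1 t.2) := by
  decide +kernel

theorem small : W A ([3, 2, 4, 3, 11, 10, 12, 11].map fun i => (i, true))
    (Cl A [13, 14, 12, 9, 10, 8, 5, 6, 4, 1, 2] fun _ => 1) s0 = 1 := by
  rw [W_ev, (ev_perm.map _).sum_eq]
  obtain ⟨h1, h2⟩ := ab A true
  simp only [if_true] at h1 h2
  simp only [tab, List.flatMap_cons, List.flatMap_nil, List.map_append, List.map_replicate,
    List.sum_append, List.sum_replicate, List.map_nil, List.sum_nil, nsmul_eq_mul]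
  generalize dl A = d at *
  generalize ((A⁻¹ : Rˣ) : R) = b at *
  generalize (A : R) = a at *
  have key : a ^ 4 * d ^ 2 + a ^ 3 * b * (2 * d + 2 * d ^ 3) +
      a ^ 2 * b ^ 2 * (1 + 4 * d ^ 2 + d ^ 4) + a * b ^ 3 * (2 * d + 2 * d ^ 3) +
      b ^ 4 * d ^ 2 = 1 := by
    subst h2
    grind
  push_cast
  linear_combination (a ^ 4 * d ^ 2 + a ^ 3 * b * (2 * d + 2 * d ^ 3) +
      a ^ 2 * b ^ 2 * (1 + 4 * d ^ 2 + d ^ 4) + a * b ^ 3 * (2 * d + 2 * d ^ 3) +
      b ^ 4 * d ^ 2 + 1) * key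

theorem rel_top (n : ℕ) : Rel n (ta n 4) [12 * n + 12, 8 * n + 8, 4 * n + 4, 0]
    (Cl A (gg (4 * n + 3)) fun _ => 1) (Cl A [13, 14, 12, 9, 10, 8, 5, 6, 4, 1, 2] fun _ => 1) := by
  have s : gg (4 * n + 3) = gl (12 * n + 12) n ++ ([12 * n + 13, 12 * n + 14, 12 * n + 12] ++
      (gl (8 * n + 8) n ++ ([8 * n + 9, 8 * n + 10, 8 * n + 8] ++
      (gl (4 * n + 4) n ++ ([4 * n + 5, 4 * n + 6, 4 * n + 4] ++ (gl 0 n ++ [1, 2])))))) := by
    have a0 := gg_add 0 n
    have a1 := gg_add (n + 1) n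
    have a2 := gg_add (2 * n + 1 + 1) n
    have a3 := gg_add (3 * n + 2 + 1) n
    rw [zero_add] at a0
    rw [gg, a0, show n + 1 + n = 2 * n + 1 by omega] at a1
    rw [gg, a1, show 2 * n + 1 + 1 + n = 3 * n + 2 by omega] at a2
    rw [gg, a2, show 3 * n + 2 + 1 + n = 4 * n + 3 by omega] at a3
    rw [a3, show 4 * (3 * n + 2 + 1) = 12 * n + 12 by omega,
      show 4 * (2 * n + 1 + 1) = 8 * n + 8 by omega, show 4 * (n + 1) = 4 * n + 4 by omega,
      show 4 * (3 * n + 2) = 12 * n + 8 by omega, show 4 * (2 * n + 1) = 8 * n + 4 by omega]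
    rfl
  have g0 := gd n 0 [] (by simp)
  have g1 := gd n 1 [0] (by simp)
  have g2 := gd n 2 [4 * n + 4, 0] (by simp)
  have g3 := gd n 3 [8 * n + 8, 4 * n + 4, 0] (by simp)
  have g4 := gd n 4 [12 * n + 12, 8 * n + 8, 4 * n + 4, 0] (by simp)
  have r0 : Rel n (ta n 0) [] (fun _ => (1 : R)) fun _ => 1 := fun _ _ _ => rfl
  have r1 := (((r0.close (A := A) g0 2 2 (by omega) (by simp [ta]) (by simp [ta])).close (A := A)
    g0 1 1 (by omega) (by simp [ta]) (by simp [ta])).contr (A := A) g1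
    (fun r hr => by simp only [ta, sg]; split_ifs <;> omega) (by simp))
  have r2 := ((((r1.close (A := A) g1 4 (4 * n + 4) (by omega) (by simp [ta]; omega)
    (by simp [ta]; omega)).close (A := A) g1 6 (4 * n + 6) (by omega) (by simp [ta]; omega)
    (by simp [ta]; omega)).close (A := A) g1 5 (4 * n + 5) (by omega) (by simp [ta]; omega)
    (by simp [ta]; omega)).contr (A := A) g2
    (fun r hr => by simp only [ta, sg]; split_ifs <;> omega) (by simp))
  have r3 := ((((r2.close (A := A) g2 8 (8 * n + 8) (by omega) (by simp [ta]; omega)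
    (by simp [ta]; omega)).close (A := A) g2 10 (8 * n + 10) (by omega) (by simp [ta]; omega)
    (by simp [ta]; omega)).close (A := A) g2 9 (8 * n + 9) (by omega) (by simp [ta]; omega)
    (by simp [ta]; omega)).contr (A := A) g3
    (fun r hr => by simp only [ta, sg]; split_ifs <;> omega) (by simp; omega))
  have r4 := ((((r3.close (A := A) g3 12 (12 * n + 12) (by omega) (by simp [ta]; omega)
    (by simp [ta]; omega)).close (A := A) g3 14 (12 * n + 14) (by omega) (by simp [ta]; omega)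
    (by simp [ta]; omega)).close (A := A) g3 13 (12 * n + 13) (by omega) (by simp [ta]; omega)
    (by simp [ta]; omega)).contr (A := A) g4
    (fun r hr => by simp only [ta, sg]; split_ifs <;> omega) (by simp; omega))
  rw [s]
  simp only [Cl_append]
  exact r4

end J0

open J0 in
theorem rowJ0 : RowJ0 := by
  intro k hk R _ A
  obtain ⟨n, rfl⟩ : ∃ n, k = n + 1 := ⟨k - 1, by omega⟩
  obtain ⟨m, h0, i0, i1, i2, i3, v0, v1, v2, v3, v4, v5, v6, v7⟩ := bottom_mv A n
  have t := top_ev A (4 * n + 3) fun _ => 1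
  have c : cable ([(2 * (n + 1) - 1, true), (6 * (n + 1) - 1, true)] ++ []) =
      [(4 * n + 3, true), (4 * n + 2, true), (4 * n + 4, true), (4 * n + 3, true),
        (12 * n + 11, true), (12 * n + 10, true), (12 * n + 12, true), (12 * n + 11, true)] := by
    simp [cable]
    omega
  rw [bracket_eq, surf, W_append, h0.2, W_append, c, show 4 * (n + 1) = 4 * n + 3 + 1 by omega,
    show 8 * (n + 1) - 1 = 2 * (4 * n + 3) + 1 by omega, t.W A _ m h0.1]
  refine Eq.trans ?_ (small A)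
  have g4 := gd n 4 [12 * n + 12, 8 * n + 8, 4 * n + 4, 0] (by simp)
  have r := (((((((((rel_top A n).op (A := A) g4 11 (12 * n + 11) (by omega) (by simp [ta]; omega)
    (by simp [ta]; omega)).op (A := A) g4 12 (12 * n + 12) (by omega) (by simp [ta]; omega)
    (by simp [ta]; omega)).op (A := A) g4 10 (12 * n + 10) (by omega) (by simp [ta]; omega)
    (by simp [ta]; omega)).op (A := A) g4 11 (12 * n + 11) (by omega) (by simp [ta]; omega)
    (by simp [ta]; omega)).op (A := A) g4 3 (4 * n + 3) (by omega) (by simp [ta]; omega)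
    (by simp [ta]; omega)).op (A := A) g4 4 (4 * n + 4) (by omega) (by simp [ta]; omega)
    (by simp [ta]; omega)).op (A := A) g4 2 (4 * n + 2) (by omega) (by simp [ta]; omega)
    (by simp [ta]; omega)).op (A := A) g4 3 (4 * n + 3) (by omega) (by simp [ta]; omega)
    (by simp [ta]; omega))
  refine r m s0 ⟨h0.1, by simp [i0, i1, i2, i3], fun r hr => ?_⟩
  have w0 := (h0.1 0).1
  have w1 := (h0.1 1).1
  have w2 := (h0.1 (4 * n + 3)).1
  have w3 := (h0.1 (4 * n + 5)).1
  have w4 := (h0.1 (8 * n + 7)).1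
  have w5 := (h0.1 (8 * n + 9)).1
  have w6 := (h0.1 (12 * n + 11)).1
  have w7 := (h0.1 (12 * n + 13)).1
  rw [v0] at w0
  rw [v1] at w1
  rw [v2] at w2
  rw [v3] at w3
  rw [v4] at w4
  rw [v5] at w5
  rw [v6] at w6
  rw [v7] at w7
  interval_cases r <;> simp [ta, s0] <;> grind

end Vale.Agent.Q258D
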