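import Vale.Agent.Q258D.Rows

/-!
P258: a signed count with three controlled moments is not concentrated at one value.
-/

namespace Vale.Agent.Q258D

namespace RP

open Finset

open Classical in
/-- the indicator of a proposition -/
noncomputable def ind (p : Prop) : ℝ := if p then 1 else 0

theorem ind_pos {p : Prop} (h : p) : ind p = 1 := if_pos h

theorem ind_neg {p : Prop} (h : ¬ p) : ind p = 0 := if_neg h

theorem ind_nonneg (p : Prop) : 0 ≤ ind p := by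
  by_cases h : p
  · rw [ind_pos h]; norm_num
  · rw [ind_neg h]

theorem ind_and (p q : Prop) : ind (p ∧ q) = ind p * ind q := by
  by_cases h : p
  · by_cases k : q
    · rw [ind_pos h, ind_pos k, ind_pos ⟨h, k⟩, mul_one]
    · rw [ind_neg k, ind_neg fun c => k c.2, mul_zero]
  · rw [ind_neg h, ind_neg fun c => h c.1, zero_mul]

theorem card_ind {α : Type} [Fintype α] (p : α → Prop) :
    (Nat.card {x // p x} : ℝ) = ∑ x, ind (p x) := by
  classical
  rw [Nat.card_eq_fintype_card, Fintype.card_subtype, card_filter]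
  push_cast
  exact sum_congr rfl fun x _ => by unfold ind; congr

/-- the variance is bounded by the mass outside of one value -/
theorem core {Ω : Type} [Fintype Ω] (Z N : Ω → ℝ) (B : Ω → Prop) {c t : ℝ} (ht : 0 < t)
    (hN : ∀ ω, |Z ω| ≤ N ω) (hc : ∀ ω, ¬ B ω → Z ω = c) :
    Fintype.card Ω * ∑ ω, Z ω ^ 2 - (∑ ω, Z ω) ^ 2 ≤
      2 * Fintype.card Ω * (t ^ 2 * ∑ ω, ind (B ω) + (∑ ω, N ω ^ 3) / t) +
        2 * (∑ ω, N ω ^ 2) * ∑ ω, ind (B ω) := by
  have h1 : ∀ ω, N ω ^ 2 * ind (B ω) ≤ t ^ 2 * ind (B ω) + N ω ^ 3 / t := fun ω => by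
    have h0 : 0 ≤ N ω := (abs_nonneg _).trans (hN ω)
    have h3 : 0 ≤ N ω ^ 3 / t := by positivity
    by_cases h : B ω
    · rw [ind_pos h, mul_one, mul_one]
      rcases le_total (N ω) t with k | k
      · have := pow_le_pow_left₀ h0 k 2
        linarith
      · have : N ω ^ 2 ≤ N ω ^ 3 / t := by
          rw [le_div_iff₀ ht, pow_succ (N ω) 2]
          exact mul_le_mul_of_nonneg_left k (by positivity)
        nlinarith [sq_nonneg t]
    · rw [ind_neg h, mul_zero, mul_zero, zero_add]; exact h3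
  have h2 : ∀ ω ω', Z ω ^ 2 + Z ω' ^ 2 - 2 * (Z ω * Z ω') ≤
      2 * (N ω ^ 2 * ind (B ω)) + 2 * (N ω' ^ 2 * ind (B ω')) + 2 * (N ω ^ 2 * ind (B ω')) +
        2 * (ind (B ω) * N ω' ^ 2) := fun ω ω' => by
    have a1 : Z ω ^ 2 ≤ N ω ^ 2 := by
      rw [← sq_abs]; exact pow_le_pow_left₀ (abs_nonneg _) (hN ω) 2
    have a2 : Z ω' ^ 2 ≤ N ω' ^ 2 := by
      rw [← sq_abs]; exact pow_le_pow_left₀ (abs_nonneg _) (hN ω') 2
    have a3 := sq_nonneg (Z ω + Z ω')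
    have a4 := sq_nonneg (N ω)
    have a5 := sq_nonneg (N ω')
    by_cases h : B ω <;> by_cases k : B ω'
    · rw [ind_pos h, ind_pos k]; nlinarith
    · rw [ind_pos h, ind_neg k]; nlinarith
    · rw [ind_neg h, ind_pos k]; nlinarith
    · rw [ind_neg h, ind_neg k, hc ω h, hc ω' k]; nlinarith
  have h3 := sum_le_sum fun ω (_ : ω ∈ univ) => sum_le_sum fun ω' (_ : ω' ∈ univ) => h2 ω ω'
  simp only [sum_add_distrib, sum_sub_distrib, sum_const, card_univ, nsmul_eq_mul, ← mul_sum,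
    ← sum_mul] at h3
  have h4 := sum_le_sum fun ω (_ : ω ∈ univ) => h1 ω
  rw [sum_add_distrib, ← mul_sum, ← sum_div] at h4
  have h5 := mul_le_mul_of_nonneg_left h4 (Nat.cast_nonneg (α := ℝ) (Fintype.card Ω))
  nlinarith

theorem swap2 {Ω V : Type} [Fintype Ω] [Fintype V] (f : V → V → Ω → ℝ) :
    ∑ ω, ∑ v, ∑ v', f v v' ω = ∑ v, ∑ v', ∑ ω, f v v' ω := by
  rw [sum_comm]
  exact sum_congr rfl fun v _ => sum_comm

theorem swap3 {Ω V : Type} [Fintype Ω] [Fintype V] (f : V → V → V → Ω → ℝ) :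
    ∑ ω, ∑ v, ∑ v', ∑ v'', f v v' v'' ω = ∑ v, ∑ v', ∑ v'', ∑ ω, f v v' v'' ω := by
  rw [sum_comm]
  exact sum_congr rfl fun v _ => swap2 _

theorem triple {V : Type} [Fintype V] (y : V → ℝ) (r : V → V → ℝ) :
    ∑ v, ∑ v', ∑ v'', (r v v' + r v v'' + r v' v'') * (y v * y v' * y v'') =
      3 * ((∑ v, ∑ v', r v v' * (y v * y v')) * ∑ v, y v) := by
  have a : ∑ v, ∑ v', ∑ v'', r v v' * (y v * y v' * y v'') =
      (∑ v, ∑ v', r v v' * (y v * y v')) * ∑ v, y v := by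
    rw [sum_mul]
    refine sum_congr rfl fun v _ => ?_
    rw [sum_mul_sum]
    exact sum_congr rfl fun v' _ => sum_congr rfl fun v'' _ => by ring
  have b : ∑ v, ∑ v', ∑ v'', r v v'' * (y v * y v' * y v'') =
      ∑ v, ∑ v', ∑ v'', r v v' * (y v * y v' * y v'') := by
    refine sum_congr rfl fun v _ => ?_
    rw [sum_comm]
    exact sum_congr rfl fun v' _ => sum_congr rfl fun v'' _ => by ring
  have c : ∑ v, ∑ v', ∑ v'', r v' v'' * (y v * y v' * y v'') =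
      (∑ v, ∑ v', r v v' * (y v * y v')) * ∑ v, y v := by
    rw [mul_sum]
    refine sum_congr rfl fun v _ => ?_
    rw [sum_mul]
    refine sum_congr rfl fun v' _ => ?_
    rw [sum_mul]
    exact sum_congr rfl fun v'' _ => by ring
  simp only [add_mul, sum_add_distrib]
  rw [b, a, c]
  ring

section

variable {Ω V : Type} [Fintype Ω] [Fintype V] {I : V → Ω → Prop} {σ : V → Prop}
  {R : V → V → Prop} {η a Q C n : ℝ}

/-- the number of occurring points -/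
noncomputable def cN (I : V → Ω → Prop) (ω : Ω) : ℝ := ∑ v, ind (I v ω)

/-- the number of occurring related pairs -/
noncomputable def cT (I : V → Ω → Prop) (R : V → V → Prop) (ω : Ω) : ℝ :=
  ∑ v, ∑ v', ind (R v v') * (ind (I v ω) * ind (I v' ω))

/-- the sign -/
noncomputable def sg (p : Prop) : ℝ := ind p - ind (¬ p)

/-- the signed count -/
noncomputable def cZ (I : V → Ω → Prop) (σ : V → Prop) (ω : Ω) : ℝ := ∑ v, sg (σ v) * ind (I v ω)

theorem sg_cases (p : Prop) : sg p = 1 ∨ sg p = -1 := by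
  unfold sg
  by_cases h : p
  · rw [ind_pos h, ind_neg (not_not.2 h)]; norm_num
  · rw [ind_neg h, ind_pos h]; norm_num

omit [Fintype Ω] in
theorem cN_nonneg (ω : Ω) : 0 ≤ cN I ω := sum_nonneg fun _ _ => ind_nonneg _

omit [Fintype Ω] in
theorem abs_cZ (ω : Ω) : |cZ I σ ω| ≤ cN I ω :=
  (abs_sum_le_sum_abs _ _).trans (sum_le_sum fun v _ => by
    rw [abs_mul, abs_of_nonneg (ind_nonneg _)]
    rcases sg_cases (σ v) with h | h <;> simp [h])

omit [Fintype Ω] in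
theorem cT_bound (h4 : ∀ v ω, I v ω → a ≤ 2 * ∑ v', ind (R v v') * ind (I v' ω) ∧
      ∑ v', ind (R v v') * ind (I v' ω) ≤ C * a) (ω : Ω) :
    a * cN I ω ≤ 2 * cT I R ω ∧ cT I R ω ≤ C * a * cN I ω := by
  unfold cN cT
  rw [mul_sum, mul_sum, mul_sum]
  refine ⟨sum_le_sum fun v _ => ?_, sum_le_sum fun v _ => ?_⟩
  · by_cases h : I v ω
    · simpa only [ind_pos h, mul_one, one_mul] using (h4 v ω h).1
    · simp [ind_neg h]
  · by_cases h : I v ω
    · simpa only [ind_pos h, mul_one, one_mul] using (h4 v ω h).2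
    · simp [ind_neg h]

theorem mom1 (h1 : ∀ v, (1 - η) * n ≤ Q * ∑ ω, ind (I v ω) ∧ Q * ∑ ω, ind (I v ω) ≤ (1 + η) * n) :
    Fintype.card V * ((1 - η) * n) ≤ Q * ∑ ω, cN I ω ∧
      Q * ∑ ω, cN I ω ≤ Fintype.card V * ((1 + η) * n) := by
  unfold cN
  rw [sum_comm, mul_sum, ← nsmul_eq_mul, ← nsmul_eq_mul, ← card_univ, ← sum_const, ← sum_const]
  exact ⟨sum_le_sum fun v _ => (h1 v).1, sum_le_sum fun v _ => (h1 v).2⟩

theorem mom2 (hn : 0 ≤ (1 + η) * n)
    (h2 : ∀ v v', ¬ R v v' → Q ^ 2 * ∑ ω, ind (I v ω) * ind (I v' ω) ≤ (1 + η) * n) :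
    Q ^ 2 * ∑ ω, cN I ω ^ 2 ≤ Q ^ 2 * ∑ ω, cT I R ω + Fintype.card V ^ 2 * ((1 + η) * n) := by
  have e : (Fintype.card V : ℝ) ^ 2 * ((1 + η) * n) = ∑ _v : V, ∑ _v' : V, (1 + η) * n := by
    simp only [sum_const, card_univ, nsmul_eq_mul]; ring
  unfold cN cT
  simp only [sq (∑ v, ind (I v _)), sum_mul_sum]
  rw [swap2, swap2, e, mul_sum, mul_sum, ← sum_add_distrib]
  refine sum_le_sum fun v _ => ?_
  rw [mul_sum, mul_sum, ← sum_add_distrib]
  refine sum_le_sum fun v' _ => ?_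
  by_cases h : R v v'
  · simp only [ind_pos h, one_mul]; linarith
  · simpa only [ind_neg h, zero_mul, sum_const_zero, mul_zero, zero_add] using h2 v v' h

theorem mom3 (hQ : 0 ≤ Q) (hn : 0 ≤ (1 + η) * n)
    (h3 : ∀ v v' v'', ¬ R v v' → ¬ R v v'' → ¬ R v' v'' →
      Q ^ 3 * ∑ ω, ind (I v ω) * ind (I v' ω) * ind (I v'' ω) ≤ (1 + η) * n) :
    Q ^ 3 * ∑ ω, cN I ω ^ 3 ≤ Q ^ 3 * ∑ ω, 3 * (cT I R ω * cN I ω) +
      Fintype.card V ^ 3 * ((1 + η) * n) := by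
  have e : (Fintype.card V : ℝ) ^ 3 * ((1 + η) * n) =
      ∑ _v : V, ∑ _v' : V, ∑ _v'' : V, (1 + η) * n := by
    simp only [sum_const, card_univ, nsmul_eq_mul]; ring
  have e3 : ∀ y : V → ℝ, (∑ v, y v) ^ 3 = ∑ v, ∑ v', ∑ v'', y v * y v' * y v'' := fun y => by
    rw [pow_succ, sq, sum_mul_sum, sum_mul]
    refine sum_congr rfl fun v _ => ?_
    rw [sum_mul_sum]
  unfold cN cT
  simp only [e3, ← triple]
  rw [swap3, swap3, e, mul_sum, mul_sum, ← sum_add_distrib]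
  refine sum_le_sum fun v _ => ?_
  rw [mul_sum, mul_sum, ← sum_add_distrib]
  refine sum_le_sum fun v' _ => ?_
  rw [mul_sum, mul_sum, ← sum_add_distrib]
  refine sum_le_sum fun v'' _ => ?_
  rw [← mul_sum univ _ (_ + _ + _)]
  have h0 : 0 ≤ Q ^ 3 * ∑ ω, ind (I v ω) * ind (I v' ω) * ind (I v'' ω) :=
    mul_nonneg (by positivity) (sum_nonneg fun _ _ =>
      mul_nonneg (mul_nonneg (ind_nonneg _) (ind_nonneg _)) (ind_nonneg _))
  have a1 := ind_nonneg (R v v')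
  have a2 := ind_nonneg (R v v'')
  have a3 := ind_nonneg (R v' v'')
  by_cases h : 1 ≤ ind (R v v') + ind (R v v'') + ind (R v' v'')
  · have := mul_le_mul_of_nonneg_right h h0
    linarith
  · have := h3 v v' v'' (fun c => h (by rw [ind_pos c]; linarith))
      (fun c => h (by rw [ind_pos c]; linarith)) fun c => h (by rw [ind_pos c]; linarith)
    have h5 := mul_nonneg (add_nonneg (add_nonneg a1 a2) a3) h0
    linarith

theorem var_ge (hη : 0 ≤ η) (hη' : η ≤ 1) (hn : 0 ≤ n)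
    (h1 : ∀ v, (1 - η) * n ≤ Q * ∑ ω, ind (I v ω) ∧ Q * ∑ ω, ind (I v ω) ≤ (1 + η) * n)
    (h2 : ∀ v v', ¬ R v v' → (1 - η) * n ≤ Q ^ 2 * ∑ ω, ind (I v ω) * ind (I v' ω) ∧
      Q ^ 2 * ∑ ω, ind (I v ω) * ind (I v' ω) ≤ (1 + η) * n)
    (h5 : ∀ v v' ω, I v ω → I v' ω → R v v' → (σ v ↔ σ v')) :
    Q ^ 2 * n * ∑ ω, cT I R ω - 4 * n ^ 2 * ∑ v, ∑ v', ind (R v v') -
      Fintype.card V ^ 2 * (4 * η * n ^ 2) ≤
      Q ^ 2 * n * ∑ ω, cZ I σ ω ^ 2 - Q ^ 2 * (∑ ω, cZ I σ ω) ^ 2 := by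
  have e : (Fintype.card V : ℝ) ^ 2 * (4 * η * n ^ 2) = ∑ _v : V, ∑ _v' : V, 4 * η * n ^ 2 := by
    simp only [sum_const, card_univ, nsmul_eq_mul]; ring
  unfold cZ cT
  rw [sum_comm (f := fun ω v => sg (σ v) * ind (I v ω)), sq (∑ v, ∑ ω, _), sum_mul_sum]
  simp only [sq (∑ v, sg (σ v) * ind (I v _)), sum_mul_sum univ univ
    (fun v => sg (σ v) * ind (I v _))]
  rw [swap2, swap2, e, mul_sum, mul_sum, mul_sum, mul_sum, ← sum_sub_distrib, ← sum_sub_distrib,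
    ← sum_sub_distrib]
  refine sum_le_sum fun v _ => ?_
  rw [mul_sum, mul_sum, mul_sum, mul_sum, ← sum_sub_distrib, ← sum_sub_distrib, ← sum_sub_distrib]
  refine sum_le_sum fun v' _ => ?_
  obtain ⟨a1, a2⟩ := h1 v
  obtain ⟨b1, b2⟩ := h1 v'
  have c0 : 0 ≤ (1 - η) * n := mul_nonneg (by linarith) hn
  have c1 := mul_le_mul a1 b1 c0 (c0.trans a1)
  have c2 := mul_le_mul a2 b2 (c0.trans b1) ((c0.trans a1).trans a2)
  have c3 : 0 ≤ η * n ^ 2 := by positivity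
  have c4 : η * (η * n ^ 2) ≤ 1 * (η * n ^ 2) := mul_le_mul_of_nonneg_right hη' c3
  have c5 : 0 ≤ η * (η * n ^ 2) := by positivity
  have c6 : η * n ^ 2 ≤ 1 * n ^ 2 := mul_le_mul_of_nonneg_right hη' (by positivity)
  rw [← mul_sum univ _ (sg (σ v)), ← mul_sum univ _ (sg (σ v')), ← mul_sum univ _ (ind (R v v'))]
  by_cases h : R v v'
  · have d : ∀ ω, sg (σ v) * ind (I v ω) * (sg (σ v') * ind (I v' ω)) =
        ind (I v ω) * ind (I v' ω) := fun ω => by
      by_cases k : I v ω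
      · by_cases k' : I v' ω
        · rw [← propext (h5 v v' ω k k' h), ind_pos k, ind_pos k']
          rcases sg_cases (σ v) with l | l <;> rw [l] <;> norm_num
        · simp [ind_neg k']
      · simp [ind_neg k]
    simp only [d, ind_pos h]
    rcases sg_cases (σ v) with l | l <;> rcases sg_cases (σ v') with l' | l' <;> rw [l, l'] <;>
      nlinarith
  · obtain ⟨d1, d2⟩ := h2 v v' h
    have d3 := mul_le_mul_of_nonneg_left d1 hn
    have d4 := mul_le_mul_of_nonneg_left d2 hn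
    have d : ∀ ω, sg (σ v) * ind (I v ω) * (sg (σ v') * ind (I v' ω)) =
        sg (σ v) * sg (σ v') * (ind (I v ω) * ind (I v' ω)) := fun ω => by ring
    simp only [d, ind_neg h]
    rw [← mul_sum]
    rcases sg_cases (σ v) with l | l <;> rcases sg_cases (σ v') with l' | l' <;> rw [l, l'] <;>
      nlinarith

/-- the numerical end of the proof -/
theorem numeric {K S1 S2 S3 T U W B P : ℝ} (hC : 1 ≤ C) (ha : 0 < a) (hQ : 0 < Q) (hn : 0 < n)
    (hη : η = 1 / (64 * C ^ 3)) (hK0 : 0 ≤ K) (hK1 : a * Q ≤ C * K) (hK2 : K ≤ C * (a * Q))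
    (hP : P ≤ η * (a * Q) ^ 2) (hB : 0 ≤ B)
    (m1 : K * ((1 - η) * n) ≤ Q * S1) (m1' : Q * S1 ≤ K * ((1 + η) * n))
    (t1 : a * S1 ≤ 2 * T) (t2 : T ≤ C * a * S1) (t3 : U ≤ 3 * (C * a * S2))
    (m2 : Q ^ 2 * S2 ≤ Q ^ 2 * T + K ^ 2 * ((1 + η) * n))
    (m3 : Q ^ 3 * S3 ≤ Q ^ 3 * U + K ^ 3 * ((1 + η) * n))
    (hv : Q ^ 2 * n * T - 4 * n ^ 2 * P - K ^ 2 * (4 * η * n ^ 2) ≤ Q ^ 2 * W)
    (hc : W ≤ 2 * n * ((224 * C ^ 4 * a) ^ 2 * B + S3 / (224 * C ^ 4 * a)) + 2 * S2 * B) :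
    1 / (8 * C * (2 * (224 * C ^ 4) ^ 2 + 8 * C ^ 2)) * n ≤ B := by
  have C0 : 0 < C := by linarith
  have C3 : 1 ≤ C ^ 3 := one_le_pow₀ hC
  have C2 : 1 ≤ C ^ 2 := one_le_pow₀ hC
  have e0 : 0 < η := by rw [hη]; positivity
  have e1 : η * (64 * C ^ 3) = 1 := by rw [hη]; field_simp
  have e2 : η ≤ 1 / 64 := by nlinarith
  have n2 : (1 + η) * n ≤ 2 * n := mul_le_mul_of_nonneg_right (by linarith) hn.le
  have n3 : 0 ≤ (1 + η) * n := by positivity
  have a1 : S1 ≤ 2 * C * a * n := by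
    refine le_of_mul_le_mul_left (m1'.trans ((mul_le_mul hK2 n2 n3 (by positivity)).trans_eq ?_)) hQ
    ring
  have a2 : 63 / 64 * a * n ≤ C * S1 := by
    refine le_of_mul_le_mul_left ?_ hQ
    have h1 : 63 / 64 * n ≤ (1 - η) * n := mul_le_mul_of_nonneg_right (by linarith) hn.le
    have h2 := mul_le_mul hK1 h1 (by positivity) (by positivity)
    have h3 := mul_le_mul_of_nonneg_left m1 C0.le
    linarith
  have a3 : T ≤ 2 * C ^ 2 * a ^ 2 * n :=
    t2.trans ((mul_le_mul_of_nonneg_left a1 (by positivity)).trans_eq (by ring))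
  have k2 := pow_le_pow_left₀ hK0 hK2 2
  have k3 := pow_le_pow_left₀ hK0 hK2 3
  have a4 : S2 ≤ 4 * C ^ 2 * a ^ 2 * n := by
    refine le_of_mul_le_mul_left ?_ (pow_pos hQ 2)
    have h1 := mul_le_mul k2 n2 n3 (by positivity)
    have h2 := mul_le_mul_of_nonneg_left a3 (sq_nonneg Q)
    linarith
  have a5 : S3 ≤ 14 * C ^ 3 * a ^ 3 * n := by
    refine le_of_mul_le_mul_left ?_ (pow_pos hQ 3)
    have h1 := mul_le_mul k3 n2 n3 (by positivity)
    have h2 := mul_le_mul_of_nonneg_left a4 (show 0 ≤ C * a by positivity)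
    have h3 := mul_le_mul_of_nonneg_left (show U ≤ 12 * C ^ 3 * a ^ 3 * n by linarith)
      (pow_pos hQ 3).le
    linarith
  have a6 : a ^ 2 * n ^ 2 ≤ 4 * C * W := by
    refine le_of_mul_le_mul_left ?_ (pow_pos hQ 2)
    have h1 : 63 / 64 * a ^ 2 * n ≤ 2 * C * T := by
      have := mul_le_mul_of_nonneg_left a2 ha.le
      have := mul_le_mul_of_nonneg_left t1 C0.le
      linarith
    have h2 := mul_le_mul_of_nonneg_left h1 (show 0 ≤ Q ^ 2 * n by positivity)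
    have h3 := mul_le_mul_of_nonneg_left hv (show 0 ≤ 4 * C by positivity)
    have h4 := mul_le_mul_of_nonneg_left hP (show 0 ≤ 16 * C * n ^ 2 by positivity)
    have h5 := mul_le_mul_of_nonneg_left k2 (show 0 ≤ 16 * C * η * n ^ 2 by positivity)
    have h6 : 0 ≤ (a * Q) ^ 2 * n ^ 2 := by positivity
    have h7 : C * η ≤ 1 / 64 := by nlinarith [mul_le_mul_of_nonneg_left C2 (mul_pos C0 e0).le]
    have h8 := mul_le_mul_of_nonneg_right h7 h6
    have h9 : η * (64 * C ^ 3) * ((a * Q) ^ 2 * n ^ 2) = (a * Q) ^ 2 * n ^ 2 := by rw [e1, one_mul]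
    linarith
  have a7 : S3 / (224 * C ^ 4 * a) ≤ a ^ 2 * n / (16 * C) := by
    rw [div_le_div_iff₀ (by positivity) (by positivity)]
    exact (mul_le_mul_of_nonneg_right a5 (by positivity)).trans_eq (by ring)
  have a8 := mul_le_mul_of_nonneg_right a4 hB
  have a9 := mul_le_mul_of_nonneg_left a7 (show 0 ≤ 8 * C * n by positivity)
  have a10 : 8 * C * n * (a ^ 2 * n / (16 * C)) = a ^ 2 * n ^ 2 / 2 := by field_simp; norm_num
  have a11 := mul_le_mul_of_nonneg_left hc (show 0 ≤ 4 * C by positivity)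
  have a12 := mul_le_mul_of_nonneg_left a8 (show 0 ≤ 8 * C by positivity)
  rw [one_div, inv_mul_le_iff₀ (by positivity)]
  refine le_of_mul_le_mul_left ?_ (show 0 < a ^ 2 * n by positivity)
  linarith

end

end RP

open RP Finset in
theorem rowP : RowP := by
  intro C hC
  have C0 : 0 < C := by linarith
  have C3 : 1 ≤ C ^ 3 := one_le_pow₀ hC
  have C2 : 1 ≤ C ^ 2 := one_le_pow₀ hC
  have e0 : 0 < 1 / (64 * C ^ 3) := by positivity
  have e1 : 1 / (64 * C ^ 3) < 1 := by rw [div_lt_one (by positivity)]; linarith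
  refine ⟨1 / (8 * C * (2 * (224 * C ^ 4) ^ 2 + 8 * C ^ 2)), 1 / (64 * C ^ 3), by positivity, ?_,
    e0, e1, ?_⟩
  · rw [div_lt_one (by positivity)]
    nlinarith [sq_nonneg (224 * C ^ 4)]
  intro Ω V _ _ I σ R a Q ha hQ h1 h2 h3 h4 h5 h6 h7 h8 c
  obtain ⟨_⟩ := nonempty_fintype Ω
  obtain ⟨_⟩ := nonempty_fintype V
  generalize hη : 1 / (64 * C ^ 3) = η at *
  simp only [card_ind, ind_and, Nat.card_eq_fintype_card (α := Ω),
    Nat.card_eq_fintype_card (α := V), Fintype.sum_prod_type] at h1 h2 h3 h4 h6 h7 h8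
  rw [card_ind, Nat.card_eq_fintype_card (α := Ω)]
  rcases (Nat.cast_nonneg (α := ℝ) (Fintype.card Ω)).eq_or_lt with hn | hn
  · have : IsEmpty Ω := Fintype.card_eq_zero_iff.1 (by exact_mod_cast hn.symm)
    simp
  set A : Ω → Prop := fun ω => (Nat.card {v // σ v ∧ I v ω} : ℤ) =
    Nat.card {v // ¬ σ v ∧ I v ω} + c with hA
  have hZ : ∀ ω, ¬ ¬ A ω → cZ I σ ω = c := fun ω h => by
    have h' : ((Nat.card {v // σ v ∧ I v ω} : ℕ) : ℝ) = Nat.card {v // ¬ σ v ∧ I v ω} + c := by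
      exact_mod_cast not_not.1 h
    simp only [card_ind, ind_and] at h'
    simp only [cZ, sg, sub_mul, sum_sub_distrib]
    linarith
  have n3 : 0 ≤ (1 + η) * Fintype.card Ω := by positivity
  have hv := var_ge e0.le e1.le hn.le h1 h2 h5
  have key := numeric (W := Fintype.card Ω * ∑ ω, cZ I σ ω ^ 2 - (∑ ω, cZ I σ ω) ^ 2)
    (S2 := ∑ ω, cN I ω ^ 2) (T := ∑ ω, cT I R ω) hC ha hQ hn hη.symm (Nat.cast_nonneg _) h6 h7 h8
    (sum_nonneg fun ω _ => ind_nonneg (¬ A ω)) (mom1 h1).1 (mom1 h1).2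
    (by rw [mul_sum, mul_sum]; exact sum_le_sum fun ω _ => (cT_bound h4 ω).1)
    (by rw [mul_sum]; exact sum_le_sum fun ω _ => (cT_bound h4 ω).2)
    (by
      rw [mul_sum, mul_sum]
      refine sum_le_sum fun ω _ => mul_le_mul_of_nonneg_left ?_ (by norm_num)
      exact (mul_le_mul_of_nonneg_right (cT_bound h4 ω).2 (cN_nonneg ω)).trans_eq (by ring))
    (mom2 n3 fun v v' h => (h2 v v' h).2) (mom3 hQ.le n3 h3) (by linarith)
    (core (cZ I σ) (cN I) (fun ω => ¬ A ω) (by positivity) abs_cZ hZ)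
  have e : ∑ ω, ind (A ω) + ∑ ω, ind (¬ A ω) = Fintype.card Ω := by
    rw [← sum_add_distrib, ← card_univ, card_eq_sum_ones]
    push_cast
    refine sum_congr rfl fun ω _ => ?_
    by_cases h : A ω
    · rw [ind_pos h, ind_neg (not_not.2 h), add_zero]
    · rw [ind_neg h, ind_pos h, zero_add]
  linarith

end Vale.Agent.Q258D
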