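import Vale.Agent.Q258D.A
import Vale.Agent.Q258D.B1
import Vale.Agent.Q258D.B2
import Vale.Agent.Q258D.B3
import Vale.Agent.Q258D.C
import Vale.Agent.Q258D.D1
import Vale.Agent.Q258D.D2
import Vale.Agent.Q258D.D3
import Vale.Agent.Q258D.D4
import Vale.Agent.Q258D.D5
import Vale.Agent.Q258D.D6
import Vale.Agent.Q258D.F1
import Vale.Agent.Q258D.F2
import Vale.Agent.Q258D.F4
import Vale.Agent.Q258D.F5
import Vale.Agent.Q258D.G
import Vale.Agent.Q258D.G1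
import Vale.Agent.Q258D.H
import Vale.Agent.Q258D.P

/-!
# The algebraic theorem
-/

namespace Vale.Agent.Q258D

theorem rowG' : RowG :=
  rowG rowB3 (rowC rowA rowB1 rowB2) rowD1 (rowD2 rowD1) (rowD4 rowD1 (rowD3 rowD1))
    (rowD5 rowD1 (rowD3 rowD1)) (rowD6 rowD1 (rowD3 rowD1) (rowD5 rowD1 (rowD3 rowD1))) rowF1
    rowF3' (rowF4 rowD1 rowF2) rowF5 (rowG1 rowB1 rowB3 rowF1 rowF5) rowP

theorem rowH' : RowH := rowH rowD1 rowF1 rowG'

end Vale.Agent.Q258D
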