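import Vale.Agent.Q258D.Core
import Mathlib.LinearAlgebra.Matrix.SpecialLinearGroup
import Mathlib.Data.ZMod.Basic
import Mathlib.Algebra.Field.ZMod

/-!
# The statements of the parts of the proof (group theory and counting)
-/

namespace Vale.Agent.Q258D

open Vale.Agent.P258.Braid

/-! ### Classes of groups -/

/-- finite superperfect groups -/
structure SP (H : Type) [Group H] : Prop where
  fin : Finite H
  perf : commutator H = ⊤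
  sup : ∀ (U : Type) [Group U] (f : U →* H), Function.Surjective f →
    f.ker ≤ Subgroup.center U → commutator U = ⊤ → Function.Injective f

/-- the twists of order `M` move enough labels -/
def Mov (H : Type) [Group H] (M : ℕ) : Prop :=
  ∀ Y : Set H, Subgroup.normalClosure Y = ⊤ →
    Subgroup.normalClosure {g | ∃ y ∈ Y, ∃ a a' : H, IsConj y a ∧ IsConj y a' ∧
      g = a⁻¹ * ((a' * a) ^ M * a * ((a' * a) ^ M)⁻¹)} = ⊤

/-- `Γ` is transitive on the big orbit -/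
def Tr {H : Type} [Group H] (k : ℕ) (Γ : Subgroup (BraidGroup (8 * k))) (b : Fin 8 → H) : Prop :=
  ∀ l l', InO b (cs k) l → InO b (cs k) l' → ∃ g ∈ Γ, bact H (8 * k) g l = l'

/-- the twist of order `n` of the bands at the positions `i`, `i + 1` -/
def tw (N i n : ℕ) : BraidGroup N := letter N (i, true) ^ (2 * n)

/-! ### Row A: stable orbits of the braid group -/

def RowA : Prop :=
  ∀ (H : Type) [Group H], SP H → ∃ k0, ∀ k ≥ k0, ∀ b : Fin 8 → H, OddB b →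
    ∀ l l' : List (St 8 H), Based b l → Based b l' → (∀ c, (labs l).count c = k) →
      (∀ c, (labs l').count c = k) → Gen l → Gen l' → pr l = pr l' →
        ∃ g : BraidGroup (8 * k), bact H (8 * k) g l = l'

/-! ### Row B: counting rows -/

/-- the size of the big orbit -/
def RowB1 : Prop :=
  ∀ (H : Type) [Group H] [Finite H], commutator H = ⊤ → ∀ η : ℝ, 0 < η → ∃ k0, ∀ k ≥ k0,
    ∀ b : Fin 8 → H, OddB b → NGen b →
      (1 - η) * (Nat.card H : ℝ) ^ (8 * k) ≤ Nat.card H * Nat.card {l // InO b (cs k) l} ∧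
      (Nat.card H * Nat.card {l // InO b (cs k) l} : ℝ) ≤ (1 + η) * (Nat.card H : ℝ) ^ (8 * k)

/-- most pairs generate the square -/
def RowB2 : Prop :=
  ∀ (H : Type) [Group H] [Finite H], commutator H = ⊤ → ∀ η : ℝ, 0 < η → ∃ k0, ∀ k ≥ k0,
    ∀ b : Fin 8 → H, ∀ l', InO b (cs k) l' →
      (Nat.card {l // InO b (cs k) l ∧ ¬ Gen (zip2 l l')} : ℝ) ≤ η * (Nat.card H : ℝ) ^ (8 * k)

/-- the rows that fit the caps -/
def RowB3 : Prop :=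
  ∀ (H : Type) [Group H] [Finite H],
    (∀ k, 0 < k → ∀ (b : Fin 8 → H) (e : ℕ → H),
      Finite {l // InX b (cs k) l} ∧
      Nat.card H ^ 4 * Nat.card {v // InB k b e v} = Nat.card H ^ (4 * k) ∧
      Nat.card {u // InT k b u} = Nat.card H ^ (4 * k)) ∧
    ∀ η : ℝ, 0 < η → ∃ k0, ∀ k ≥ k0, ∀ b : Fin 8 → H, OddB b → NGen b → ∀ e : ℕ → H,
      (Nat.card {v // InB k b e v ∧ ¬ Gen v} : ℝ) ≤ η * Nat.card {v // InB k b e v} ∧
      (Nat.card {u // InT k b u ∧ ¬ Gen u} : ℝ) ≤ η * Nat.card {u // InT k b u}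

/-! ### Row C: transitivity of the derived subgroups -/

def RowC : Prop :=
  (∀ (H H' : Type) [Group H] [Group H'], SP H → SP H' → SP (H × H')) ∧
  (∀ (H H' : Type) [Group H] [Group H'] (M : ℕ), commutator H = ⊤ → commutator H' = ⊤ →
    Mov H M → Mov H' M → Mov (H × H') M) ∧
  ∀ (M j : ℕ) (H : Type) [Group H], SP H → Mov H M → ∃ k0, ∀ k ≥ k0, ∀ b : Fin 8 → H, OddB b →
    Tr k (Der (8 * k) M j) b

/-! ### Row D: the groups `SL(2, p)` -/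

/-- the group `SL(2, p)` -/
abbrev SLp (p : ℕ) : Type := Matrix.SpecialLinearGroup (Fin 2) (ZMod p)

/-- the trace -/
def trc {p : ℕ} (a : SLp p) : ZMod p := a.1 0 0 + a.1 1 1

/-- structure of the group -/
def RowD1 : Prop :=
  ∀ (p : ℕ) [Fact p.Prime], 5 ≤ p →
    Nat.card (SLp p) = p * (p ^ 2 - 1) ∧
    (∀ a : SLp p, a ∈ Subgroup.center (SLp p) ↔ a = 1 ∨ a = -1) ∧
    (∀ K : Subgroup (SLp p), p ∣ Nat.card K →
      K = ⊤ ∨ ∃ x : SLp p, ∀ a ∈ K, (x⁻¹ * a * x).1 1 0 = 0) ∧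
    (∀ K : Subgroup (SLp p), K.Normal → K = ⊤ ∨ K ≤ Subgroup.center (SLp p)) ∧
    commutator (SLp p) = ⊤ ∧
    (∀ a : SLp p, a ^ p = 1 → trc a = 2) ∧
    (∀ a : SLp p, trc a = 2 → ∃ (x : SLp p) (s : ZMod p), (x⁻¹ * a * x).1 = !![1, s; 0, 1]) ∧
    ∀ K : Subgroup (SLp p), (∀ s : ZMod p, ∃ a ∈ K, a.1 = !![1, s; 0, 1]) →
      (∀ s : ZMod p, ∃ a ∈ K, a.1 = !![1, 0; s, 1]) → K = ⊤

/-- the group is superperfect (input: `RowD1`) -/
def RowD2 : Prop := ∀ (p : ℕ) [Fact p.Prime], 5 ≤ p → SP (SLp p)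

/-- elementary counts (input: `RowD1`) -/
def RowD3 : Prop :=
  ∀ (p : ℕ) [Fact p.Prime], 5 ≤ p →
    (∀ τ : ZMod p, Nat.card {x : SLp p // trc x = τ} ≤ 2 * p ^ 2) ∧
    (∀ a : SLp p, a ∉ Subgroup.center (SLp p) → Nat.card {x : SLp p // x * a = a * x} ≤ 2 * p) ∧
    (∀ h : SLp p, h ≠ 1 → Nat.card {a : SLp p × SLp p // cm a = h} ≤ 8 * Nat.card (SLp p)) ∧
    Nat.card {a : SLp p × SLp p // cm a = 1} ≤ 3 * p * Nat.card (SLp p)

/-- a family of subgroups of the square that contains all proper subdirect products -/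
def Fam {H : Type} [Group H] (F : Finset (Subgroup (H × H))) : Prop :=
  (∀ K ∈ F, (∀ a, ∃ b, (a, b) ∈ K) ∧ (∀ b, ∃ a, (a, b) ∈ K) ∧
    ∀ a b, (a, b) ∈ K → (a ∈ Subgroup.center H ↔ b ∈ Subgroup.center H)) ∧
  ∀ K : Subgroup (H × H), K ≠ ⊤ → (∀ a, ∃ b, (a, b) ∈ K) → (∀ b, ∃ a, (a, b) ∈ K) →
    ∃ K' ∈ F, K ≤ K'

/-- twists, subdirect products (inputs: `RowD1`, `RowD3`) -/
def RowD4 : Prop :=
  (∀ (p : ℕ) [Fact p.Prime], 5 ≤ p → p % 4 = 1 → ∀ M : ℕ, ¬ p ∣ M → Mov (SLp p) M) ∧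
  ∃ C : ℕ, ∀ (p : ℕ) [Fact p.Prime], 5 ≤ p →
    ∃ F : Finset (Subgroup (SLp p × SLp p)), Fam F ∧ F.card ≤ C * Nat.card (SLp p)

/-- good markings -/
def Good {H : Type} [Group H] (m : Mk H) : Prop :=
  m.1 ^ 4 ∉ Subgroup.center H ∧
  ∀ c : H, (∀ l ∈ [m.2.1.1, m.2.1.2, m.2.2.1, m.2.2.2], c⁻¹ * l * c * l⁻¹ ∈ Subgroup.center H) →
    c ∈ Subgroup.center H

/-- upper bounds for the numbers of markings (inputs: `RowD1`, `RowD3`) -/
def RowD5 : Prop :=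
  ∃ C : ℕ, ∀ (p : ℕ) [Fact p.Prime], 5 ≤ p → ∀ s : ℤ, (s = 2 ∨ s = -2) →
    Nat.card {m : Mk (SLp p) // m.1 ^ s * lam m = 1} ≤ C * Nat.card (SLp p) ^ 4 ∧
    p * Nat.card {m : Mk (SLp p) // m.1 ^ s * lam m = 1 ∧ ¬ Good m} ≤ C * Nat.card (SLp p) ^ 4

/-- many good markings (inputs: `RowD1`, `RowD3`, `RowD5`) -/
def RowD6 : Prop :=
  ∃ C p0 : ℕ, ∀ (p : ℕ) [Fact p.Prime], p0 ≤ p →
    (∀ m : Mk (SLp p), Good m → NGen (bs (ym m))) ∧
    Nat.card (SLp p) ^ 4 ≤ C * Nat.card {m : Mk (SLp p) // m.1 ^ (2 : ℤ) * lam m = 1 ∧ Good m}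

/-! ### Row F: colourings of the surface -/

/-- products, commuting labels, twists -/
def RowF1 : Prop :=
  (∀ (H : Type) [Group H] (k : ℕ) (b : Fin 8 → H), OddB b → ∀ u, InT k b u → pr u = 1) ∧
  (∀ (H : Type) [Group H] (k : ℕ), 0 < k → ∀ m : Mk H, Commute m.1 (lam m) →
    ∀ v, InB k (bs (ym m)) (em m) v → pr v = 1) ∧
  (∀ (H : Type) [Group H] (N : ℕ), ∀ γ ∈ ⁅Tw N 1, Tw N 1⁆, ∀ l : List (St 8 H),
    (∀ s ∈ l, ∀ t ∈ l, Commute s.col t.col) → bact H N γ l = l) ∧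
  (∀ (k : ℕ) (β : BraidGroup (8 * k)), ∀ γ ∈ ⁅Tw (8 * k) 1, Tw (8 * k) 1⁆,
    AM k β → AM k (β * γ)) ∧
  ∀ (H : Type) [Group H] (N n : ℕ) (l : List (St 8 H)), (∀ a ∈ span l, a ^ n = 1) →
    ∀ γ ∈ Tw N n, bact H N γ l = l

/-- frames lie in the span of the labels; a colouring is determined by its labels -/
def RowF2 : Prop :=
  ∀ (H : Type) [Group H] (k : ℕ), 0 < k → ∀ β ∈ Tw (8 * k) 1,
    (∀ (m : Mk H) (u : List (St 8 H)), IsSol k β m u → (∀ s, frm u s ∈ span u) ∧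
      (∀ j, ym m j ∈ span u) ∧
      ∀ l ∈ [m.2.1.1, m.2.1.2, m.2.2.1, m.2.2.2], l ∈ span u ∧ m.1⁻¹ * l * m.1 ∈ span u) ∧
    ∀ (m m' : Mk H) (u u' : List (St 8 H)), IsSol k β m u → IsSol k β m' u' → ym m = ym m' →
      (∀ s, lbl u s = lbl u' s) → u = u' ∧ m.2 = m'.2

/-- partners of a good colouring (input: `RowF2`) -/
def RowF3 : Prop :=
  ∀ (H : Type) [Group H] [Finite H] (k : ℕ), 0 < k → Nat.card (Subgroup.center H) ≤ 2 →
    ∀ F : Finset (Subgroup (H × H)), Fam F → ∀ β ∈ Tw (8 * k) 1,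
      ∀ (m : Mk H) (u : List (St 8 H)), Good m → IsSol k β m u → Gen u →
        Nat.card {x : Mk H × List (St 8 H) //
          IsSol k β x.1 x.2 ∧ Gen x.2 ∧ ¬ Gen (zip2 u x.2)} ≤ 2 * F.card ∧
        (m.1 ^ (2 : ℤ) * lam m = 1 → ∀ (m' : Mk H) (u' : List (St 8 H)), IsSol k β m' u' →
          Gen u' → ¬ Gen (zip2 u u') → m'.1 ^ (-2 : ℤ) * lam m' ≠ 1)

/-- no colourings in a Borel subgroup (inputs: `RowD1`, `RowF2`) -/
def RowF4 : Prop :=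
  ∀ (p : ℕ) [Fact p.Prime], 5 ≤ p → ∀ k, 0 < k → ∀ β ∈ Tw (8 * k) 1, AM k β →
    ∀ (m : Mk (SLp p)) (u : List (St 8 (SLp p))), Commute m.1 (lam m) → IsSol k β m u →
      p ∣ Nat.card (span u) → Gen u

/-- the marking over the product given by two markings -/
def pm {H H' : Type} (m : Mk H) (m' : Mk H') : Mk (H × H') :=
  ((m.1, m'.1), ((m.2.1.1, m'.2.1.1), (m.2.1.2, m'.2.1.2)),
    ((m.2.2.1, m'.2.2.1), (m.2.2.2, m'.2.2.2)))

/-- conjugates and products of colourings -/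
def RowF5 : Prop :=
  (∀ (H : Type) [Group H] [Finite H] [Nontrivial H] (k : ℕ) (β : BraidGroup (8 * k)),
    Nat.card (Subgroup.center H) ≤ 2 → ∀ (m : Mk H) (u : List (St 8 H)), IsSol k β m u → Gen u →
      Nat.card H ≤ 2 * Nat.card {x : Mk H × List (St 8 H) //
        (∀ s : ℤ, x.1.1 ^ s * lam x.1 = 1 ↔ m.1 ^ s * lam m = 1) ∧ (Good x.1 ↔ Good m) ∧
        IsSol k β x.1 x.2 ∧ Gen x.2 ∧ ¬ Gen (zip2 u x.2)}) ∧
  (∀ (H : Type) [Group H], commutator H = ⊤ → ∀ u v w : List (St 8 H), labs u = labs v →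
    labs u = labs w → Gen (zip2 u v) → Gen (zip2 u w) → Gen (zip2 v w) →
      Gen (zip2 (zip2 u v) w)) ∧
  (∀ (H : Type) [Group H] (u v : List (St 8 H)), labs u = labs v → Gen (zip2 u v) →
    Gen (zip2 v u)) ∧
  (∀ (H : Type) [Group H] (b : Fin 8 → H) (u : List (St 8 H)), Based b u → Gen u → NGen b) ∧
  (∀ (H H' : Type) [Group H] [Group H'] (k : ℕ) (m : Mk H) (m' : Mk H')
    (u : List (St 8 H)) (u' : List (St 8 H')), InT k (bs (ym m)) u → InT k (bs (ym m')) u' →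
      InT k (bs (ym (pm m m'))) (zip2 u u') ∧ ∀ β : BraidGroup (8 * k),
        (IsSol k β (pm m m') (zip2 u u') ↔ IsSol k β m u ∧ IsSol k β m' u')) ∧
  ∀ (H : Type) [Group H] [Finite H], commutator H = ⊤ → RowB3 → ∀ η : ℝ, 0 < η → ∃ k0, ∀ k ≥ k0,
    ∀ b b' : Fin 8 → H, OddB b → OddB b' → NGen b → NGen b' →
      (Nat.card {x : List (St 8 H) × List (St 8 H) //
        InT k b x.1 ∧ InT k b' x.2 ∧ ¬ Gen (zip2 x.1 x.2)} : ℝ) ≤ η * (Nat.card H : ℝ) ^ (8 * k)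

/-! ### Rows G and P: probability -/

/-- the classes modulo `S` of the elements of the coset `β Γ` -/
def Om {N : ℕ} (S Γ : Subgroup (BraidGroup N)) (β : BraidGroup N) : Type :=
  {q : BraidGroup N ⧸ S // ∃ γ ∈ Γ, ((β * γ : BraidGroup N) : _ ⧸ S) = q}

/-- the probability of one colouring (inputs: `RowB1`, `RowB3`, `RowF1`) -/
def RowG1 : Prop :=
  ∀ (H : Type) [Group H] [Finite H], commutator H = ⊤ → ∀ η : ℝ, 0 < η → ∃ k0, ∀ k ≥ k0,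
    ∀ (S Γ : Subgroup (BraidGroup (8 * k))) [S.Normal] [S.FiniteIndex],
      S ≤ (bact H (8 * k)).ker → Γ ≤ Tw (8 * k) 1 → (∀ b : Fin 8 → H, OddB b → Tr k Γ b) →
      ∀ β ∈ Tw (8 * k) 1, ∀ (m : Mk H) (u : List (St 8 H)), Commute m.1 (lam m) →
        InT k (bs (ym m)) u → Gen u →
        (1 - η) * Nat.card (Om S Γ β) ≤
          (Nat.card H : ℝ) ^ (4 * k + 3) * Nat.card {ω : Om S Γ β // IsSol k ω.1.out m u} ∧
        (Nat.card H : ℝ) ^ (4 * k + 3) * Nat.card {ω : Om S Γ β // IsSol k ω.1.out m u} ≤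
          (1 + η) * Nat.card (Om S Γ β)

/-- three moments: a signed count is not concentrated at one value -/
def RowP : Prop :=
  ∀ C : ℝ, 1 ≤ C → ∃ δ η : ℝ, 0 < δ ∧ δ < 1 ∧ 0 < η ∧ η < 1 ∧
    ∀ (Ω V : Type) [Finite Ω] [Finite V] (I : V → Ω → Prop) (σ : V → Prop) (R : V → V → Prop)
      (a Q : ℝ), 0 < a → 0 < Q →
      (∀ v, (1 - η) * Nat.card Ω ≤ Q * Nat.card {ω // I v ω} ∧
        Q * Nat.card {ω // I v ω} ≤ (1 + η) * Nat.card Ω) →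
      (∀ v v', ¬ R v v' → (1 - η) * Nat.card Ω ≤ Q ^ 2 * Nat.card {ω // I v ω ∧ I v' ω} ∧
        Q ^ 2 * Nat.card {ω // I v ω ∧ I v' ω} ≤ (1 + η) * Nat.card Ω) →
      (∀ v v' v'', ¬ R v v' → ¬ R v v'' → ¬ R v' v'' →
        Q ^ 3 * Nat.card {ω // (I v ω ∧ I v' ω) ∧ I v'' ω} ≤ (1 + η) * Nat.card Ω) →
      (∀ v ω, I v ω → a ≤ 2 * Nat.card {v' // R v v' ∧ I v' ω} ∧
        Nat.card {v' // R v v' ∧ I v' ω} ≤ C * a) →
      (∀ v v' ω, I v ω → I v' ω → R v v' → (σ v ↔ σ v')) →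
      a * Q ≤ C * Nat.card V → Nat.card V ≤ C * (a * Q) →
      Nat.card {x : V × V // R x.1 x.2} ≤ η * (a * Q) ^ 2 →
      ∀ c : ℤ, (Nat.card {ω // (Nat.card {v // σ v ∧ I v ω} : ℤ) =
        Nat.card {v // ¬ σ v ∧ I v ω} + c} : ℝ) ≤ (1 - δ) * Nat.card Ω

/-- one prime -/
def RowG : Prop :=
  ∃ (δ : ℝ) (p0 : ℕ), 0 < δ ∧ δ < 1 ∧ ∀ (p : ℕ) [Fact p.Prime], p0 ≤ p → p % 4 = 1 →
    ∀ M j : ℕ, ¬ p ∣ M → p ^ 2 - 1 ∣ M → ∃ k0, ∀ k ≥ k0,
      ∀ (S : Subgroup (BraidGroup (8 * k))) [S.Normal] [S.FiniteIndex],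
        S ≤ (bact (SLp p) (8 * k)).ker → ∀ β ∈ Tw (8 * k) 1, AM k β →
        (Nat.card {ω : Om S (Der (8 * k) M (j + 1)) β //
          NS k (SLp p) ω.1.out 2 = NS k (SLp p) ω.1.out (-2)} : ℝ) ≤
            (1 - δ) * Nat.card (Om S (Der (8 * k) M (j + 1)) β)

/-- many primes (inputs: `RowD1`, `RowF1`, `RowG`) -/
def RowH : Prop :=
  ∀ M j : ℕ, 0 < M → ∀ ε : ℝ, 0 < ε → ∃ k0, ∀ k ≥ k0,
    ∃ S : Subgroup (BraidGroup (8 * k)), S.Normal ∧ S.FiniteIndex ∧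
      ∀ β ∈ Tw (8 * k) 1, AM k β →
        (Nat.card {q : BraidGroup (8 * k) ⧸ S // ∃ γ ∈ Der (8 * k) M (j + 1),
          (∀ (G : Type) [Group G] [Finite G], NS k G (β * γ) 2 = NS k G (β * γ) (-2)) ∧
          ((β * γ : BraidGroup (8 * k)) : _ ⧸ S) = q} : ℝ) ≤
            ε * Nat.card (Om S (Der (8 * k) M (j + 1)) β)

end Vale.Agent.Q258D
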