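import Vale.Agent.Q258D.Core
import Vale.Agent.Q258D.DefsJ

/-!
# The statement on the Kauffman bracket
-/

namespace Vale.Agent.Q258D

open Vale.Agent.P258.Braid Vale.Agent.N258B

/-- the bracket on a coset -/
def RowJ : Prop :=
  ∀ (k M j : ℕ) (w0 w : Word), (∀ x ∈ w0, x.1 + 1 < 8 * k) →
    InCoset (Der (8 * k) M (j + 1)) w0 w →
      (∀ (R : Type) [CommRing R] (A : Rˣ), ((A : R) ^ 4 - 1) ^ 2 ^ (j + 1) ∣
        bracket A (8 * k) (surf k w) - bracket A (8 * k) (surf k w0)) ∧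
      ∀ A : ℂˣ, A ^ (8 * M) = 1 → A ^ 16 ≠ 1 → A ^ 24 ≠ 1 →
        bracket A (8 * k) (surf k w) = bracket A (8 * k) (surf k w0)

/-- the bracket of the standard surface -/
def RowJ0 : Prop :=
  ∀ (k : ℕ), 0 < k → ∀ (R : Type) [CommRing R] (A : Rˣ), bracket A (8 * k) (surf k []) = 1

end Vale.Agent.Q258D
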