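import Vale.Agent.Q258D.Core
import Vale.Agent.N258B.K5

/-!
# The statements of the parts of the proof (knots and bands)
-/

namespace Vale.Agent.Q258D

open Vale.Agent.P258.Braid Vale.Agent.N258B Topology

/-- colourings of the knot and colourings of the surface -/
def RowE1 : Prop :=
  ∀ (k : ℕ), 0 < k → ∀ w : Word, (∀ x ∈ w, x.1 + 1 < 8 * k) → toBraid (8 * k) w ∈ Tw (8 * k) 1 →
    (∀ x ∈ surf k w, x.1 + 1 < 2 * (8 * k)) ∧
    (∀ p, pos (surf k w) (surf k w).length p = pos (surf k []) (surf k []).length p) ∧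
    ∀ (H : Type) [Group H],
      ∃ Φ : {c : Fin (2 * (8 * k)) → H // Capd (8 * k) (surf k w) (Pc c)} ≃
        {x : Mk H × List (St 8 H) //
          Commute x.1.1 (lam x.1) ∧ IsSol k (toBraid (8 * k) w) x.1 x.2},
        ∀ c, (Φ c).1.1.1 = (Pc c.1 1)⁻¹ ∧ lam (Φ c).1.1 = Raw (surf k w) (Pc c.1) ∧
          ((∀ i j, Commute (c.1 i) (c.1 j)) → ∀ j, ym (Φ c).1.1 j = 1) ∧
          ((∀ j, ym (Φ c).1.1 j = 1) → ∀ i, c.1 i ∈ Subgroup.zpowers (Φ c).1.1.1)

/-- the topological meaning (input: `RowE1`) -/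
def RowE2 : Prop :=
  ∀ (k : ℕ), 0 < k → ∀ w : Word, (∀ x ∈ w, x.1 + 1 < 8 * k) → toBraid (8 * k) w ∈ Tw (8 * k) 1 →
    ∀ e : ↥(pattern (8 * k) 0 (surf k w)) → S3,
      (IsOpenEmbedding e → ∃ ν, Framed (8 * k) 0 (surf k w) e ν) ∧
      ∀ ν, Framed (8 * k) 0 (surf k w) e ν →
        (GenusTwoAlexOne ν ↔ AM k (toBraid (8 * k) w)) ∧
        ∀ (G : Type) [Group G] [Finite G],
          NS k G (toBraid (8 * k) w) 2 ≠ NS k G (toBraid (8 * k) w) (-2) →
            Distinct (Surgery ν 2) (Surgery ν (-2))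

/-- the plat is a knot, and the trivial braid has Alexander polynomial one -/
def RowE3 : Prop := ∀ (k : ℕ), 0 < k → per (surf k []) = 8 * k ∧ AM k 1

end Vale.Agent.Q258D
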